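import Vale.Agent.P146.H205.E2

/-!
# P146: the left side of the tested row equation, weight of two statistics

`K = Kset S BL FL`, `K' = Kset (insert i0 S) BL FL`, `M_j = cx K <a s_j>`, `N = cx K' <a s_i0>`,
`Q = |M|^2 / n`, `kap = cx K Θ` with `Θ` an observable of the disorder attached to a hidden site.
For `G (√Q) kap` bounded and Lipschitz in both arguments the mean of `G N^2` is `n/|S|` times the
mean of `G Q`, up to the increments of `ex |M|^2` and of `ex kap^2` in one step.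
-/

open MeasureTheory ProbabilityTheory

namespace Vale.Agent.P146.H266.Brm

open Vale.Agent.P157.Lv hiding Dep
open Vale.Agent.P146.H196 Vale.Agent.P146.H646 Vale.Agent.P146.H475 Vale.Agent.P146.H347
  Vale.Agent.P146.H487 Vale.Agent.P146.H325 Vale.Agent.P146.H205

set_option linter.unusedSectionVars false

variable {n : ℕ} {LB LF : Type} [Fintype LB] [DecidableEq LB] [Fintype LF] [DecidableEq LF]
variable (b : ℝ) (cB : LB → ℝ) (cF : LF → ℝ) (s η : ℝ)

/-- `kap`, the mean of the observable of site `i` given `K` -/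
noncomputable abbrev kap (b : ℝ) (cB : LB → ℝ) (cF : LF → ℝ) (s η lam c x : ℝ)
    (K : Finset (Co n LB LF)) (Θ : Fin n → (Co n LB LF → ℝ) → ℝ) (i : Fin n) :
    (Co n LB LF → ℝ) → ℝ :=
  cx (g1 _) K (Wx n b cB cF s η lam c x) (Θ i)

/-- `|M| ^ 2 / n` -/
noncomputable abbrev qq (b : ℝ) (cB : LB → ℝ) (cF : LF → ℝ) (s η lam c x : ℝ)
    (K : Finset (Co n LB LF)) (S : Finset (Fin n)) (z : Co n LB LF → ℝ) : ℝ :=
  H615.m2 S (fun j => cx (g1 _) K (Wx n b cB cF s η lam c x) (Fa b cB cF s η lam c j)) z / n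

/-- increment of `ex |M| ^ 2` when `K` is replaced by `K'` -/
noncomputable abbrev incM (b : ℝ) (cB : LB → ℝ) (cF : LF → ℝ) (s η lam c x : ℝ)
    (K K' : Finset (Co n LB LF)) (S : Finset (Fin n)) : ℝ :=
  ∑ j ∈ S, (ex (g1 _) (Wx n b cB cF s η lam c x)
      (fun z => cx (g1 _) K' (Wx n b cB cF s η lam c x) (Fa b cB cF s η lam c j) z ^ 2) -
    ex (g1 _) (Wx n b cB cF s η lam c x)
      (fun z => cx (g1 _) K (Wx n b cB cF s η lam c x) (Fa b cB cF s η lam c j) z ^ 2))

/-- increment of `ex kap ^ 2` when `K` is replaced by `K'` -/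
noncomputable abbrev incK (b : ℝ) (cB : LB → ℝ) (cF : LF → ℝ) (s η lam c x : ℝ)
    (K K' : Finset (Co n LB LF)) (Θ : Fin n → (Co n LB LF → ℝ) → ℝ) (i : Fin n) : ℝ :=
  ex (g1 _) (Wx n b cB cF s η lam c x) (fun z => kap b cB cF s η lam c x K' Θ i z ^ 2) -
    ex (g1 _) (Wx n b cB cF s η lam c x) (fun z => kap b cB cF s η lam c x K Θ i z ^ 2)

section

variable {lam : ℝ} (hl : 0 < lam) (hη : 0 ≤ η) (c x : ℝ)
include hl

/-- the hidden sites have the same `kap` -/
theorem kap_hid {Θ : Fin n → (Co n LB LF → ℝ) → ℝ} (hΘ : Eq1 Θ)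
    {S : Finset (Fin n)} (BL : Finset LB) (FL : Finset LF) {i j : Fin n} (hi : i ∉ S) (hj : j ∉ S)
    (z : Co n LB LF → ℝ) :
    kap b cB cF s η lam c x (Kset S BL FL) Θ i z =
      kap b cB cF s η lam c x (Kset S BL FL) Θ j z :=
  hΘ.cx_hid (invP_Z b cB cF s η hl c 1 x) hj hi z

include hη

/-- the tower property of `kap` -/
theorem kap_tower {Θ : Fin n → (Co n LB LF → ℝ) → ℝ} (hΘb : ∀ i, BM (Θ i))
    {K K' : Finset (Co n LB LF)} (hK : K ⊆ K') (i : Fin n) (z : Co n LB LF → ℝ) :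
    cx (g1 _) K (Wx n b cB cF s η lam c x) (kap b cB cF s η lam c x K' Θ i) z =
      kap b cB cF s η lam c x K Θ i z :=
  cx_cx (wtA b cB cF s hl hη c x) hK (hΘb i) z

theorem incK_nonneg {Θ : Fin n → (Co n LB LF → ℝ) → ℝ} (hΘb : ∀ i, BM (Θ i))
    {K K' : Finset (Co n LB LF)} (hK : K ⊆ K') (i : Fin n) :
    0 ≤ incK b cB cF s η lam c x K K' Θ i := by
  have hw : Wt (g1 (Co n LB LF)) (Wx n b cB cF s η lam c x) := wtA b cB cF s hl hη c x
  unfold incK
  rw [← ex_sub_sq hw hK (hΘb i)]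
  exact ex_nonneg hw (H487.BM.sq' ((hw.bm_cx K' (hΘb i)).sub (hw.bm_cx K (hΘb i))))
    fun z => sq_nonneg _

/-- the sum of the increments of `ex kap ^ 2` along a chain is at most the bound of `Θ ^ 2` -/
theorem sum_incK_le {Θ : Fin n → (Co n LB LF → ℝ) → ℝ} (hΘb : ∀ i, BM (Θ i)) {C : ℝ}
    (hC : ∀ i z, |Θ i z| ≤ C) (K : ℕ → Finset (Co n LB LF)) (N : ℕ) (i : Fin n) :
    ∑ l ∈ Finset.range N, incK b cB cF s η lam c x (K l) (K (l + 1)) Θ i ≤ C ^ 2 := by
  have hw : Wt (g1 (Co n LB LF)) (Wx n b cB cF s η lam c x) := wtA b cB cF s hl hη c x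
  unfold incK
  rw [Finset.sum_range_sub
    (fun l => ex (g1 _) (Wx n b cB cF s η lam c x)
      (fun z => kap b cB cF s η lam c x (K l) Θ i z ^ 2)) N]
  have h1 : ex (g1 _) (Wx n b cB cF s η lam c x)
      (fun z => kap b cB cF s η lam c x (K N) Θ i z ^ 2) ≤ C ^ 2 := by
    have h2 := ex_mono hw (H487.BM.sq' (hw.bm_cx (K N) (hΘb i))) (BM.const (C ^ 2)) (fun z => by
      rw [← sq_abs]
      exact pow_le_pow_left₀ (abs_nonneg _) (hw.abs_cx_le (K N) (hΘb i) (hC i) z) 2)
    rwa [ex_const hw] at h2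
  have h3 : 0 ≤ ex (g1 _) (Wx n b cB cF s η lam c x)
      (fun z => kap b cB cF s η lam c x (K 0) Θ i z ^ 2) :=
    ex_nonneg hw (H487.BM.sq' (hw.bm_cx (K 0) (hΘb i))) fun z => sq_nonneg _
  linarith

/-- **E2 with two statistics**: the left side of the tested row equation, the weight is a function
of `√Q` and of `kap`. -/
theorem e2k (hn : 0 < n) {S : Finset (Fin n)} (hS : S.Nonempty) {i0 i1 : Fin n} (hi : i0 ∉ S)
    (hi1 : i1 ∉ insert i0 S) (BL : Finset LB) (FL : Finset LF)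
    {Θ : Fin n → (Co n LB LF → ℝ) → ℝ} (hΘb : ∀ i, BM (Θ i)) (hΘ : Eq1 Θ)
    {G : ℝ → ℝ → ℝ} (hG : Measurable (fun p : ℝ × ℝ => G p.1 p.2)) {P0 Lr Lk : ℝ}
    (hP : ∀ r k, |G r k| ≤ P0) (hLr : 0 ≤ Lr) (hLk : 0 ≤ Lk)
    (hL : ∀ r k r' k', |G r k - G r' k'| ≤ Lr * |r - r'| + Lk * |k - k'|) :
    |ex (g1 _) (Wx n b cB cF s η lam c x)
        (fun z => G (√(qq b cB cF s η lam c x (Kset S BL FL) S z))
          (kap b cB cF s η lam c x (Kset S BL FL) Θ i1 z) *
          cx (g1 _) (Kset (insert i0 S) BL FL) (Wx n b cB cF s η lam c x)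
            (Fa b cB cF s η lam c i0) z ^ 2) -
      n / S.card * ex (g1 _) (Wx n b cB cF s η lam c x)
        (fun z => G (√(qq b cB cF s η lam c x (Kset S BL FL) S z))
          (kap b cB cF s η lam c x (Kset S BL FL) Θ i1 z) *
          qq b cB cF s η lam c x (Kset S BL FL) S z)| ≤
    P0 * incM b cB cF s η lam c x (Kset S BL FL) (Kset (insert i0 S) BL FL) S / S.card +
      2 * ((Lr / √n * √(incM b cB cF s η lam c x (Kset S BL FL) (Kset (insert i0 S) BL FL) S +
          ex (g1 _) (Wx n b cB cF s η lam c x)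
            (fun z => cx (g1 _) (Kset (insert i0 S) BL FL) (Wx n b cB cF s η lam c x)
              (Fa b cB cF s η lam c i0) z ^ 2)) +
        Lk * √(incK b cB cF s η lam c x (Kset S BL FL) (Kset (insert i0 S) BL FL) Θ i1)) *
        √(ex (g1 _) (Wx n b cB cF s η lam c x)
            (fun z => cx (g1 _) (Kset (insert i0 S) BL FL) (Wx n b cB cF s η lam c x)
              (Fa b cB cF s η lam c i0) z ^ 4))) := by
  set w := Wx (LB := LB) (LF := LF) n b cB cF s η lam c x with hwd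
  set F : Fin n → (Co n LB LF → ℝ) → ℝ := Fa b cB cF s η lam c with hF
  set K : Finset (Co n LB LF) := Kset S BL FL with hK
  set K' : Finset (Co n LB LF) := Kset (insert i0 S) BL FL with hK'
  have hw : Wt (g1 (Co n LB LF)) w := wtA b cB cF s hl hη c x
  have hFb : ∀ j, BM (F j) := bm_Fa b cB cF s η hl hη c
  have hKK : K ⊆ K' :=
    Kset_mono (Finset.subset_insert i0 S) (Finset.Subset.refl _) (Finset.Subset.refl _)
  have hn' : (0 : ℝ) < n := Nat.cast_pos.2 hn
  have hsn : 0 < √(n : ℝ) := Real.sqrt_pos.2 hn'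
  have hSc : (0 : ℝ) < S.card := by exact_mod_cast hS.card_pos
  have hi1S : i1 ∉ S := fun h => hi1 (Finset.mem_insert_of_mem h)
  have hi10 : i1 ≠ i0 := fun h => hi1 (h ▸ Finset.mem_insert_self _ _)
  -- the test function of the two statistics
  set G' : (Bool → ℝ) → ℝ := fun v => G (v true / √n) (v false) with hG'
  have mp : Measurable (fun v : Bool → ℝ => (v true / √(n : ℝ), v false)) :=
    ((measurable_pi_apply true).div_const _).prodMk (measurable_pi_apply false)
  have mG' : Measurable G' := hG.comp mp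
  set L : Bool → ℝ := fun a => if a then Lr / √n else Lk with hLdef
  have hL0 : ∀ a, 0 ≤ L a := by
    intro a
    cases a
    · exact hLk
    · exact div_nonneg hLr hsn.le
  have hlip : ∀ v v' : Bool → ℝ, |G' v - G' v'| ≤ ∑ a, L a * |v a - v' a| := by
    intro v v'
    rw [Fintype.sum_bool]
    refine (hL _ _ _ _).trans (le_of_eq ?_)
    show Lr * |v true / √n - v' true / √n| + Lk * |v false - v' false| =
      Lr / √n * |v true - v' true| + Lk * |v false - v' false|
    have e1 : v true / √n - v' true / √n = (v true - v' true) / √n := by ring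
    rw [e1, abs_div, abs_of_pos hsn]
    ring
  set X : Bool → (Co n LB LF → ℝ) → ℝ := fun a =>
    if a then nrm (g1 _) K w S F else cx (g1 _) K w (Θ i1) with hX
  set X' : Bool → (Co n LB LF → ℝ) → ℝ := fun a =>
    if a then nrm (g1 _) K' w (insert i0 S) F else cx (g1 _) K' w (Θ i1) with hX'
  have bX : ∀ a, BM (X a) := by
    intro a
    cases a
    · exact hw.bm_cx K (hΘb i1)
    · exact bm_nrm hw K fun j _ => hFb j
  have bX' : ∀ a, BM (X' a) := by
    intro a
    cases a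
    · exact hw.bm_cx K' (hΘb i1)
    · exact bm_nrm hw K' fun j _ => hFb j
  have dX : ∀ a, H646.Dep K (X a) := by
    intro a
    cases a
    · exact dep_cx K
    · exact dep_nrm S F
  have hnq : ∀ z, nrm (g1 _) K w S F z / √n =
      √(H615.m2 S (fun j => cx (g1 _) K w (F j)) z / n) := by
    intro z
    rw [Real.sqrt_div' _ hn'.le]
    rfl
  have hGn : ∀ z, G' (fun a => X a z) =
      G (√(H615.m2 S (fun j => cx (g1 _) K w (F j)) z / n)) (cx (g1 _) K w (Θ i1) z) := by
    intro z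
    show G (nrm (g1 _) K w S F z / √n) (cx (g1 _) K w (Θ i1) z) = _
    rw [hnq]
  have hmem : ∀ j ∈ S, ∀ a, Equiv.swap i0 j a ∈ insert i0 S ↔ a ∈ insert i0 S := fun j hj =>
    swap_mem (iff_of_true (Finset.mem_insert_self _ _) (Finset.mem_insert_of_mem hj))
  have main := regk_lip (A := Bool) hw hKK hS (F := F) (fun j _ => hFb j) (hFb i0)
    (X := X) (X' := X') bX bX' dX (G := G') mG' (C := P0) (fun v => hP _ _)
    (L := L) hL0 hlip
    (fun j hj => ⟨acP (Equiv.swap i0 j),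
      sy_P b cB cF s η hl hη c x (Equiv.swap i0 j) BL FL (hmem j hj),
      fun z => by
        have h1 := eq1_sp b cB cF s η hl c 1 (al η) (Equiv.swap i0 j) i0 z
        rw [Equiv.swap_apply_left] at h1
        exact h1,
      fun a z => by
        cases a
        · have h1 := Sy.cx hw (sy_P b cB cF s η hl hη c x (Equiv.swap i0 j) BL FL (hmem j hj))
            (hΘb i1) (g := Θ i1) (fun z => by
              rw [hΘ, Equiv.swap_apply_of_ne_of_ne hi10 (fun h => hi1S (h ▸ hj))]) z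
          exact h1.symm
        · exact nrm_sy hw (sy_P b cB cF s η hl hη c x (Equiv.swap i0 j) BL FL (hmem j hj))
            (fun j _ => hFb j) (σ := Equiv.swap i0 j) (hmem j hj)
            (fun i _ z => eq1_sp b cB cF s η hl c 1 (al η) (Equiv.swap i0 j) i z) z⟩)
  simp only [hGn] at main
  -- the average over `S`
  have bG : BM (fun z => G (√(H615.m2 S (fun j => cx (g1 _) K w (F j)) z / n))
      (cx (g1 _) K w (Θ i1) z)) := by
    refine ⟨?_, P0, fun z => hP _ _⟩
    refine hG.comp (Measurable.prodMk (Measurable.sqrt (Measurable.div_const ?_ _))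
      (hw.bm_cx K (hΘb i1)).meas)
    exact Finset.measurable_fun_sum _ fun j _ => (hw.bm_cx K (hFb j)).meas.pow_const 2
  have eS : (∑ j ∈ S, ex (g1 _) w (fun z => G (√(H615.m2 S (fun j => cx (g1 _) K w (F j)) z / n))
      (cx (g1 _) K w (Θ i1) z) * cx (g1 _) K w (F j) z ^ 2)) / S.card =
      n / S.card * ex (g1 _) w (fun z => G (√(H615.m2 S (fun j => cx (g1 _) K w (F j)) z / n))
        (cx (g1 _) K w (Θ i1) z) * (H615.m2 S (fun j => cx (g1 _) K w (F j)) z / n)) := by
    have bq : ∀ j ∈ S, BM (fun z => G (√(H615.m2 S (fun j => cx (g1 _) K w (F j)) z / n))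
        (cx (g1 _) K w (Θ i1) z) * cx (g1 _) K w (F j) z ^ 2) :=
      fun j _ => bG.mul (BM.sq' (hw.bm_cx K (hFb j)))
    rw [← ex_sum hw S bq, ← ex_const_mul (μ := g1 _) (w := w) ((n : ℝ) / S.card),
      div_eq_inv_mul, ← ex_const_mul (μ := g1 _) (w := w)]
    congr 1
    funext z
    rw [← Finset.mul_sum]
    unfold H615.m2
    field_simp
  rw [eS] at main
  refine main.trans ?_
  have hst := nrm_step (ι := Fin n) hw hKK hi (F := F) (fun j _ => hFb j)
  have hsk : ex (g1 _) w (fun z => (X' false z - X false z) ^ 2) =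
      incK b cB cF s η lam c x K K' Θ i1 := ex_sub_sq hw hKK (hΘb i1)
  rw [Fintype.sum_bool, hsk]
  have hA : 0 ≤ Lr / √n := div_nonneg hLr hsn.le
  have h5 := Real.sqrt_le_sqrt hst
  have h6 := mul_le_mul_of_nonneg_left h5 hA
  have h7 := mul_le_mul_of_nonneg_right
    (add_le_add h6 (le_refl (Lk * √(incK b cB cF s η lam c x K K' Θ i1))))
    (Real.sqrt_nonneg (ex (g1 _) w fun z => cx (g1 _) K' w (F i0) z ^ 4))
  exact add_le_add le_rfl (mul_le_mul_of_nonneg_left h7 (by norm_num : (0 : ℝ) ≤ 2))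

/-- the same with the weight a function on `Fin 2 → ℝ` (`0 ↦ √Q`, `1 ↦ kap`) -/
theorem e2v (hn : 0 < n) {S : Finset (Fin n)} (hS : S.Nonempty) {i0 i1 : Fin n} (hi : i0 ∉ S)
    (hi1 : i1 ∉ insert i0 S) (BL : Finset LB) (FL : Finset LF)
    {Θ : Fin n → (Co n LB LF → ℝ) → ℝ} (hΘb : ∀ i, BM (Θ i)) (hΘ : Eq1 Θ)
    {G : (Fin 2 → ℝ) → ℝ} (hG : Measurable G) {P0 : ℝ} {L : Fin 2 → ℝ}
    (hP : ∀ v, |G v| ≤ P0) (hL0 : ∀ i, 0 ≤ L i)
    (hL : ∀ v v', |G v - G v'| ≤ ∑ i, L i * |v i - v' i|) :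
    |ex (g1 _) (Wx n b cB cF s η lam c x)
        (fun z => G ![√(qq b cB cF s η lam c x (Kset S BL FL) S z),
          kap b cB cF s η lam c x (Kset S BL FL) Θ i1 z] *
          cx (g1 _) (Kset (insert i0 S) BL FL) (Wx n b cB cF s η lam c x)
            (Fa b cB cF s η lam c i0) z ^ 2) -
      n / S.card * ex (g1 _) (Wx n b cB cF s η lam c x)
        (fun z => G ![√(qq b cB cF s η lam c x (Kset S BL FL) S z),
          kap b cB cF s η lam c x (Kset S BL FL) Θ i1 z] *
          qq b cB cF s η lam c x (Kset S BL FL) S z)| ≤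
    P0 * incM b cB cF s η lam c x (Kset S BL FL) (Kset (insert i0 S) BL FL) S / S.card +
      2 * ((L 0 / √n * √(incM b cB cF s η lam c x (Kset S BL FL) (Kset (insert i0 S) BL FL) S +
          ex (g1 _) (Wx n b cB cF s η lam c x)
            (fun z => cx (g1 _) (Kset (insert i0 S) BL FL) (Wx n b cB cF s η lam c x)
              (Fa b cB cF s η lam c i0) z ^ 2)) +
        L 1 * √(incK b cB cF s η lam c x (Kset S BL FL) (Kset (insert i0 S) BL FL) Θ i1)) *
        √(ex (g1 _) (Wx n b cB cF s η lam c x)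
            (fun z => cx (g1 _) (Kset (insert i0 S) BL FL) (Wx n b cB cF s η lam c x)
              (Fa b cB cF s η lam c i0) z ^ 4))) := by
  refine e2k b cB cF s η hl hη c x hn hS hi hi1 BL FL hΘb hΘ (G := fun r k => G ![r, k])
    ?_ (fun r k => hP _) (hL0 0) (hL0 1) (fun r k r' k' => ?_)
  · refine hG.comp (measurable_pi_lambda _ fun i => ?_)
    fin_cases i
    · exact measurable_fst
    · exact measurable_snd
  · have h := hL ![r, k] ![r', k']
    rw [Fin.sum_univ_two] at h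
    simpa using h

end

end Vale.Agent.P146.H266.Brm
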