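import Vale.Agent.P146.H266.Brm1

/-!
# P146: the left side of the tested row equation, any finite family of statistics

`e2x` : the weight is a bounded Lipschitz function of finitely many statistics of `Kset S BL FL`.
`e2n` : two norms, `√(|M|^2/n)` at two nested levels (two field levels and/or two bond levels).
`e2r` : one norm, Lipschitz in `r = √Q`.
-/

open MeasureTheory ProbabilityTheory

namespace Vale.Agent.P146.H266.Brm

open Vale.Agent.P157.Lv hiding Dep
open Vale.Agent.P146.H196 Vale.Agent.P146.H646 Vale.Agent.P146.H475 Vale.Agent.P146.H347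
  Vale.Agent.P146.H487 Vale.Agent.P146.H325 Vale.Agent.P146.H205

set_option linter.unusedSectionVars false

variable {n : ℕ} {LB LF : Type} [Fintype LB] [DecidableEq LB] [Fintype LF] [DecidableEq LF]
variable (b : ℝ) (cB : LB → ℝ) (cF : LF → ℝ) (s η : ℝ)

/-- `ex N ^ p`, `N = cx K' <a s_i0>` -/
noncomputable abbrev exN (b : ℝ) (cB : LB → ℝ) (cF : LF → ℝ) (s η lam c x : ℝ)
    (K' : Finset (Co n LB LF)) (i0 : Fin n) (p : ℕ) : ℝ :=
  ex (g1 _) (Wx n b cB cF s η lam c x)
    (fun z => cx (g1 _) K' (Wx n b cB cF s η lam c x) (Fa b cB cF s η lam c i0) z ^ p)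

section

variable {lam : ℝ} (hl : 0 < lam) (hη : 0 ≤ η) (c x : ℝ)
include hl hη

omit hl hη in
lemma mem_swap {S : Finset (Fin n)} {i0 j : Fin n} (hj : j ∈ S) (a : Fin n) :
    Equiv.swap i0 j a ∈ insert i0 S ↔ a ∈ insert i0 S :=
  swap_mem (iff_of_true (Finset.mem_insert_self _ _) (Finset.mem_insert_of_mem hj)) a

/-- **E2, any finite family of statistics.** -/
theorem e2x {A : Type*} [Fintype A] {S : Finset (Fin n)} (hS : S.Nonempty)
    {i0 : Fin n} (hi : i0 ∉ S) (BL : Finset LB) (FL : Finset LF)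
    {X X' : A → (Co n LB LF → ℝ) → ℝ} (hX : ∀ a, BM (X a)) (hX' : ∀ a, BM (X' a))
    (hdX : ∀ a, H646.Dep (Kset S BL FL) (X a))
    (hsX : ∀ a, ∀ j ∈ S, ∀ z, X' a (acP (Equiv.swap i0 j) z) = X' a z)
    {G : (A → ℝ) → ℝ} (hG : Measurable G) {P0 : ℝ} {L : A → ℝ}
    (hP : ∀ v, |G v| ≤ P0) (hL0 : ∀ a, 0 ≤ L a)
    (hL : ∀ v v', |G v - G v'| ≤ ∑ a, L a * |v a - v' a|) :
    |ex (g1 _) (Wx n b cB cF s η lam c x)
        (fun z => G (fun a => X a z) *
          cx (g1 _) (Kset (insert i0 S) BL FL) (Wx n b cB cF s η lam c x)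
            (Fa b cB cF s η lam c i0) z ^ 2) -
      n / S.card * ex (g1 _) (Wx n b cB cF s η lam c x)
        (fun z => G (fun a => X a z) * qq b cB cF s η lam c x (Kset S BL FL) S z)| ≤
    P0 * incM b cB cF s η lam c x (Kset S BL FL) (Kset (insert i0 S) BL FL) S / S.card +
      2 * ((∑ a, L a * √(ex (g1 _) (Wx n b cB cF s η lam c x)
          (fun z => (X' a z - X a z) ^ 2))) *
        √(exN b cB cF s η lam c x (Kset (insert i0 S) BL FL) i0 4)) := by
  set w := Wx (LB := LB) (LF := LF) n b cB cF s η lam c x with hwd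
  set F : Fin n → (Co n LB LF → ℝ) → ℝ := Fa b cB cF s η lam c with hF
  set K : Finset (Co n LB LF) := Kset S BL FL with hK
  set K' : Finset (Co n LB LF) := Kset (insert i0 S) BL FL with hK'
  have hw : Wt (g1 (Co n LB LF)) w := wtA b cB cF s hl hη c x
  have hFb : ∀ j, BM (F j) := bm_Fa b cB cF s η hl hη c
  have hKK : K ⊆ K' :=
    Kset_mono (Finset.subset_insert i0 S) (Finset.Subset.refl _) (Finset.Subset.refl _)
  have hSc : (0 : ℝ) < S.card := by exact_mod_cast hS.card_pos
  have hn' : (n : ℝ) ≠ 0 := by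
    have h1 := Finset.card_le_univ S
    rw [Fintype.card_fin] at h1
    have h2 : (S.card : ℝ) ≤ n := by exact_mod_cast h1
    exact (lt_of_lt_of_le hSc h2).ne'
  have main := regk_lip (A := A) hw hKK hS (F := F) (fun j _ => hFb j) (hFb i0)
    (X := X) (X' := X') hX hX' hdX (G := G) hG (C := P0) (fun v => hP _)
    (L := L) hL0 hL
    (fun j hj => ⟨acP (Equiv.swap i0 j),
      sy_P b cB cF s η hl hη c x (Equiv.swap i0 j) BL FL (mem_swap hj),
      fun z => by
        have h1 := eq1_sp b cB cF s η hl c 1 (al η) (Equiv.swap i0 j) i0 z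
        rw [Equiv.swap_apply_left] at h1
        exact h1,
      fun a z => hsX a j hj z⟩)
  -- the average over `S`
  have bG : BM (fun z => G (fun a => X a z)) :=
    ⟨hG.comp (measurable_pi_lambda _ fun a => (hX a).meas), P0, fun z => hP _⟩
  have eS : (∑ j ∈ S, ex (g1 _) w (fun z => G (fun a => X a z) *
      cx (g1 _) K w (F j) z ^ 2)) / S.card =
      n / S.card * ex (g1 _) w (fun z => G (fun a => X a z) *
        (H615.m2 S (fun j => cx (g1 _) K w (F j)) z / n)) := by
    have bq : ∀ j ∈ S, BM (fun z => G (fun a => X a z) * cx (g1 _) K w (F j) z ^ 2) :=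
      fun j _ => bG.mul (BM.sq' (hw.bm_cx K (hFb j)))
    rw [← ex_sum hw S bq, ← ex_const_mul (μ := g1 _) (w := w) ((n : ℝ) / S.card),
      div_eq_inv_mul, ← ex_const_mul (μ := g1 _) (w := w)]
    congr 1
    funext z
    rw [← Finset.mul_sum]
    unfold H615.m2
    field_simp
  rw [eS] at main
  exact main

omit hl hη in
/-- the norm at a level is a statistic of any finer level with the same `S` -/
lemma dep_nq {S : Finset (Fin n)} {BL1 BL2 : Finset LB} {FL1 FL2 : Finset LF}
    (hB : BL2 ⊆ BL1) (hF : FL2 ⊆ FL1) :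
    H646.Dep (Kset S BL1 FL1) (fun z => √(qq b cB cF s η lam c x (Kset S BL2 FL2) S z)) := by
  have h1 : H646.Dep (Kset S BL2 FL2) (fun z => ∑ j ∈ S,
      cx (g1 _) (Kset S BL2 FL2) (Wx n b cB cF s η lam c x) (Fa b cB cF s η lam c j) z ^ 2) :=
    H615.Dep.sum S fun j _ => H615.Dep.sq (dep_cx _)
  have h2 : H646.Dep (Kset S BL1 FL1) (fun z => ∑ j ∈ S,
      cx (g1 _) (Kset S BL2 FL2) (Wx n b cB cF s η lam c x) (Fa b cB cF s η lam c j) z ^ 2) :=
    H646.Dep.mono (Kset_mono (Finset.Subset.refl _) hB hF) h1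
  exact H615.Dep.comp (fun y => √(y / n)) h2

omit hl hη in
lemma nq_eq (K : Finset (Co n LB LF)) (T : Finset (Fin n)) (z : Co n LB LF → ℝ) :
    √(qq b cB cF s η lam c x K T z) =
      nrm (g1 _) K (Wx n b cB cF s η lam c x) T (Fa b cB cF s η lam c) z / √n := by
  rw [Real.sqrt_div' _ (Nat.cast_nonneg n)]
  rfl

/-- the square of the step of `√Q` is at most `(incM + ex N ^ 2) / n` -/
theorem step_nq (hn : 0 < n) {S : Finset (Fin n)} {i0 : Fin n} (hi : i0 ∉ S) (BL : Finset LB)
    (FL : Finset LF) :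
    √(ex (g1 _) (Wx n b cB cF s η lam c x) (fun z =>
      (√(qq b cB cF s η lam c x (Kset (insert i0 S) BL FL) (insert i0 S) z) -
        √(qq b cB cF s η lam c x (Kset S BL FL) S z)) ^ 2)) ≤
      √(incM b cB cF s η lam c x (Kset S BL FL) (Kset (insert i0 S) BL FL) S +
        exN b cB cF s η lam c x (Kset (insert i0 S) BL FL) i0 2) / √n := by
  set w := Wx (LB := LB) (LF := LF) n b cB cF s η lam c x with hwd
  set F : Fin n → (Co n LB LF → ℝ) → ℝ := Fa b cB cF s η lam c with hF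
  have hw : Wt (g1 (Co n LB LF)) w := wtA b cB cF s hl hη c x
  have hFb : ∀ j, BM (F j) := bm_Fa b cB cF s η hl hη c
  have hKK : Kset (LB := LB) (LF := LF) S BL FL ⊆ Kset (insert i0 S) BL FL :=
    Kset_mono (Finset.subset_insert i0 S) (Finset.Subset.refl _) (Finset.Subset.refl _)
  have hn' : (0 : ℝ) < n := Nat.cast_pos.2 hn
  have hst := nrm_step (ι := Fin n) hw hKK hi (F := F) (fun j _ => hFb j)
  have e1 : ∀ (K : Finset (Co n LB LF)) (T : Finset (Fin n)) z,
      √(qq b cB cF s η lam c x K T z) = nrm (g1 _) K w T F z / √n :=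
    fun K T z => nq_eq b cB cF s η c x K T z
  have e2 : (fun z => (√(qq b cB cF s η lam c x (Kset (insert i0 S) BL FL) (insert i0 S) z) -
        √(qq b cB cF s η lam c x (Kset S BL FL) S z)) ^ 2) =
      fun z => (1 / (n : ℝ)) * (nrm (g1 _) (Kset (insert i0 S) BL FL) w (insert i0 S) F z -
        nrm (g1 _) (Kset S BL FL) w S F z) ^ 2 := by
    funext z
    rw [e1, e1, ← sub_div, div_pow, Real.sq_sqrt hn'.le]
    ring
  have e3 := ex_const_mul (μ := g1 (Co n LB LF)) (w := w)
    (Ψ := fun z => (nrm (g1 _) (Kset (insert i0 S) BL FL) w (insert i0 S) F z -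
        nrm (g1 _) (Kset S BL FL) w S F z) ^ 2) (1 / (n : ℝ))
  rw [e2, e3, ← Real.sqrt_div' _ hn'.le]
  refine Real.sqrt_le_sqrt ?_
  have h5 := mul_le_mul_of_nonneg_left hst (one_div_nonneg.2 hn'.le)
  refine h5.trans (le_of_eq ?_)
  rw [one_div, ← div_eq_inv_mul]

/-- the norm of the larger block is symmetric -/
lemma sym_nq {S : Finset (Fin n)} {i0 j : Fin n} (hj : j ∈ S) (BL : Finset LB) (FL : Finset LF)
    (z : Co n LB LF → ℝ) :
    √(qq b cB cF s η lam c x (Kset (insert i0 S) BL FL) (insert i0 S)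
        (acP (Equiv.swap i0 j) z)) =
      √(qq b cB cF s η lam c x (Kset (insert i0 S) BL FL) (insert i0 S) z) := by
  have hw : Wt (g1 (Co n LB LF)) (Wx n b cB cF s η lam c x) := wtA b cB cF s hl hη c x
  have h1 := nrm_sy hw (sy_P b cB cF s η hl hη c x (Equiv.swap i0 j) BL FL (mem_swap hj))
    (F := Fa b cB cF s η lam c) (fun j _ => bm_Fa b cB cF s η hl hη c j)
    (σ := Equiv.swap i0 j) (mem_swap hj)
    (fun i _ z => eq1_sp b cB cF s η hl c 1 (al η) (Equiv.swap i0 j) i z) z
  rw [nq_eq, nq_eq, h1]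

lemma bm_nq (S : Finset (Fin n)) (K : Finset (Co n LB LF)) :
    BM (fun z => √(qq b cB cF s η lam c x K S z)) := by
  have hw : Wt (g1 (Co n LB LF)) (Wx n b cB cF s η lam c x) := wtA b cB cF s hl hη c x
  have h1 : BM (fun z => qq b cB cF s η lam c x K S z) := by
    have h2 : BM (fun z => (n : ℝ)⁻¹ * ∑ j ∈ S,
        cx (g1 _) K (Wx n b cB cF s η lam c x) (Fa b cB cF s η lam c j) z ^ 2) :=
      (BM.const _).mul (BM.sum S fun j _ => H487.BM.sq' (hw.bm_cx K (bm_Fa b cB cF s η hl hη c j)))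
    refine ⟨?_, ?_⟩
    · have e : (fun z => qq b cB cF s η lam c x K S z) = fun z => (n : ℝ)⁻¹ * ∑ j ∈ S,
          cx (g1 _) K (Wx n b cB cF s η lam c x) (Fa b cB cF s η lam c j) z ^ 2 := by
        funext z
        unfold qq H615.m2
        rw [div_eq_inv_mul]
      rw [e]
      exact h2.meas
    · obtain ⟨C, hC⟩ := h2.bd
      refine ⟨C, fun z => ?_⟩
      have e : qq b cB cF s η lam c x K S z = (n : ℝ)⁻¹ * ∑ j ∈ S,
          cx (g1 _) K (Wx n b cB cF s η lam c x) (Fa b cB cF s η lam c j) z ^ 2 := by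
        unfold qq H615.m2
        rw [div_eq_inv_mul]
      rw [e]
      exact hC z
  exact H487.BM.sqrt h1

/-- **E2, two norms**: the weight is a function of `√Q` at the level `(BL, FL)` of the equation and
of `√Q` at a coarser level `(BL2, FL2)`. -/
theorem e2n (hn : 0 < n) {S : Finset (Fin n)} (hS : S.Nonempty) {i0 : Fin n} (hi : i0 ∉ S)
    {BL BL2 : Finset LB} {FL FL2 : Finset LF} (hB : BL2 ⊆ BL) (hF : FL2 ⊆ FL)
    {G : (Fin 2 → ℝ) → ℝ} (hG : Measurable G) {P0 : ℝ} {L : Fin 2 → ℝ}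
    (hP : ∀ v, |G v| ≤ P0) (hL0 : ∀ i, 0 ≤ L i)
    (hL : ∀ v v', |G v - G v'| ≤ ∑ i, L i * |v i - v' i|) :
    |ex (g1 _) (Wx n b cB cF s η lam c x)
        (fun z => G ![√(qq b cB cF s η lam c x (Kset S BL FL) S z),
          √(qq b cB cF s η lam c x (Kset S BL2 FL2) S z)] *
          cx (g1 _) (Kset (insert i0 S) BL FL) (Wx n b cB cF s η lam c x)
            (Fa b cB cF s η lam c i0) z ^ 2) -
      n / S.card * ex (g1 _) (Wx n b cB cF s η lam c x)
        (fun z => G ![√(qq b cB cF s η lam c x (Kset S BL FL) S z),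
          √(qq b cB cF s η lam c x (Kset S BL2 FL2) S z)] *
          qq b cB cF s η lam c x (Kset S BL FL) S z)| ≤
    P0 * incM b cB cF s η lam c x (Kset S BL FL) (Kset (insert i0 S) BL FL) S / S.card +
      2 * ((L 0 / √n * √(incM b cB cF s η lam c x (Kset S BL FL) (Kset (insert i0 S) BL FL) S +
          exN b cB cF s η lam c x (Kset (insert i0 S) BL FL) i0 2) +
        L 1 / √n * √(incM b cB cF s η lam c x (Kset S BL2 FL2) (Kset (insert i0 S) BL2 FL2) S +
          exN b cB cF s η lam c x (Kset (insert i0 S) BL2 FL2) i0 2)) *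
        √(exN b cB cF s η lam c x (Kset (insert i0 S) BL FL) i0 4)) := by
  set X : Fin 2 → (Co n LB LF → ℝ) → ℝ := fun a z =>
    ![√(qq b cB cF s η lam c x (Kset S BL FL) S z),
      √(qq b cB cF s η lam c x (Kset S BL2 FL2) S z)] a with hX
  set X' : Fin 2 → (Co n LB LF → ℝ) → ℝ := fun a z =>
    ![√(qq b cB cF s η lam c x (Kset (insert i0 S) BL FL) (insert i0 S) z),
      √(qq b cB cF s η lam c x (Kset (insert i0 S) BL2 FL2) (insert i0 S) z)] a with hX'
  have bX : ∀ a, BM (X a) := by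
    intro a
    fin_cases a
    · exact bm_nq b cB cF s η hl hη c x S _
    · exact bm_nq b cB cF s η hl hη c x S _
  have bX' : ∀ a, BM (X' a) := by
    intro a
    fin_cases a
    · exact bm_nq b cB cF s η hl hη c x _ _
    · exact bm_nq b cB cF s η hl hη c x _ _
  have dX : ∀ a, H646.Dep (Kset S BL FL) (X a) := by
    intro a
    fin_cases a
    · exact dep_nq b cB cF s η c x (Finset.Subset.refl _) (Finset.Subset.refl _)
    · exact dep_nq b cB cF s η c x hB hF
  have sX : ∀ a, ∀ j ∈ S, ∀ z, X' a (acP (Equiv.swap i0 j) z) = X' a z := by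
    intro a j hj z
    fin_cases a
    · exact sym_nq b cB cF s η hl hη c x hj BL FL z
    · exact sym_nq b cB cF s η hl hη c x hj BL2 FL2 z
  have h := e2x b cB cF s η hl hη c x hS hi BL FL bX bX' dX sX hG hP hL0 hL
  have eX : ∀ z, (fun a => X a z) = ![√(qq b cB cF s η lam c x (Kset S BL FL) S z),
      √(qq b cB cF s η lam c x (Kset S BL2 FL2) S z)] := fun z => rfl
  simp only [eX] at h
  refine h.trans ?_
  rw [Fin.sum_univ_two]
  have s0 := step_nq b cB cF s η hl hη c x hn hi BL FL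
  have s1 := step_nq b cB cF s η hl hη c x hn hi BL2 FL2
  have t0 := mul_le_mul_of_nonneg_left s0 (hL0 0)
  have t1 := mul_le_mul_of_nonneg_left s1 (hL0 1)
  refine add_le_add le_rfl (mul_le_mul_of_nonneg_left
    (mul_le_mul_of_nonneg_right ?_ (Real.sqrt_nonneg _)) (by norm_num : (0 : ℝ) ≤ 2))
  refine (add_le_add t0 t1).trans (le_of_eq ?_)
  ring

/-- **E2, one norm**, Lipschitz in `r = √Q` -/
theorem e2r (hn : 0 < n) {S : Finset (Fin n)} (hS : S.Nonempty) {i0 : Fin n} (hi : i0 ∉ S)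
    (BL : Finset LB) (FL : Finset LF)
    {G : ℝ → ℝ} (hG : Measurable G) {P0 L : ℝ}
    (hP : ∀ v, |G v| ≤ P0) (hL0 : 0 ≤ L)
    (hL : ∀ r r', 0 ≤ r → 0 ≤ r' → |G r - G r'| ≤ L * |r - r'|) :
    |ex (g1 _) (Wx n b cB cF s η lam c x)
        (fun z => G (√(qq b cB cF s η lam c x (Kset S BL FL) S z)) *
          cx (g1 _) (Kset (insert i0 S) BL FL) (Wx n b cB cF s η lam c x)
            (Fa b cB cF s η lam c i0) z ^ 2) -
      n / S.card * ex (g1 _) (Wx n b cB cF s η lam c x)
        (fun z => G (√(qq b cB cF s η lam c x (Kset S BL FL) S z)) *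
          qq b cB cF s η lam c x (Kset S BL FL) S z)| ≤
    P0 * incM b cB cF s η lam c x (Kset S BL FL) (Kset (insert i0 S) BL FL) S / S.card +
      2 * (L / √n * √(incM b cB cF s η lam c x (Kset S BL FL) (Kset (insert i0 S) BL FL) S +
          exN b cB cF s η lam c x (Kset (insert i0 S) BL FL) i0 2) *
        √(exN b cB cF s η lam c x (Kset (insert i0 S) BL FL) i0 4)) := by
  have mm : Measurable (fun v : Unit → ℝ => G (max (v ()) 0)) :=
    hG.comp ((measurable_pi_apply ()).max measurable_const)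
  have h := e2x (A := Unit) b cB cF s η hl hη c x hS hi BL FL
    (X := fun _ z => √(qq b cB cF s η lam c x (Kset S BL FL) S z))
    (X' := fun _ z => √(qq b cB cF s η lam c x (Kset (insert i0 S) BL FL) (insert i0 S) z))
    (fun _ => bm_nq b cB cF s η hl hη c x S _)
    (fun _ => bm_nq b cB cF s η hl hη c x _ _)
    (fun _ => dep_nq b cB cF s η c x (Finset.Subset.refl _) (Finset.Subset.refl _))
    (fun _ j hj z => sym_nq b cB cF s η hl hη c x hj BL FL z)
    (G := fun v => G (max (v ()) 0)) mm (P0 := P0) (L := fun _ => L) (fun v => hP _)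
    (fun _ => hL0) (fun v v' => by
      rw [Fintype.sum_unique]
      refine (hL _ _ (le_max_right _ _) (le_max_right _ _)).trans
        (mul_le_mul_of_nonneg_left ?_ hL0)
      refine (abs_max_sub_max_le_max _ _ _ _).trans ?_
      rw [sub_self, abs_zero]
      exact max_le le_rfl (abs_nonneg _))
  have eX : ∀ z, max (√(qq b cB cF s η lam c x (Kset S BL FL) S z)) 0 =
      √(qq b cB cF s η lam c x (Kset S BL FL) S z) := fun z => max_eq_left (Real.sqrt_nonneg _)
  simp only [eX] at h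
  refine h.trans ?_
  rw [Fintype.sum_unique]
  have s0 := mul_le_mul_of_nonneg_left (step_nq b cB cF s η hl hη c x hn hi BL FL) hL0
  refine add_le_add le_rfl (mul_le_mul_of_nonneg_left
    (mul_le_mul_of_nonneg_right ?_ (Real.sqrt_nonneg _)) (by norm_num : (0 : ℝ) ≤ 2))
  refine s0.trans (le_of_eq ?_)
  ring

end

end Vale.Agent.P146.H266.Brm
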