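import Vale.Agent.P146.H266.EG

/-!
# P146, BRX: exclusion of the big root by maximal correlation, the closing step

Two nested levels `K2 ⊆ K1` with the same block `S`, `N_i = cx K_i' F_i0`, `Q_i = |M_i|^2 / n`,
`s_i = τ_i Q_i + v_i`. From `ex χ N1 N2 ≤ (ex χ (s2/s1) N1^2)^(1/2) (ex χ N2^2)^(1/2) + e0` it
follows that `((τ1 - τ2) L - v2) P(Q2 ≥ 4 L)` is small.
-/

open MeasureTheory ProbabilityTheory

namespace Vale.Agent.P146.H266.Brx

open Vale.Agent.P157.Lv hiding Dep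
open Vale.Agent.P146.H196 Vale.Agent.P146.H646 Vale.Agent.P146.H475 Vale.Agent.P146.H347
  Vale.Agent.P146.H487 Vale.Agent.P146.H325 Vale.Agent.P146.H266.EG

set_option linter.unusedSectionVars false

/-! ### the two cut-off functions -/

/-- `0` below `ℓ`, `1` above `2 ℓ` -/
noncomputable def rmp (l r : ℝ) : ℝ := min 1 (max 0 ((r - l) / l))

lemma rmp_nonneg (l r : ℝ) : 0 ≤ rmp l r := le_min zero_le_one (le_max_left _ _)

lemma rmp_le_one (l r : ℝ) : rmp l r ≤ 1 := min_le_left _ _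

lemma rmp_zero {l r : ℝ} (hl : 0 < l) (hr : r ≤ l) : rmp l r = 0 := by
  unfold rmp
  have : (r - l) / l ≤ 0 := div_nonpos_of_nonpos_of_nonneg (by linarith) hl.le
  rw [max_eq_left this]
  norm_num

lemma rmp_one {l r : ℝ} (hl : 0 < l) (hr : 2 * l ≤ r) : rmp l r = 1 := by
  unfold rmp
  have : 1 ≤ (r - l) / l := by rw [le_div_iff₀ hl]; linarith
  rw [max_eq_right (by linarith), min_eq_left this]

lemma rmp_lip {l : ℝ} (hl : 0 < l) (r r' : ℝ) : |rmp l r - rmp l r'| ≤ 1 / l * |r - r'| := by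
  unfold rmp
  refine (abs_min_sub_min_le_max _ _ _ _).trans ?_
  rw [sub_self, abs_zero]
  refine max_le (by positivity) ((abs_max_sub_max_le_max _ _ _ _).trans ?_)
  rw [sub_self, abs_zero]
  refine max_le (by positivity) (le_of_eq ?_)
  have e : (r - l) / l - (r' - l) / l = 1 / l * (r - r') := by ring
  rw [e, abs_mul, abs_of_pos (by positivity : 0 < 1 / l)]

lemma meas_rmp (l : ℝ) : Measurable (rmp l) :=
  measurable_const.min (measurable_const.max ((measurable_id.sub_const l).div_const l))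

/-- the variance `s` as a function of `√Q` -/
noncomputable def sv (τ v r : ℝ) : ℝ := √(τ * r ^ 2 + v)

lemma sv_nonneg (τ v r : ℝ) : 0 ≤ sv τ v r := Real.sqrt_nonneg _

lemma sv_sq {τ v : ℝ} (hτ : 0 ≤ τ) (hv : 0 ≤ v) (r : ℝ) : sv τ v r ^ 2 = τ * r ^ 2 + v :=
  Real.sq_sqrt (by positivity)

lemma le_sv {τ v : ℝ} (hτ : 0 ≤ τ) (hv : 0 ≤ v) (r : ℝ) : √τ * r ≤ sv τ v r := by
  refine Real.le_sqrt_of_sq_le ?_
  rw [mul_pow, Real.sq_sqrt hτ]
  linarith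

lemma sv_lip {τ v : ℝ} (hτ : 0 ≤ τ) (hv : 0 ≤ v) (r r' : ℝ) :
    |sv τ v r - sv τ v r'| ≤ √τ * |r - r'| := by
  -- the norm of the vector `(√τ r, √v)`
  have h0 : ∀ r : ℝ, ∀ r' : ℝ, sv τ v r ≤ sv τ v r' + √τ * |r - r'| := by
    intro r r'
    have hp : 0 ≤ sv τ v r' + √τ * |r - r'| :=
      add_nonneg (sv_nonneg _ _ _) (mul_nonneg (Real.sqrt_nonneg _) (abs_nonneg _))
    refine Real.sqrt_le_iff.2 ⟨hp, ?_⟩
    have e1 := sv_sq hτ hv r'
    have e2 : √τ * |r'| ≤ sv τ v r' := by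
      refine Real.le_sqrt_of_sq_le ?_
      rw [mul_pow, Real.sq_sqrt hτ, sq_abs]
      linarith
    have e3 : (sv τ v r' + √τ * |r - r'|) ^ 2 = τ * r' ^ 2 + v +
        2 * (sv τ v r' * (√τ * |r - r'|)) + τ * (r - r') ^ 2 := by
      have : (√τ * |r - r'|) ^ 2 = τ * (r - r') ^ 2 := by
        rw [mul_pow, Real.sq_sqrt hτ, sq_abs]
      rw [add_sq, e1, this]
      ring
    have e4 : τ * (r' * (r - r')) ≤ sv τ v r' * (√τ * |r - r'|) := by
      have h1 : τ * (r' * (r - r')) ≤ τ * (|r'| * |r - r'|) := by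
        refine mul_le_mul_of_nonneg_left ?_ hτ
        rw [← abs_mul]
        exact le_abs_self _
      have h2 : τ * (|r'| * |r - r'|) = (√τ * |r'|) * (√τ * |r - r'|) := by
        have := Real.mul_self_sqrt hτ
        calc τ * (|r'| * |r - r'|) = (√τ * √τ) * (|r'| * |r - r'|) := by rw [this]
          _ = _ := by ring
      rw [h2] at h1
      exact h1.trans (mul_le_mul_of_nonneg_right e2 (by positivity))
    rw [e3]
    nlinarith [e4]
  rw [abs_le]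
  constructor
  · have := h0 r' r
    rw [abs_sub_comm r' r] at this
    linarith
  · have := h0 r r'
    linarith

lemma meas_sv (τ v : ℝ) : Measurable (sv τ v) :=
  (((measurable_id.pow_const 2).const_mul τ).add_const v).sqrt

/-- the correlation coefficient `(s2 / s1) ^ (1/2)`, cut off at `1` and at `r2 = ℓ` -/
noncomputable def rh (τ1 v1 τ2 v2 l r1 r2 : ℝ) : ℝ :=
  sv τ2 v2 (max r2 l) / max (sv τ1 v1 r1) (sv τ2 v2 (max r2 l))

section rh

variable {τ1 v1 τ2 v2 l : ℝ}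

lemma sv_pos (hτ2 : 0 < τ2) (hv2 : 0 ≤ v2) (r : ℝ) :
    √τ2 * l ≤ sv τ2 v2 (max r l) := by
  have h1 : l ≤ max r l := le_max_right _ _
  exact (mul_le_mul_of_nonneg_left h1 (Real.sqrt_nonneg _)).trans
    (le_sv hτ2.le hv2 _)

lemma rh_nonneg (r1 r2 : ℝ) : 0 ≤ rh τ1 v1 τ2 v2 l r1 r2 :=
  div_nonneg (sv_nonneg _ _ _) (le_max_of_le_left (sv_nonneg _ _ _))

lemma rh_le_one (r1 r2 : ℝ) : rh τ1 v1 τ2 v2 l r1 r2 ≤ 1 :=
  div_le_one_of_le₀ (le_max_right _ _) (le_max_of_le_left (sv_nonneg _ _ _))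

lemma rh_lip (hτ1 : 0 ≤ τ1) (hv1 : 0 ≤ v1) (hτ2 : 0 < τ2) (hv2 : 0 ≤ v2) (hl : 0 < l)
    (r1 r2 r1' r2' : ℝ) :
    |rh τ1 v1 τ2 v2 l r1 r2 - rh τ1 v1 τ2 v2 l r1' r2'| ≤
      2 / (√τ2 * l) * (√τ1 * |r1 - r1'| + √τ2 * |r2 - r2'|) := by
  set A := sv τ2 v2 (max r2 l) with hA
  set A' := sv τ2 v2 (max r2' l) with hA'
  set B := sv τ1 v1 r1 with hB
  set B' := sv τ1 v1 r1' with hB'
  have hs2 : 0 < √τ2 := Real.sqrt_pos.2 hτ2
  have hd : 0 < √τ2 * l := by positivity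
  have A0 : √τ2 * l ≤ A := sv_pos hτ2 hv2 r2
  have A0' : √τ2 * l ≤ A' := sv_pos hτ2 hv2 r2'
  have dA : |A - A'| ≤ √τ2 * |r2 - r2'| := by
    refine (sv_lip hτ2.le hv2 _ _).trans (mul_le_mul_of_nonneg_left ?_ (Real.sqrt_nonneg _))
    refine (abs_max_sub_max_le_max _ _ _ _).trans ?_
    rw [sub_self, abs_zero]
    exact max_le le_rfl (abs_nonneg _)
  have dB : |B - B'| ≤ √τ1 * |r1 - r1'| := sv_lip hτ1 hv1 _ _
  set M := max B A with hM
  set M' := max B' A' with hM'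
  have M0 : √τ2 * l ≤ M := A0.trans (le_max_right _ _)
  have M0' : √τ2 * l ≤ M' := A0'.trans (le_max_right _ _)
  have hMp : 0 < M := hd.trans_le M0
  have hMp' : 0 < M' := hd.trans_le M0'
  have dM : |M' - M| ≤ |A - A'| + |B - B'| := by
    rw [abs_sub_comm]
    refine (abs_max_sub_max_le_max _ _ _ _).trans (max_le ?_ ?_)
    · linarith [abs_nonneg (A - A')]
    · linarith [abs_nonneg (B - B')]
  have e1 : A / M - A' / M' = ((A - A') + A' / M' * (M' - M)) / M := by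
    field_simp
    ring
  have q1 : 0 ≤ A' / M' := div_nonneg (sv_nonneg _ _ _) hMp'.le
  have q2 : A' / M' ≤ 1 := div_le_one_of_le₀ (le_max_right _ _) hMp'.le
  have e2 : |(A - A') + A' / M' * (M' - M)| ≤ 2 * |A - A'| + |B - B'| := by
    refine (abs_add_le _ _).trans ?_
    rw [abs_mul, abs_of_nonneg q1]
    have := mul_le_mul q2 dM (abs_nonneg _) zero_le_one
    linarith
  show |A / M - A' / M'| ≤ _
  rw [e1, abs_div, abs_of_pos hMp, div_le_iff₀ hMp]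
  have e3 : 2 * |A - A'| + |B - B'| ≤ 2 * (√τ1 * |r1 - r1'| + √τ2 * |r2 - r2'|) := by
    have : 0 ≤ √τ1 * |r1 - r1'| := by positivity
    linarith
  refine e2.trans (e3.trans ?_)
  have e4 : 2 * (√τ1 * |r1 - r1'| + √τ2 * |r2 - r2'|) =
      2 / (√τ2 * l) * (√τ1 * |r1 - r1'| + √τ2 * |r2 - r2'|) * (√τ2 * l) := by
    field_simp
  rw [e4]
  exact mul_le_mul_of_nonneg_left M0 (by positivity)

/-- `(s2 / s1) Q1 ≤ s2 / τ1` -/
lemma rh_sq_le (hτ1 : 0 ≤ τ1) (hv1 : 0 ≤ v1) (hτ2 : 0 < τ2) (hv2 : 0 ≤ v2) (hl : 0 < l)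
    {r1 r2 : ℝ} (hr2 : l ≤ r2) :
    rh τ1 v1 τ2 v2 l r1 r2 ^ 2 * (τ1 * r1 ^ 2) ≤ τ2 * r2 ^ 2 + v2 := by
  have hs2 : 0 < √τ2 := Real.sqrt_pos.2 hτ2
  have hd : 0 < √τ2 * l := by positivity
  set A := sv τ2 v2 (max r2 l) with hA
  set B := sv τ1 v1 r1 with hB
  have A0 : √τ2 * l ≤ A := sv_pos hτ2 hv2 r2
  set M := max B A with hM
  have hMp : 0 < M := (hd.trans_le A0).trans_le (le_max_right _ _)
  have eA : A ^ 2 = τ2 * r2 ^ 2 + v2 := by
    rw [hA, sv_sq hτ2.le hv2, max_eq_left hr2]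
  have eB : τ1 * r1 ^ 2 ≤ M ^ 2 := by
    have h1 : B ^ 2 = τ1 * r1 ^ 2 + v1 := sv_sq hτ1 hv1 r1
    have h2 : B ^ 2 ≤ M ^ 2 := pow_le_pow_left₀ (sv_nonneg _ _ _) (le_max_left _ _) 2
    linarith
  show (A / M) ^ 2 * (τ1 * r1 ^ 2) ≤ _
  rw [div_pow, ← eA, div_mul_eq_mul_div, div_le_iff₀ (by positivity)]
  exact mul_le_mul_of_nonneg_left eB (sq_nonneg _)

lemma meas_rh : Measurable fun v : Fin 2 → ℝ => rh τ1 v1 τ2 v2 l (v 0) (v 1) := by
  have h1 : Measurable fun v : Fin 2 → ℝ => sv τ1 v1 (v 0) :=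
    (meas_sv τ1 v1).comp (measurable_pi_apply 0)
  have h2 : Measurable fun v : Fin 2 → ℝ => sv τ2 v2 (max (v 1) l) :=
    (meas_sv τ2 v2).comp ((measurable_pi_apply 1).max measurable_const)
  exact h2.div (h1.max h2)

/-- the weight of the finer level is Lipschitz in the two norms -/
lemma g1_lip (hτ1 : 0 ≤ τ1) (hv1 : 0 ≤ v1) (hτ2 : 0 < τ2) (hv2 : 0 ≤ v2) (hl : 0 < l)
    (v v' : Fin 2 → ℝ) :
    |rmp l (v 1) * rh τ1 v1 τ2 v2 l (v 0) (v 1) ^ 2 -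
        rmp l (v' 1) * rh τ1 v1 τ2 v2 l (v' 0) (v' 1) ^ 2| ≤
      ∑ i, ![4 * √τ1 / (√τ2 * l), 5 / l] i * |v i - v' i| := by
  rw [Fin.sum_univ_two]
  simp only [Matrix.cons_val_zero, Matrix.cons_val_one]
  set R := rh τ1 v1 τ2 v2 l (v 0) (v 1) with hR
  set R' := rh τ1 v1 τ2 v2 l (v' 0) (v' 1) with hR'
  have R0 : 0 ≤ R := rh_nonneg _ _
  have R1 : R ≤ 1 := rh_le_one _ _
  have R0' : 0 ≤ R' := rh_nonneg _ _
  have R1' : R' ≤ 1 := rh_le_one _ _
  have hs2 : 0 < √τ2 := Real.sqrt_pos.2 hτ2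
  have d1 : |rmp l (v 1) - rmp l (v' 1)| ≤ 1 / l * |v 1 - v' 1| := rmp_lip hl _ _
  have d2 := rh_lip hτ1 hv1 hτ2 hv2 hl (v 0) (v 1) (v' 0) (v' 1)
  rw [← hR, ← hR'] at d2
  have e1 : rmp l (v 1) * R ^ 2 - rmp l (v' 1) * R' ^ 2 =
      (rmp l (v 1) - rmp l (v' 1)) * R ^ 2 + rmp l (v' 1) * ((R - R') * (R + R')) := by ring
  rw [e1]
  refine (abs_add_le _ _).trans ?_
  rw [abs_mul, abs_mul, abs_mul, abs_of_nonneg (sq_nonneg R),
    abs_of_nonneg (rmp_nonneg l (v' 1)), abs_of_nonneg (add_nonneg R0 R0')]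
  have f1 : |rmp l (v 1) - rmp l (v' 1)| * R ^ 2 ≤ 1 / l * |v 1 - v' 1| := by
    have : R ^ 2 ≤ 1 := pow_le_one₀ R0 R1
    calc |rmp l (v 1) - rmp l (v' 1)| * R ^ 2 ≤ |rmp l (v 1) - rmp l (v' 1)| * 1 :=
          mul_le_mul_of_nonneg_left this (abs_nonneg _)
      _ ≤ _ := by rw [mul_one]; exact d1
  have f2 : rmp l (v' 1) * (|R - R'| * (R + R')) ≤
      2 * (2 / (√τ2 * l) * (√τ1 * |v 0 - v' 0| + √τ2 * |v 1 - v' 1|)) := by
    have g1 : |R - R'| * (R + R') ≤ |R - R'| * 2 :=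
      mul_le_mul_of_nonneg_left (by linarith) (abs_nonneg _)
    have g2 : rmp l (v' 1) * (|R - R'| * (R + R')) ≤ 1 * (|R - R'| * 2) :=
      mul_le_mul (rmp_le_one _ _) g1 (by positivity) zero_le_one
    linarith
  refine (add_le_add f1 f2).trans (le_of_eq ?_)
  field_simp
  ring

end rh

/-! ### real inequality -/

lemma sq_close {A B e : ℝ} (hA : 0 ≤ A) (hB : 0 ≤ B) (h : A ≤ √B * √A + e) : A ≤ B + 2 * e := by
  have h1 := Real.mul_self_sqrt hA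
  have h2 := Real.mul_self_sqrt hB
  nlinarith [sq_nonneg (√A - √B)]

lemma close_arith {A B C1 C2 X v2 τ1 τ2 e0 E1 E2 c n : ℝ} (hc : 0 < c) (hn : 0 < n)
    (hτ1 : 0 < τ1) (hAB : A ≤ B + 2 * e0) (h1 : B - n / c * C1 ≤ E1) (h2 : -E2 ≤ A - n / c * C2)
    (h5 : τ1 * C1 ≤ τ2 * C2 + v2 * X) :
    (τ1 - τ2) * C2 ≤ v2 * X + τ1 * (c / n) * (2 * e0 + E1 + E2) := by
  have g3 : n / c * C2 ≤ n / c * C1 + (2 * e0 + E1 + E2) := by linarith
  have h1 := mul_le_mul_of_nonneg_left g3 (show (0 : ℝ) ≤ c / n by positivity)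
  have e1 : c / n * (n / c * C2) = C2 := by field_simp
  have e2 : c / n * (n / c * C1 + (2 * e0 + E1 + E2)) = C1 + c / n * (2 * e0 + E1 + E2) := by
    field_simp
  rw [e1, e2] at h1
  have h6 := mul_le_mul_of_nonneg_left h1 hτ1.le
  have e3 : τ1 * (C1 + c / n * (2 * e0 + E1 + E2)) =
    τ1 * C1 + τ1 * (c / n) * (2 * e0 + E1 + E2) := by ring
  rw [e3] at h6
  linarith

lemma prob_arith {τ v2 l2 P X C2 R : ℝ} (hτ : 0 ≤ τ) (hg : 0 ≤ τ * l2 - v2)
    (h1 : l2 * X ≤ C2) (h2 : P ≤ X) (h : τ * C2 ≤ v2 * X + R) : (τ * l2 - v2) * P ≤ R := by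
  have h3 := mul_le_mul_of_nonneg_left h1 hτ
  have h4 := mul_le_mul_of_nonneg_left h2 hg
  have e : (τ * l2 - v2) * X = τ * (l2 * X) - v2 * X := by ring
  rw [e] at h4
  linarith

/-! ### the closing step -/

variable {n : ℕ} {LB LF : Type} [Fintype LB] [DecidableEq LB] [Fintype LF] [DecidableEq LF]
variable {w : (Co n LB LF → ℝ) → ℝ} {F : Fin n → (Co n LB LF → ℝ) → ℝ}

/-- `√Q` -/
noncomputable abbrev rq (w : (Co n LB LF → ℝ) → ℝ) (F : Fin n → (Co n LB LF → ℝ) → ℝ)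
    (K : Finset (Co n LB LF)) (S : Finset (Fin n)) (z : Co n LB LF → ℝ) : ℝ := √(qq w F K S z)

/-- error of `e2n` at the finer level, weight `rmp (√Q2) (s2/s1)` -/
noncomputable def err1 (w : (Co n LB LF → ℝ) → ℝ) (F : Fin n → (Co n LB LF → ℝ) → ℝ)
    (S : Finset (Fin n)) (i0 : Fin n) (BL1 BL2 : Finset LB) (FL1 FL2 : Finset LF)
    (τ1 τ2 l : ℝ) : ℝ :=
  incM w F (Kset S BL1 FL1) (Kset (insert i0 S) BL1 FL1) S / S.card +
    2 * ((4 * √τ1 / (√τ2 * l) / √n * √(incM w F (Kset S BL1 FL1) (Kset (insert i0 S) BL1 FL1) S +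
        exN w (F i0) (Kset (insert i0 S) BL1 FL1) 2) +
      5 / l / √n * √(incM w F (Kset S BL2 FL2) (Kset (insert i0 S) BL2 FL2) S +
        exN w (F i0) (Kset (insert i0 S) BL2 FL2) 2)) *
      √(exN w (F i0) (Kset (insert i0 S) BL1 FL1) 4))

/-- error of `e2r` at the coarser level, weight `rmp (√Q2)` -/
noncomputable def err2 (w : (Co n LB LF → ℝ) → ℝ) (F : Fin n → (Co n LB LF → ℝ) → ℝ)
    (S : Finset (Fin n)) (i0 : Fin n) (BL2 : Finset LB) (FL2 : Finset LF) (l : ℝ) : ℝ :=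
  incM w F (Kset S BL2 FL2) (Kset (insert i0 S) BL2 FL2) S / S.card +
    2 * (1 / l / √n * √(incM w F (Kset S BL2 FL2) (Kset (insert i0 S) BL2 FL2) S +
        exN w (F i0) (Kset (insert i0 S) BL2 FL2) 2) *
      √(exN w (F i0) (Kset (insert i0 S) BL2 FL2) 4))

/-- a Cauchy-Schwarz inequality given `K`, integrated -/
theorem cs_int (hw : Wt (g1 (Co n LB LF)) w) {K : Finset (Co n LB LF)}
    {f g χ ρ δ : (Co n LB LF → ℝ) → ℝ} (hf : BM f) (hg : BM g) (hχ : BM χ) (hρ : BM ρ) (hδ : BM δ)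
    (dχ : H646.Dep K χ) (dρ : H646.Dep K ρ) (χ0 : ∀ z, 0 ≤ χ z)
    (h : ∀ z, χ z * cx (g1 _) K w (fun z => f z * g z) z ≤
      χ z * (ρ z * (√(cx (g1 _) K w (fun z => f z ^ 2) z) *
        √(cx (g1 _) K w (fun z => g z ^ 2) z))) + δ z) :
    ex (g1 _) w (fun z => χ z * (f z * g z)) ≤
      √(ex (g1 _) w (fun z => χ z * ρ z ^ 2 * f z ^ 2)) * √(ex (g1 _) w (fun z => χ z * g z ^ 2)) +
        ex (g1 _) w δ := by
  have bfg : BM (fun z => f z * g z) := hf.mul hg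
  have bf2 : BM (fun z => f z ^ 2) := H487.BM.sq' hf
  have bg2 : BM (fun z => g z ^ 2) := H487.BM.sq' hg
  have bA : BM (fun z => √(χ z) * ρ z * √(cx (g1 _) K w (fun z => f z ^ 2) z)) :=
    ((H487.BM.sqrt hχ).mul hρ).mul (H487.BM.sqrt (hw.bm_cx K bf2))
  have bB : BM (fun z => √(χ z) * √(cx (g1 _) K w (fun z => g z ^ 2) z)) :=
    (H487.BM.sqrt hχ).mul (H487.BM.sqrt (hw.bm_cx K bg2))
  have c0 : ∀ z, 0 ≤ cx (g1 _) K w (fun z => f z ^ 2) z := fun z => by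
    have := H646.cx_mono hw (K := K) (BM.const 0) bf2 (fun z => sq_nonneg _) z
    rwa [H646.cx_dep hw (Q := fun _ => (0 : ℝ)) (fun _ _ => rfl)] at this
  have c0' : ∀ z, 0 ≤ cx (g1 _) K w (fun z => g z ^ 2) z := fun z => by
    have := H646.cx_mono hw (K := K) (BM.const 0) bg2 (fun z => sq_nonneg _) z
    rwa [H646.cx_dep hw (Q := fun _ => (0 : ℝ)) (fun _ _ => rfl)] at this
  have h1 : ex (g1 _) w (fun z => χ z * (f z * g z)) ≤
      ex (g1 _) w (fun z => (√(χ z) * ρ z * √(cx (g1 _) K w (fun z => f z ^ 2) z)) *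
        (√(χ z) * √(cx (g1 _) K w (fun z => g z ^ 2) z)) + δ z) := by
    rw [← H646.ex_cx hw dχ hχ bfg]
    refine H487.ex_mono hw (hχ.mul (hw.bm_cx K bfg)) ((bA.mul bB).add hδ) fun z => ?_
    refine (h z).trans (le_of_eq ?_)
    have := Real.mul_self_sqrt (χ0 z)
    calc _ = (√(χ z) * √(χ z)) * (ρ z * (√(cx (g1 _) K w (fun z => f z ^ 2) z) *
        √(cx (g1 _) K w (fun z => g z ^ 2) z))) + δ z := by rw [this]
      _ = _ := by ring
  rw [H487.ex_add hw (bA.mul bB) hδ] at h1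
  refine h1.trans (add_le_add ?_ le_rfl)
  refine (le_abs_self _).trans ((H487.ex_mul_le hw bA bB).trans (le_of_eq ?_))
  have e1 : ex (g1 _) w (fun z => (√(χ z) * ρ z * √(cx (g1 _) K w (fun z => f z ^ 2) z)) ^ 2) =
      ex (g1 _) w (fun z => χ z * ρ z ^ 2 * f z ^ 2) := by
    rw [← H646.ex_cx hw (K := K) (Q := fun z => χ z * ρ z ^ 2)
      (H615.Dep.mul dχ (H615.Dep.sq dρ)) (hχ.mul (H487.BM.sq' hρ)) bf2]
    congr 1
    funext z
    rw [mul_pow, mul_pow, Real.sq_sqrt (χ0 z), Real.sq_sqrt (c0 z)]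
  have e2 : ex (g1 _) w (fun z => (√(χ z) * √(cx (g1 _) K w (fun z => g z ^ 2) z)) ^ 2) =
      ex (g1 _) w (fun z => χ z * g z ^ 2) := by
    rw [← H646.ex_cx hw (K := K) (Q := χ) dχ hχ bg2]
    congr 1
    funext z
    rw [mul_pow, Real.sq_sqrt (χ0 z), Real.sq_sqrt (c0' z)]
  rw [e1, e2]

/-- the cut-off of the coarser norm -/
noncomputable abbrev chi (w : (Co n LB LF → ℝ) → ℝ) (F : Fin n → (Co n LB LF → ℝ) → ℝ)
    (K2 : Finset (Co n LB LF)) (S : Finset (Fin n)) (l : ℝ) (z : Co n LB LF → ℝ) : ℝ :=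
  rmp l (rq w F K2 S z)

/-- the correlation coefficient as a function of the two norms -/
noncomputable abbrev rho (w : (Co n LB LF → ℝ) → ℝ) (F : Fin n → (Co n LB LF → ℝ) → ℝ)
    (K1 K2 : Finset (Co n LB LF)) (S : Finset (Fin n)) (τ1 v1 τ2 v2 l : ℝ)
    (z : Co n LB LF → ℝ) : ℝ :=
  rh τ1 v1 τ2 v2 l (rq w F K1 S z) (rq w F K2 S z)

lemma bm_chi (hp : PS w F) (K2 : Finset (Co n LB LF)) (S : Finset (Fin n)) (l : ℝ) :
    BM (chi w F K2 S l) :=
  ⟨(meas_rmp l).comp (bm_nq hp S K2).meas, 1, fun z => by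
    rw [abs_of_nonneg (rmp_nonneg _ _)]
    exact rmp_le_one _ _⟩

lemma bm_rho (hp : PS w F) (K1 K2 : Finset (Co n LB LF)) (S : Finset (Fin n))
    (τ1 v1 τ2 v2 l : ℝ) : BM (rho w F K1 K2 S τ1 v1 τ2 v2 l) := by
  refine ⟨?_, 1, fun z => ?_⟩
  · have h := (meas_rh (τ1 := τ1) (v1 := v1) (τ2 := τ2) (v2 := v2) (l := l)).comp
      (measurable_pi_lambda (fun z : Co n LB LF → ℝ => ![rq w F K1 S z, rq w F K2 S z])
        fun i => by
          fin_cases i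
          · exact (bm_nq hp S K1).meas
          · exact (bm_nq hp S K2).meas)
    exact h
  · rw [abs_of_nonneg (rh_nonneg _ _)]
    exact rh_le_one _ _

/-- **The closing step of BRX.** -/
theorem brx_close (hp : PS w F) (hn : 0 < n) {S : Finset (Fin n)} (hS : S.Nonempty) {i0 : Fin n}
    (hi : i0 ∉ S) {BL1 BL2 : Finset LB} {FL1 FL2 : Finset LF} (hB : BL2 ⊆ BL1) (hF : FL2 ⊆ FL1)
    {τ1 v1 τ2 v2 l e0 : ℝ} (hτ1 : 0 < τ1) (hv1 : 0 ≤ v1) (hτ2 : 0 < τ2) (hv2 : 0 ≤ v2)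
    (hl : 0 < l)
    (hMC : ex (g1 _) w (fun z => chi w F (Kset S BL2 FL2) S l z *
        (cx (g1 _) (Kset (insert i0 S) BL1 FL1) w (F i0) z *
          cx (g1 _) (Kset (insert i0 S) BL2 FL2) w (F i0) z)) ≤
      √(ex (g1 _) w (fun z => chi w F (Kset S BL2 FL2) S l z *
          rho w F (Kset S BL1 FL1) (Kset S BL2 FL2) S τ1 v1 τ2 v2 l z ^ 2 *
          cx (g1 _) (Kset (insert i0 S) BL1 FL1) w (F i0) z ^ 2)) *
        √(ex (g1 _) w (fun z => chi w F (Kset S BL2 FL2) S l z *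
          cx (g1 _) (Kset (insert i0 S) BL2 FL2) w (F i0) z ^ 2)) + e0) :
    (τ1 - τ2) * ex (g1 _) w (fun z => chi w F (Kset S BL2 FL2) S l z * qq w F (Kset S BL2 FL2) S z)
      ≤ v2 * ex (g1 _) w (chi w F (Kset S BL2 FL2) S l) +
        τ1 * (S.card / n) * (2 * e0 + err1 w F S i0 BL1 BL2 FL1 FL2 τ1 τ2 l +
          err2 w F S i0 BL2 FL2 l) := by
  set K1 : Finset (Co n LB LF) := Kset S BL1 FL1 with hK1
  set K2 : Finset (Co n LB LF) := Kset S BL2 FL2 with hK2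
  set K1' : Finset (Co n LB LF) := Kset (insert i0 S) BL1 FL1 with hK1'
  set K2' : Finset (Co n LB LF) := Kset (insert i0 S) BL2 FL2 with hK2'
  have hw : Wt (g1 (Co n LB LF)) w := hp.wt
  have hn' : (0 : ℝ) < n := Nat.cast_pos.2 hn
  have hSc : (0 : ℝ) < S.card := by exact_mod_cast hS.card_pos
  have h22 : K2 ⊆ K2' :=
    Kset_mono (Finset.subset_insert i0 S) (Finset.Subset.refl _) (Finset.Subset.refl _)
  have h21 : K2' ⊆ K1' := Kset_mono (Finset.Subset.refl _) hB hF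
  have b1 : BM (cx (g1 _) K1' w (F i0)) := hw.bm_cx K1' (hp.bm i0)
  have b2 : BM (cx (g1 _) K2' w (F i0)) := hw.bm_cx K2' (hp.bm i0)
  have bχ := bm_chi hp K2 S l
  have bρ := bm_rho hp K1 K2 S τ1 v1 τ2 v2 l
  have bq : ∀ K : Finset (Co n LB LF), BM (fun z => qq w F K S z) := fun K => by
    have h1 := H487.BM.sq' (bm_nq hp S K)
    have e : (fun z => √(qq w F K S z) ^ 2) = fun z => qq w F K S z := by
      funext z
      exact Real.sq_sqrt (div_nonneg (Finset.sum_nonneg fun _ _ => sq_nonneg _)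
        (Nat.cast_nonneg n))
    rwa [e] at h1
  have q0 : ∀ (K : Finset (Co n LB LF)) z, rq w F K S z ^ 2 = qq w F K S z := fun K z =>
    Real.sq_sqrt (div_nonneg (Finset.sum_nonneg fun _ _ => sq_nonneg _) (Nat.cast_nonneg n))
  have χ0 : ∀ z, 0 ≤ chi w F K2 S l z := fun z => rmp_nonneg _ _
  have dχ : H646.Dep K2 (chi w F K2 S l) :=
    H615.Dep.comp (rmp l) (dep_nq (S := S) (Finset.Subset.refl BL2) (Finset.Subset.refl FL2))
  -- the tower property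
  have tow : ex (g1 _) w (fun z => chi w F K2 S l z *
      (cx (g1 _) K1' w (F i0) z * cx (g1 _) K2' w (F i0) z)) =
      ex (g1 _) w (fun z => chi w F K2 S l z * cx (g1 _) K2' w (F i0) z ^ 2) := by
    have h1 := H646.ex_cx hw (K := K2') (Q := fun z => chi w F K2 S l z *
      cx (g1 _) K2' w (F i0) z) (H615.Dep.mul (H646.Dep.mono h22 dχ) (dep_cx _))
      (bχ.mul b2) b1
    have e1 : (fun z => chi w F K2 S l z * cx (g1 _) K2' w (F i0) z *
        cx (g1 _) K1' w (F i0) z) = fun z => chi w F K2 S l z *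
      (cx (g1 _) K1' w (F i0) z * cx (g1 _) K2' w (F i0) z) := by funext z; ring
    have e2 : (fun z => chi w F K2 S l z * cx (g1 _) K2' w (F i0) z *
        cx (g1 _) K2' w (cx (g1 _) K1' w (F i0)) z) =
        fun z => chi w F K2 S l z * cx (g1 _) K2' w (F i0) z ^ 2 := by
      funext z
      rw [H646.cx_cx hw h21 (hp.bm i0)]
      ring
    rw [e1, e2] at h1
    exact h1.symm
  rw [tow] at hMC
  set A := ex (g1 _) w (fun z => chi w F K2 S l z * cx (g1 _) K2' w (F i0) z ^ 2) with hA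
  set B := ex (g1 _) w (fun z => chi w F K2 S l z * rho w F K1 K2 S τ1 v1 τ2 v2 l z ^ 2 *
          cx (g1 _) K1' w (F i0) z ^ 2) with hBd
  have A0 : 0 ≤ A := H487.ex_nonneg hw (bχ.mul (H487.BM.sq' b2)) fun z =>
    mul_nonneg (χ0 z) (sq_nonneg _)
  have B0 : 0 ≤ B := H487.ex_nonneg hw ((bχ.mul (H487.BM.sq' bρ)).mul (H487.BM.sq' b1)) fun z =>
    mul_nonneg (mul_nonneg (χ0 z) (sq_nonneg _)) (sq_nonneg _)
  have hAB : A ≤ B + 2 * e0 := sq_close A0 B0 hMC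
  -- the two norms
  have hE2 := e2r hp hn hS hi BL2 FL2 (G := rmp l) (meas_rmp l) (P0 := 1) (L := 1 / l)
    (fun v => by rw [abs_of_nonneg (rmp_nonneg _ _)]; exact rmp_le_one _ _) (by positivity)
    (fun r r' _ _ => rmp_lip hl r r')
  have hE1 := e2n hp hn hS hi hB hF
    (G := fun v => rmp l (v 1) * rh τ1 v1 τ2 v2 l (v 0) (v 1) ^ 2)
    (((meas_rmp l).comp (measurable_pi_apply 1)).mul (meas_rh.pow_const 2)) (P0 := 1)
    (L := ![4 * √τ1 / (√τ2 * l), 5 / l])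
    (fun v => by
      rw [abs_of_nonneg (mul_nonneg (rmp_nonneg _ _) (sq_nonneg _))]
      exact mul_le_one₀ (rmp_le_one _ _) (sq_nonneg _)
        (pow_le_one₀ (rh_nonneg _ _) (rh_le_one _ _)))
    (fun i => by
      fin_cases i
      · show 0 ≤ 4 * √τ1 / (√τ2 * l)
        positivity
      · show 0 ≤ 5 / l
        positivity)
    (g1_lip hτ1.le hv1 hτ2 hv2 hl)
  rw [one_mul] at hE1 hE2
  simp only [Matrix.cons_val_zero, Matrix.cons_val_one] at hE1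
  set C2 := ex (g1 _) w (fun z => chi w F K2 S l z * qq w F K2 S z) with hC2
  set C1 := ex (g1 _) w (fun z => chi w F K2 S l z * rho w F K1 K2 S τ1 v1 τ2 v2 l z ^ 2 *
          qq w F K1 S z) with hC1
  have hE1' : |B - n / S.card * C1| ≤ err1 w F S i0 BL1 BL2 FL1 FL2 τ1 τ2 l := hE1
  have hE2' : |A - n / S.card * C2| ≤ err2 w F S i0 BL2 FL2 l := hE2
  -- the bound of `τ1 (s2 / s1) Q1`
  have g5 : τ1 * C1 ≤ τ2 * C2 + v2 * ex (g1 _) w (chi w F K2 S l) := by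
    rw [← ex_const_mul (μ := g1 _) (w := w), ← ex_const_mul (μ := g1 _) (w := w),
      ← ex_const_mul (μ := g1 _) (w := w),
      ← H487.ex_add hw ((BM.const _).mul (bχ.mul (bq K2))) ((BM.const _).mul bχ)]
    refine H487.ex_mono hw ((BM.const _).mul ((bχ.mul (H487.BM.sq' bρ)).mul (bq K1)))
      (((BM.const _).mul (bχ.mul (bq K2))).add ((BM.const _).mul bχ)) fun z => ?_
    rcases le_or_gt (rq w F K2 S z) l with h0 | h0
    · have : chi w F K2 S l z = 0 := rmp_zero hl h0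
      rw [this]
      simp
    · have h1 := rh_sq_le hτ1.le hv1 hτ2 hv2 hl (r1 := rq w F K1 S z) h0.le
      rw [q0, q0] at h1
      have h2 := mul_le_mul_of_nonneg_left h1 (χ0 z)
      have e1 : τ1 * (chi w F K2 S l z * rho w F K1 K2 S τ1 v1 τ2 v2 l z ^ 2 * qq w F K1 S z) =
          chi w F K2 S l z * (rh τ1 v1 τ2 v2 l (rq w F K1 S z) (rq w F K2 S z) ^ 2 *
            (τ1 * qq w F K1 S z)) := by ring
      rw [e1]
      refine h2.trans (le_of_eq ?_)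
      ring
  exact close_arith hSc hn' hτ1 hAB (abs_le.1 hE1').2 (abs_le.1 hE2').1 g5

/-- **BRX**: the probability that the coarser norm is large. -/
theorem brx_prob (hp : PS w F) (hn : 0 < n) {S : Finset (Fin n)} (hS : S.Nonempty) {i0 : Fin n}
    (hi : i0 ∉ S) {BL1 BL2 : Finset LB} {FL1 FL2 : Finset LF} (hB : BL2 ⊆ BL1) (hF : FL2 ⊆ FL1)
    {τ1 v1 τ2 v2 l e0 : ℝ} (hτ1 : 0 < τ1) (hv1 : 0 ≤ v1) (hτ2 : 0 < τ2) (hv2 : 0 ≤ v2)
    (hl : 0 < l) (hτ : τ2 ≤ τ1) (hgap : v2 ≤ (τ1 - τ2) * l ^ 2)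
    (hMC : ex (g1 _) w (fun z => chi w F (Kset S BL2 FL2) S l z *
        (cx (g1 _) (Kset (insert i0 S) BL1 FL1) w (F i0) z *
          cx (g1 _) (Kset (insert i0 S) BL2 FL2) w (F i0) z)) ≤
      √(ex (g1 _) w (fun z => chi w F (Kset S BL2 FL2) S l z *
          rho w F (Kset S BL1 FL1) (Kset S BL2 FL2) S τ1 v1 τ2 v2 l z ^ 2 *
          cx (g1 _) (Kset (insert i0 S) BL1 FL1) w (F i0) z ^ 2)) *
        √(ex (g1 _) w (fun z => chi w F (Kset S BL2 FL2) S l z *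
          cx (g1 _) (Kset (insert i0 S) BL2 FL2) w (F i0) z ^ 2)) + e0) :
    ((τ1 - τ2) * l ^ 2 - v2) * ex (g1 _) w
        ({z | 4 * l ^ 2 ≤ qq w F (Kset S BL2 FL2) S z}.indicator 1) ≤
      τ1 * (S.card / n) * (2 * e0 + err1 w F S i0 BL1 BL2 FL1 FL2 τ1 τ2 l +
          err2 w F S i0 BL2 FL2 l) := by
  have hw : Wt (g1 (Co n LB LF)) w := hp.wt
  have h := brx_close hp hn hS hi hB hF hτ1 hv1 hτ2 hv2 hl hMC
  set K2 : Finset (Co n LB LF) := Kset S BL2 FL2 with hK2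
  have bχ := bm_chi hp K2 S l
  have q0 : ∀ (K : Finset (Co n LB LF)) z, 0 ≤ qq w F K S z := fun K z =>
    div_nonneg (Finset.sum_nonneg fun _ _ => sq_nonneg _) (Nat.cast_nonneg n)
  have bq : BM (fun z => qq w F K2 S z) := by
    have h1 := H487.BM.sq' (bm_nq hp S K2)
    have e : (fun z => √(qq w F K2 S z) ^ 2) = fun z => qq w F K2 S z := by
      funext z
      exact Real.sq_sqrt (q0 K2 z)
    rwa [e] at h1
  have bi : BM ({z | 4 * l ^ 2 ≤ qq w F K2 S z}.indicator (1 : (Co n LB LF → ℝ) → ℝ)) := by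
    refine ⟨measurable_one.indicator (measurableSet_le measurable_const bq.meas), 1, fun z => ?_⟩
    by_cases hz : z ∈ {z | 4 * l ^ 2 ≤ qq w F K2 S z}
    · rw [Set.indicator_of_mem hz]; simp
    · rw [Set.indicator_of_notMem hz]; simp
  have h1 : l ^ 2 * ex (g1 _) w (chi w F K2 S l) ≤
      ex (g1 _) w (fun z => chi w F K2 S l z * qq w F K2 S z) := by
    rw [← ex_const_mul (μ := g1 _) (w := w)]
    refine H487.ex_mono hw ((BM.const _).mul bχ) (bχ.mul bq) fun z => ?_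
    rcases le_or_gt (rq w F K2 S z) l with h0 | h0
    · have : chi w F K2 S l z = 0 := rmp_zero hl h0
      rw [this]
      simp
    · have h2 : l ^ 2 ≤ qq w F K2 S z := by
        have := pow_le_pow_left₀ hl.le h0.le 2
        rwa [Real.sq_sqrt (q0 K2 z)] at this
      rw [mul_comm]
      exact mul_le_mul_of_nonneg_left h2 (rmp_nonneg _ _)
  have h2 : ex (g1 _) w ({z | 4 * l ^ 2 ≤ qq w F K2 S z}.indicator 1) ≤
      ex (g1 _) w (chi w F K2 S l) := by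
    refine H487.ex_mono hw bi bχ fun z => ?_
    by_cases hz : z ∈ {z | 4 * l ^ 2 ≤ qq w F K2 S z}
    · rw [Set.indicator_of_mem hz]
      have h3 : 2 * l ≤ rq w F K2 S z := by
        refine Real.le_sqrt_of_sq_le ?_
        have : 4 * l ^ 2 ≤ qq w F K2 S z := hz
        nlinarith
      have : chi w F K2 S l z = 1 := rmp_one hl h3
      rw [this]
      simp
    · rw [Set.indicator_of_notMem hz]
      exact rmp_nonneg _ _
  exact prob_arith (sub_nonneg.2 hτ) (sub_nonneg.2 hgap) h1 h2 h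

end Vale.Agent.P146.H266.Brx
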