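import Vale.Agent.P146.H266.Brx1
import Vale.Agent.P146.H792.Q12

/-!
# P146, BRX: from the maximal correlation inequality at fixed `K1` to its integrated form

`c = τ2 M1.M2 / n + v2` is the inner product of the two rows, `s_i = τ_i Q_i + v_i` the squares of
their lengths, `I = cx K1 (N1 N2)`, `A_i = cx K1 (N_i ^ 2)`.
-/

open MeasureTheory ProbabilityTheory

namespace Vale.Agent.P146.H266.Brx

open Vale.Agent.P157.Lv hiding Dep
open Vale.Agent.P146.H196 Vale.Agent.P146.H646 Vale.Agent.P146.H475 Vale.Agent.P146.H347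
  Vale.Agent.P146.H487 Vale.Agent.P146.H325 Vale.Agent.P146.H266.EG

set_option linter.unusedSectionVars false

/-! ### real numbers -/

lemma rho_sq {s1 s2 : ℝ} (h1 : 0 < s1) (h2 : 0 < s2) :
    (√s2 / max (√s1) (√s2)) ^ 2 = s2 / max s1 s2 := by
  rw [div_pow, Real.sq_sqrt h2.le]
  congr 1
  rcases le_total s1 s2 with h | h
  · rw [max_eq_right h, max_eq_right (Real.sqrt_le_sqrt h), Real.sq_sqrt h2.le]
  · rw [max_eq_left h, max_eq_left (Real.sqrt_le_sqrt h), Real.sq_sqrt h1.le]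

lemma corr_arith {s1 s2 c κ : ℝ} (hκ : 0 < κ) (h1 : 0 < s1) (h2 : 0 < s2) (hs2 : 1 ≤ κ * s2)
    (hs1 : s2 ≤ 4 * s1) (hcs : c ^ 2 ≤ s1 * s2) :
    c ^ 2 / (s1 * s2) ≤ s2 / max s1 s2 + (8 * (κ * |c - s2|) + 4 * (κ * |c - s2|) ^ 2) := by
  have hp : 0 < s1 * s2 := mul_pos h1 h2
  have e0 : 0 ≤ 8 * (κ * |c - s2|) + 4 * (κ * |c - s2|) ^ 2 := by positivity
  rcases le_total s1 s2 with h | h
  · rw [max_eq_right h, div_self h2.ne']
    have : c ^ 2 / (s1 * s2) ≤ 1 := div_le_one_of_le₀ hcs hp.le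
    linarith
  · rw [max_eq_left h]
    have e1 : c ^ 2 / (s1 * s2) = s2 / s1 + (2 * (c - s2) / s1 + (c - s2) ^ 2 / (s1 * s2)) := by
      field_simp
      ring
    rw [e1]
    have i1 : 1 / s1 ≤ 4 * κ := by
      rw [div_le_iff₀ h1]
      nlinarith
    have i2 : 1 / s2 ≤ κ := by
      rw [div_le_iff₀ h2]
      exact hs2
    have i3 : 0 < 1 / s1 := by positivity
    have i4 : 0 < 1 / s2 := by positivity
    have e2 : 2 * (c - s2) / s1 ≤ 8 * (κ * |c - s2|) := by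
      have : 2 * (c - s2) / s1 = 2 * (c - s2) * (1 / s1) := by ring
      rw [this]
      have g1 : 2 * (c - s2) * (1 / s1) ≤ 2 * |c - s2| * (1 / s1) :=
        mul_le_mul_of_nonneg_right (by linarith [le_abs_self (c - s2)]) i3.le
      have g2 : 2 * |c - s2| * (1 / s1) ≤ 2 * |c - s2| * (4 * κ) :=
        mul_le_mul_of_nonneg_left i1 (by positivity)
      linarith
    have e3 : (c - s2) ^ 2 / (s1 * s2) ≤ 4 * (κ * |c - s2|) ^ 2 := by
      have : (c - s2) ^ 2 / (s1 * s2) = (c - s2) ^ 2 * ((1 / s1) * (1 / s2)) := by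
        field_simp
      rw [this, mul_pow, sq_abs]
      have g1 : 1 / s1 * (1 / s2) ≤ 4 * κ * κ :=
        mul_le_mul i1 i2 i4.le (by positivity)
      have g2 := mul_le_mul_of_nonneg_left g1 (sq_nonneg (c - s2))
      linarith
    linarith

/-- the pointwise step on the good event -/
lemma pt_arith {s1 s2 c A1 A2 I R B κ : ℝ} (hκ : 0 < κ) (h1 : 0 < s1) (h2 : 0 < s2)
    (hs2 : 1 ≤ κ * s2) (hs1 : s2 ≤ 4 * s1) (hcs : c ^ 2 ≤ s1 * s2) (hA1 : 0 ≤ A1) (hA2 : 0 ≤ A2)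
    (hB1 : A1 ≤ B) (hB2 : A2 ≤ B) (hR : 0 ≤ R)
    (hI : s1 * s2 * I ^ 2 ≤ c ^ 2 * (A1 * A2) + R ^ 2) :
    I ≤ √s2 / max (√s1) (√s2) * (√A1 * √A2) +
      (B * (3 * √(κ * |c - s2|) + 2 * (κ * |c - s2|)) + 2 * κ * R) := by
  have hp : 0 < s1 * s2 := mul_pos h1 h2
  have hB : 0 ≤ B := hA1.trans hB1
  have hcor := corr_arith hκ h1 h2 hs2 hs1 hcs
  obtain ⟨t, ht⟩ : ∃ t, t = κ * |c - s2| := ⟨_, rfl⟩
  rw [← ht] at hcor ⊢
  have t0 : 0 ≤ t := by rw [ht]; positivity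
  set X := √s2 / max (√s1) (√s2) * (√A1 * √A2) with hX
  have X0 : 0 ≤ X := by positivity
  have hX2 : X ^ 2 = s2 / max s1 s2 * (A1 * A2) := by
    rw [hX, mul_pow, rho_sq h1 h2, mul_pow, Real.sq_sqrt hA1, Real.sq_sqrt hA2]
  set Y := B * (3 * √t + 2 * t) with hY
  have Y0 : 0 ≤ Y := by positivity
  have hY2 : B ^ 2 * (8 * t + 4 * t ^ 2) ≤ Y ^ 2 := by
    rw [hY, mul_pow]
    refine mul_le_mul_of_nonneg_left ?_ (sq_nonneg B)
    have e1 : √t ^ 2 = t := Real.sq_sqrt t0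
    have e2 : (3 * √t + 2 * t) ^ 2 = 9 * √t ^ 2 + 12 * (√t * t) + 4 * t ^ 2 := by ring
    rw [e2, e1]
    have : 0 ≤ √t * t := by positivity
    linarith
  set Z := 2 * κ * R with hZ
  have Z0 : 0 ≤ Z := by positivity
  have hZ2 : R ^ 2 / (s1 * s2) ≤ Z ^ 2 := by
    rw [hZ, div_le_iff₀ hp]
    have g1 : 1 ≤ (2 * κ) ^ 2 * (s1 * s2) := by
      have a1 : 1 ≤ 4 * κ * s1 := by nlinarith
      have a2 : 1 ≤ (4 * κ * s1) * (κ * s2) := by nlinarith
      nlinarith
    have g2 := mul_le_mul_of_nonneg_left g1 (sq_nonneg R)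
    have e : (2 * κ * R) ^ 2 * (s1 * s2) = R ^ 2 * ((2 * κ) ^ 2 * (s1 * s2)) := by ring
    rw [e]
    linarith
  have hI' : I ^ 2 ≤ X ^ 2 + Y ^ 2 + Z ^ 2 := by
    have g1 : I ^ 2 ≤ c ^ 2 / (s1 * s2) * (A1 * A2) + R ^ 2 / (s1 * s2) := by
      have e : c ^ 2 / (s1 * s2) * (A1 * A2) + R ^ 2 / (s1 * s2) =
          (c ^ 2 * (A1 * A2) + R ^ 2) / (s1 * s2) := by ring
      rw [e, le_div_iff₀ hp]
      linarith
    have g2 := mul_le_mul_of_nonneg_right hcor (mul_nonneg hA1 hA2)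
    have g3 : (8 * t + 4 * t ^ 2) * (A1 * A2) ≤ B ^ 2 * (8 * t + 4 * t ^ 2) := by
      have : A1 * A2 ≤ B ^ 2 := by
        rw [sq]
        exact mul_le_mul hB1 hB2 hA2 hB
      have := mul_le_mul_of_nonneg_left this (show 0 ≤ 8 * t + 4 * t ^ 2 by positivity)
      linarith
    rw [hX2]
    have e : (s2 / max s1 s2 + (8 * t + 4 * t ^ 2)) * (A1 * A2) =
        s2 / max s1 s2 * (A1 * A2) + (8 * t + 4 * t ^ 2) * (A1 * A2) := by ring
    rw [e] at g2
    linarith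
  have h5 : I ^ 2 ≤ (X + (Y + Z)) ^ 2 := by
    have : 0 ≤ X * (Y + Z) := by positivity
    have : 0 ≤ Y * Z := by positivity
    nlinarith
  exact (le_abs_self I).trans (abs_le_of_sq_le_sq h5 (by positivity))

/-- on the exceptional events the inner product is far from `s2` -/
lemma ind_arith {s1 s2 c κ : ℝ} (hκ : 0 < κ) (h2 : 0 < s2) (hs2 : 1 ≤ κ * s2)
    (hcs : c ^ 2 ≤ s1 * s2) (h : c ≤ 0 ∨ 4 * s1 < s2) : 1 ≤ 4 * (κ * |c - s2|) ^ 2 := by
  have key : s2 / 2 ≤ |c - s2| := by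
    rcases h with h | h
    · rw [abs_sub_comm]
      refine le_trans ?_ (le_abs_self _)
      linarith
    · have h3 : c ^ 2 ≤ (s2 / 2) ^ 2 := by nlinarith
      have h4 : |c| ≤ s2 / 2 := abs_le_of_sq_le_sq h3 (by linarith)
      rw [abs_sub_comm]
      refine le_trans ?_ (le_abs_self _)
      linarith [le_abs_self c]
  have h5 : 1 / 2 ≤ κ * |c - s2| := by
    have := mul_le_mul_of_nonneg_left key hκ.le
    linarith
  nlinarith

/-! ### the integrated form -/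

section

variable {κ : Type*} [Fintype κ] [DecidableEq κ] {μ : κ → Measure ℝ}
  [∀ e, IsProbabilityMeasure (μ e)] {w Ψ : (κ → ℝ) → ℝ}

lemma ex_abs_sq_le (hw : Wt μ w) (h : BM Ψ) :
    ex μ w (fun z => |Ψ z|) ≤ √(ex μ w (fun z => Ψ z ^ 2)) := by
  have h1 : BM (fun z => |Ψ z|) := ⟨h.meas.abs, by
    obtain ⟨C, hC⟩ := h.bd
    exact ⟨C, fun z => by rw [abs_abs]; exact hC z⟩⟩
  have h2 := H487.ex_mul_le hw (BM.const 1) h1
  have e1 : ex μ w (fun _ : κ → ℝ => (1 : ℝ) ^ 2) = 1 := by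
    simp only [one_pow]
    exact H487.ex_const hw 1
  simp only [one_mul, sq_abs] at h2
  rw [e1, Real.sqrt_one, one_mul] at h2
  exact (le_abs_self _).trans h2

lemma ex_sqrt_le (hw : Wt μ w) (h : BM Ψ) (h0 : ∀ z, 0 ≤ Ψ z) :
    ex μ w (fun z => √(Ψ z)) ≤ √(ex μ w Ψ) := by
  have h2 := ex_abs_sq_le hw (H487.BM.sqrt h)
  have e1 : (fun z => |√(Ψ z)|) = fun z => √(Ψ z) := by
    funext z
    exact abs_of_nonneg (Real.sqrt_nonneg _)
  have e2 : (fun z => √(Ψ z) ^ 2) = Ψ := by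
    funext z
    exact Real.sq_sqrt (h0 z)
  rw [e1, e2] at h2
  exact h2

end

variable {n : ℕ} {LB LF : Type} [Fintype LB] [DecidableEq LB] [Fintype LF] [DecidableEq LF]
variable {w : (Co n LB LF → ℝ) → ℝ} {F : Fin n → (Co n LB LF → ℝ) → ℝ}

/-- `M1.M2 / n` -/
noncomputable abbrev qi (w : (Co n LB LF → ℝ) → ℝ) (F : Fin n → (Co n LB LF → ℝ) → ℝ)
    (K1 K2 : Finset (Co n LB LF)) (S : Finset (Fin n)) (z : Co n LB LF → ℝ) : ℝ :=
  (∑ j ∈ S, cx (g1 _) K1 w (F j) z * cx (g1 _) K2 w (F j) z) / n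

lemma qi_sq_le (K1 K2 : Finset (Co n LB LF)) (S : Finset (Fin n)) (z : Co n LB LF → ℝ) :
    qi w F K1 K2 S z ^ 2 ≤ qq w F K1 S z * qq w F K2 S z := by
  have h := Finset.sum_mul_sq_le_sq_mul_sq S (fun j => cx (g1 _) K1 w (F j) z)
    (fun j => cx (g1 _) K2 w (F j) z)
  unfold qi qq H615.m2
  rw [div_pow, div_mul_div_comm, ← sq]
  exact div_le_div_of_nonneg_right h (sq_nonneg _)

lemma bm_qi (hp : PS w F) (K1 K2 : Finset (Co n LB LF)) (S : Finset (Fin n)) :
    BM (qi w F K1 K2 S) := by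
  have h2 : BM (fun z => (n : ℝ)⁻¹ * ∑ j ∈ S, cx (g1 _) K1 w (F j) z *
      cx (g1 _) K2 w (F j) z) :=
    (BM.const _).mul (BM.sum S fun j _ => (hp.wt.bm_cx K1 (hp.bm j)).mul
      (hp.wt.bm_cx K2 (hp.bm j)))
  have e : (fun z => (n : ℝ)⁻¹ * ∑ j ∈ S, cx (g1 _) K1 w (F j) z *
      cx (g1 _) K2 w (F j) z) = qi w F K1 K2 S := by
    funext z
    unfold qi
    rw [div_eq_inv_mul]
  rwa [e] at h2

lemma bm_qq (hp : PS w F) (K : Finset (Co n LB LF)) (S : Finset (Fin n)) :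
    BM (fun z => qq w F K S z) := by
  have h1 := H487.BM.sq' (bm_nq hp S K)
  have e : (fun z => √(qq w F K S z) ^ 2) = fun z => qq w F K S z := by
    funext z
    exact Real.sq_sqrt (div_nonneg (Finset.sum_nonneg fun _ _ => sq_nonneg _)
      (Nat.cast_nonneg n))
  rwa [e] at h1

/-- the integrand of the error -/
lemma del_arith {χ I X B a b : ℝ} (χ0 : 0 ≤ χ) (χ1 : χ ≤ 1) (hI : I ≤ X + a) (ha : 0 ≤ a)
    (hab : a ≤ b) (_hB : 0 ≤ B) : χ * I ≤ χ * X + b := by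
  have h1 := mul_le_mul_of_nonneg_left hI χ0
  have h2 : χ * a ≤ a := mul_le_of_le_one_left ha χ1
  rw [mul_add] at h1
  linarith

/-- **The hypothesis of `brx_close` from the maximal correlation inequality at fixed `K1`.** -/
theorem hmc_of_pt (hp : PS w F) {S : Finset (Fin n)} {i0 : Fin n}
    {BL1 BL2 : Finset LB} {FL1 FL2 : Finset LF} (hB : BL2 ⊆ BL1) (hF : FL2 ⊆ FL1)
    {τ1 v1 τ2 v2 l C0 E2 pb : ℝ} (hτ2 : 0 < τ2) (hτ : τ2 ≤ τ1) (hv2 : 0 ≤ v2) (hv : v2 ≤ v1)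
    (hl : 0 < l) (hC : ∀ j z, |F j z| ≤ C0) {bad : Set (Co n LB LF → ℝ)}
    (hbad : MeasurableSet bad) {R : (Co n LB LF → ℝ) → ℝ} (hR : BM R) (R0 : ∀ z, 0 ≤ R z)
    (hpt : ∀ z, z ∉ bad → l ^ 2 ≤ qq w F (Kset S BL2 FL2) S z →
      τ2 * qq w F (Kset S BL2 FL2) S z + v2 ≤ 4 * (τ1 * qq w F (Kset S BL1 FL1) S z + v1) →
      0 < τ2 * qi w F (Kset S BL1 FL1) (Kset S BL2 FL2) S z + v2 →
      (τ1 * qq w F (Kset S BL1 FL1) S z + v1) * (τ2 * qq w F (Kset S BL2 FL2) S z + v2) *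
        cx (g1 _) (Kset S BL1 FL1) w
          (fun z => cx (g1 _) (Kset (insert i0 S) BL1 FL1) w (F i0) z *
            cx (g1 _) (Kset (insert i0 S) BL2 FL2) w (F i0) z) z ^ 2 ≤
        (τ2 * qi w F (Kset S BL1 FL1) (Kset S BL2 FL2) S z + v2) ^ 2 *
          (cx (g1 _) (Kset S BL1 FL1) w
              (fun z => cx (g1 _) (Kset (insert i0 S) BL1 FL1) w (F i0) z ^ 2) z *
            cx (g1 _) (Kset S BL1 FL1) w
              (fun z => cx (g1 _) (Kset (insert i0 S) BL2 FL2) w (F i0) z ^ 2) z) +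
          R z ^ 2)
    (hpb : ex (g1 _) w (bad.indicator fun _ => 1) ≤ pb)
    (hE : ex (g1 _) w (fun z => (qi w F (Kset S BL1 FL1) (Kset S BL2 FL2) S z -
      qq w F (Kset S BL2 FL2) S z) ^ 2) ≤ E2) (hE1 : E2 ≤ l ^ 4) :
    ex (g1 _) w (fun z => chi w F (Kset S BL2 FL2) S l z *
        (cx (g1 _) (Kset (insert i0 S) BL1 FL1) w (F i0) z *
          cx (g1 _) (Kset (insert i0 S) BL2 FL2) w (F i0) z)) ≤
      √(ex (g1 _) w (fun z => chi w F (Kset S BL2 FL2) S l z *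
          rho w F (Kset S BL1 FL1) (Kset S BL2 FL2) S τ1 v1 τ2 v2 l z ^ 2 *
          cx (g1 _) (Kset (insert i0 S) BL1 FL1) w (F i0) z ^ 2)) *
        √(ex (g1 _) w (fun z => chi w F (Kset S BL2 FL2) S l z *
          cx (g1 _) (Kset (insert i0 S) BL2 FL2) w (F i0) z ^ 2)) +
      (C0 ^ 2 * (pb + 9 * (√(√E2) / l)) + 2 / (τ2 * l ^ 2) * ex (g1 _) w R) := by
  set K1 : Finset (Co n LB LF) := Kset S BL1 FL1 with hK1
  set K2 : Finset (Co n LB LF) := Kset S BL2 FL2 with hK2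
  set K1' : Finset (Co n LB LF) := Kset (insert i0 S) BL1 FL1 with hK1'
  set K2' : Finset (Co n LB LF) := Kset (insert i0 S) BL2 FL2 with hK2'
  have hw : Wt (g1 (Co n LB LF)) w := hp.wt
  have h21 : K2 ⊆ K1 := Kset_mono (Finset.Subset.refl _) hB hF
  have b1 : BM (cx (g1 _) K1' w (F i0)) := hw.bm_cx K1' (hp.bm i0)
  have b2 : BM (cx (g1 _) K2' w (F i0)) := hw.bm_cx K2' (hp.bm i0)
  have bχ := bm_chi hp K2 S l
  have bρ := bm_rho hp K1 K2 S τ1 v1 τ2 v2 l
  have C00 : 0 ≤ C0 := (abs_nonneg _).trans (hC i0 0)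
  have q0 : ∀ (K : Finset (Co n LB LF)) z, 0 ≤ qq w F K S z := fun K z =>
    div_nonneg (Finset.sum_nonneg fun _ _ => sq_nonneg _) (Nat.cast_nonneg n)
  have rq2 : ∀ (K : Finset (Co n LB LF)) z, rq w F K S z ^ 2 = qq w F K S z := fun K z =>
    Real.sq_sqrt (q0 K z)
  have hτ1 : 0 < τ1 := hτ2.trans_le hτ
  have hv1 : 0 ≤ v1 := hv2.trans hv
  set κ : ℝ := 1 / (τ2 * l ^ 2) with hκd
  have hκ : 0 < κ := by positivity
  have hκ1 : κ * (τ2 * l ^ 2) = 1 := by rw [hκd]; field_simp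
  -- the error
  set dd : (Co n LB LF → ℝ) → ℝ := fun z => qi w F K1 K2 S z - qq w F K2 S z with hdd
  have bdd : BM dd := (bm_qi hp K1 K2 S).sub (bm_qq hp K2 S)
  set t : (Co n LB LF → ℝ) → ℝ := fun z => κ * τ2 * |dd z| with htd
  have bt : BM t := (BM.const _).mul ⟨bdd.meas.abs, by
    obtain ⟨C, hC⟩ := bdd.bd
    exact ⟨C, fun z => by rw [abs_abs]; exact hC z⟩⟩
  have t0 : ∀ z, 0 ≤ t z := fun z => by rw [htd]; positivity
  set δ : (Co n LB LF → ℝ) → ℝ := fun z =>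
    C0 ^ 2 * bad.indicator (fun _ => 1) z + C0 ^ 2 * (4 * t z ^ 2) +
      (C0 ^ 2 * (3 * √(t z) + 2 * t z) + 2 * κ * R z) with hδ
  have bi : BM (bad.indicator fun _ => (1 : ℝ)) := H792.bm_ind hbad
  have bδ : BM δ := (((BM.const _).mul bi).add ((BM.const _).mul ((BM.const _).mul
    (H487.BM.sq' bt)))).add (((BM.const _).mul (((BM.const _).mul (H487.BM.sqrt bt)).add
      ((BM.const _).mul bt))).add ((BM.const _).mul hR))
  have hi0 : ∀ z, (0 : ℝ) ≤ bad.indicator (fun _ => 1) z := fun z =>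
    Set.indicator_nonneg (fun _ _ => zero_le_one) z
  -- sizes
  have hN : ∀ (K K' : Finset (Co n LB LF)) z,
      cx (g1 _) K w (fun z => cx (g1 _) K' w (F i0) z ^ 2) z ≤ C0 ^ 2 := fun K K' z => by
    have h1 : ∀ z, |cx (g1 _) K' w (F i0) z ^ 2| ≤ C0 ^ 2 := fun z => by
      rw [abs_of_nonneg (sq_nonneg _), ← sq_abs]
      exact pow_le_pow_left₀ (abs_nonneg _) (hw.abs_cx_le K' (hp.bm i0) (hC i0) z) 2
    exact (le_abs_self _).trans (hw.abs_cx_le K (H487.BM.sq' (hw.bm_cx K' (hp.bm i0))) h1 z)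
  have hN0 : ∀ (K K' : Finset (Co n LB LF)) z,
      0 ≤ cx (g1 _) K w (fun z => cx (g1 _) K' w (F i0) z ^ 2) z := fun K K' z => by
    have := H646.cx_mono hw (K := K) (BM.const 0) (H487.BM.sq' (hw.bm_cx K' (hp.bm i0)))
      (fun z => sq_nonneg _) z
    rwa [H646.cx_dep hw (Q := fun _ => (0 : ℝ)) (fun _ _ => rfl)] at this
  have hI : ∀ z, cx (g1 _) K1 w (fun z => cx (g1 _) K1' w (F i0) z *
      cx (g1 _) K2' w (F i0) z) z ≤ C0 ^ 2 := fun z => by
    have h1 : ∀ z, |cx (g1 _) K1' w (F i0) z * cx (g1 _) K2' w (F i0) z| ≤ C0 ^ 2 := fun z => by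
      rw [abs_mul, sq]
      exact mul_le_mul (hw.abs_cx_le K1' (hp.bm i0) (hC i0) z)
        (hw.abs_cx_le K2' (hp.bm i0) (hC i0) z) (abs_nonneg _) C00
    exact (le_abs_self _).trans (hw.abs_cx_le K1 (b1.mul b2) h1 z)
  have main := cs_int hw (K := K1) b1 b2 bχ bρ bδ
    (H646.Dep.mono h21 (H615.Dep.comp (rmp l)
      (dep_nq (S := S) (Finset.Subset.refl BL2) (Finset.Subset.refl FL2))))
    (by
      have d1 : H646.Dep K1 (fun z => rq w F K1 S z) :=
        dep_nq (S := S) (Finset.Subset.refl BL1) (Finset.Subset.refl FL1)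
      have d2 : H646.Dep K1 (fun z => rq w F K2 S z) := dep_nq (S := S) hB hF
      intro z z'
      have e1 : rq w F K1 S (glue K1 z z') = rq w F K1 S z := d1 z z'
      have e2 : rq w F K2 S (glue K1 z z') = rq w F K2 S z := d2 z z'
      show rh τ1 v1 τ2 v2 l (rq w F K1 S (glue K1 z z')) (rq w F K2 S (glue K1 z z')) = _
      rw [e1, e2])
    (fun z => rmp_nonneg _ _) (fun z => by
      rcases le_or_gt (rq w F K2 S z) l with h0 | h0
      · have hc : chi w F K2 S l z = 0 := rmp_zero hl h0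
        rw [hc, zero_mul, zero_mul, zero_add]
        have := t0 z
        have := hi0 z
        have := R0 z
        show 0 ≤ C0 ^ 2 * bad.indicator (fun _ => 1) z + C0 ^ 2 * (4 * t z ^ 2) +
          (C0 ^ 2 * (3 * √(t z) + 2 * t z) + 2 * κ * R z)
        positivity
      have hq2 : l ^ 2 ≤ qq w F K2 S z := by
        have := pow_le_pow_left₀ hl.le h0.le 2
        rwa [rq2] at this
      set s1 := τ1 * qq w F K1 S z + v1 with hs1
      set s2 := τ2 * qq w F K2 S z + v2 with hs2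
      set c := τ2 * qi w F K1 K2 S z + v2 with hc
      have g2 : τ2 * l ^ 2 ≤ s2 := by
        have := mul_le_mul_of_nonneg_left hq2 hτ2.le
        linarith
      have s2p : 0 < s2 := lt_of_lt_of_le (by positivity) g2
      have s10 : 0 ≤ s1 := by
        have := mul_nonneg hτ1.le (q0 K1 z)
        linarith
      have hκs : 1 ≤ κ * s2 := by
        have := mul_le_mul_of_nonneg_left g2 hκ.le
        linarith
      have hcs : c ^ 2 ≤ s1 * s2 := by
        have e1 : c ^ 2 ≤ (τ2 * qq w F K1 S z + v2) * s2 := by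
          have a1 := q0 K1 z
          have a2 := q0 K2 z
          have a3 := qi_sq_le (w := w) (F := F) K1 K2 S z
          have a4 : 2 * qi w F K1 K2 S z ≤ qq w F K1 S z + qq w F K2 S z := by
            nlinarith [sq_nonneg (qq w F K1 S z - qq w F K2 S z),
              abs_le_of_sq_le_sq (show (2 * qi w F K1 K2 S z) ^ 2 ≤
                (qq w F K1 S z + qq w F K2 S z) ^ 2 by
                  nlinarith [sq_nonneg (qq w F K1 S z - qq w F K2 S z)])
                (add_nonneg a1 a2), le_abs_self (2 * qi w F K1 K2 S z)]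
          have e2 : c ^ 2 = τ2 ^ 2 * qi w F K1 K2 S z ^ 2 +
              τ2 * v2 * (2 * qi w F K1 K2 S z) + v2 ^ 2 := by rw [hc]; ring
          have e3 : (τ2 * qq w F K1 S z + v2) * s2 = τ2 ^ 2 * (qq w F K1 S z * qq w F K2 S z) +
              τ2 * v2 * (qq w F K1 S z + qq w F K2 S z) + v2 ^ 2 := by rw [hs2]; ring
          rw [e2, e3]
          have m1 := mul_le_mul_of_nonneg_left a3 (sq_nonneg τ2)
          have m2 := mul_le_mul_of_nonneg_left a4 (mul_nonneg hτ2.le hv2)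
          linarith
        refine e1.trans (mul_le_mul_of_nonneg_right ?_ s2p.le)
        have := mul_le_mul_of_nonneg_right hτ (q0 K1 z)
        linarith
      have hct : κ * |c - s2| = t z := by
        have : c - s2 = τ2 * dd z := by rw [hc, hs2, hdd]; ring
        rw [this, abs_mul, abs_of_pos hτ2]
        ring
      by_cases hz : z ∈ bad ∨ (c ≤ 0 ∨ 4 * s1 < s2)
      · -- the exceptional event
        have h1 : (1 : ℝ) ≤ bad.indicator (fun _ => 1) z + 4 * t z ^ 2 := by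
          rcases hz with hz | hz
          · rw [Set.indicator_of_mem hz]
            have := sq_nonneg (t z)
            linarith
          · have := ind_arith hκ s2p hκs hcs hz
            rw [hct] at this
            have := hi0 z
            linarith
        have X0 : 0 ≤ rho w F K1 K2 S τ1 v1 τ2 v2 l z *
            (√(cx (g1 _) K1 w (fun z => cx (g1 _) K1' w (F i0) z ^ 2) z) *
              √(cx (g1 _) K1 w (fun z => cx (g1 _) K2' w (F i0) z ^ 2) z)) :=
          mul_nonneg (rh_nonneg _ _) (mul_nonneg (Real.sqrt_nonneg _) (Real.sqrt_nonneg _))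
        refine del_arith (rmp_nonneg _ _) (rmp_le_one _ _)
          (a := C0 ^ 2 * bad.indicator (fun _ => 1) z + C0 ^ 2 * (4 * t z ^ 2)) ?_ ?_ ?_
          (sq_nonneg C0)
        · have h2 := mul_le_mul_of_nonneg_left h1 (sq_nonneg C0)
          have := hI z
          linarith
        · have := hi0 z
          positivity
        · have : 0 ≤ C0 ^ 2 * (3 * √(t z) + 2 * t z) + 2 * κ * R z := by
            have := t0 z
            have := R0 z
            positivity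
          show _ ≤ C0 ^ 2 * bad.indicator (fun _ => 1) z + C0 ^ 2 * (4 * t z ^ 2) +
            (C0 ^ 2 * (3 * √(t z) + 2 * t z) + 2 * κ * R z)
          linarith
      · -- the good event
        rw [not_or, not_or, not_le, not_lt] at hz
        obtain ⟨z1, z2, z3⟩ := hz
        have s1p : 0 < s1 := by linarith
        have h1 := pt_arith hκ s1p s2p hκs z3 hcs (hN0 K1 K1' z) (hN0 K1 K2' z) (hN K1 K1' z)
          (hN K1 K2' z) (R0 z) (hpt z z1 hq2 z3 z2)
        rw [hct] at h1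
        have e1 : √s2 / max (√s1) (√s2) = rho w F K1 K2 S τ1 v1 τ2 v2 l z := by
          show _ = sv τ2 v2 (max (rq w F K2 S z) l) /
            max (sv τ1 v1 (rq w F K1 S z)) (sv τ2 v2 (max (rq w F K2 S z) l))
          rw [max_eq_left h0.le]
          unfold sv
          rw [rq2, rq2]
        rw [e1] at h1
        refine del_arith (rmp_nonneg _ _) (rmp_le_one _ _) h1 ?_ ?_ (sq_nonneg C0)
        · have := t0 z
          have := R0 z
          positivity
        · have : 0 ≤ C0 ^ 2 * bad.indicator (fun _ => 1) z + C0 ^ 2 * (4 * t z ^ 2) := by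
            have := hi0 z
            positivity
          show _ ≤ C0 ^ 2 * bad.indicator (fun _ => 1) z + C0 ^ 2 * (4 * t z ^ 2) +
            (C0 ^ 2 * (3 * √(t z) + 2 * t z) + 2 * κ * R z)
          linarith)
  refine main.trans (add_le_add le_rfl ?_)
  -- the mean of the error
  have bst := H487.BM.sqrt bt
  have E20 : 0 ≤ E2 := (H487.ex_nonneg hw (H487.BM.sq' bdd) fun z => sq_nonneg _).trans hE
  set p : ℝ := √(√E2) / l with hp'
  have p0 : 0 ≤ p := by positivity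
  have p1 : p ≤ 1 := by
    rw [hp', div_le_one₀ hl]
    have h1 : √E2 ≤ l ^ 2 := by
      refine Real.sqrt_le_iff.2 ⟨by positivity, ?_⟩
      calc E2 ≤ l ^ 4 := hE1
        _ = (l ^ 2) ^ 2 := by ring
    exact Real.sqrt_le_iff.2 ⟨hl.le, h1⟩
  have p4 : p ^ 4 = E2 / l ^ 4 := by
    have e1 : √(√E2) ^ 4 = E2 := by
      calc √(√E2) ^ 4 = (√(√E2) ^ 2) ^ 2 := by ring
        _ = √E2 ^ 2 := by rw [Real.sq_sqrt (Real.sqrt_nonneg _)]
        _ = E2 := Real.sq_sqrt E20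
    rw [hp', div_pow, e1]
  have hkt : κ * τ2 = 1 / l ^ 2 := by
    rw [hκd]
    field_simp
  have x2 : ex (g1 _) w (fun z => t z ^ 2) ≤ p ^ 4 := by
    have e1 : (fun z => t z ^ 2) = fun z => (1 / l ^ 2) ^ 2 * dd z ^ 2 := by
      funext z
      show (κ * τ2 * |dd z|) ^ 2 = _
      rw [hkt, mul_pow, sq_abs]
    rw [e1, ex_const_mul (μ := g1 _) (w := w), p4]
    have := mul_le_mul_of_nonneg_left hE (sq_nonneg (1 / l ^ 2))
    refine this.trans (le_of_eq ?_)
    field_simp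
  have x1 : ex (g1 _) w t ≤ p ^ 2 := by
    have h1 := ex_abs_sq_le hw bt
    have e1 : (fun z => |t z|) = t := by
      funext z
      exact abs_of_nonneg (t0 z)
    rw [e1] at h1
    refine h1.trans (Real.sqrt_le_iff.2 ⟨by positivity, x2.trans (le_of_eq ?_)⟩)
    ring
  have x0 : ex (g1 _) w (fun z => √(t z)) ≤ p :=
    (ex_sqrt_le hw bt t0).trans (Real.sqrt_le_iff.2 ⟨p0, x1⟩)
  have a1 : ex (g1 _) w δ = C0 ^ 2 * ex (g1 _) w (bad.indicator fun _ => 1) +
      C0 ^ 2 * (4 * ex (g1 _) w (fun z => t z ^ 2)) +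
      (C0 ^ 2 * (3 * ex (g1 _) w (fun z => √(t z)) + 2 * ex (g1 _) w t) +
        2 * κ * ex (g1 _) w R) := by
    rw [hδ, H487.ex_add hw (((BM.const _).mul bi).add ((BM.const _).mul ((BM.const _).mul
      (H487.BM.sq' bt)))) (((BM.const _).mul (((BM.const _).mul bst).add
      ((BM.const _).mul bt))).add ((BM.const _).mul hR)),
      H487.ex_add hw ((BM.const _).mul bi) ((BM.const _).mul ((BM.const _).mul
      (H487.BM.sq' bt))),
      H487.ex_add hw ((BM.const _).mul (((BM.const _).mul bst).add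
      ((BM.const _).mul bt))) ((BM.const _).mul hR),
      ex_const_mul (μ := g1 _) (w := w), ex_const_mul (μ := g1 _) (w := w),
      ex_const_mul (μ := g1 _) (w := w), ex_const_mul (μ := g1 _) (w := w),
      ex_const_mul (μ := g1 _) (w := w),
      H487.ex_add hw ((BM.const _).mul bst) ((BM.const _).mul bt),
      ex_const_mul (μ := g1 _) (w := w), ex_const_mul (μ := g1 _) (w := w)]
  rw [a1]
  have p41 : p ^ 4 ≤ p := by
    calc p ^ 4 = p ^ 3 * p := by ring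
      _ ≤ 1 * p := mul_le_mul_of_nonneg_right (pow_le_one₀ p0 p1) p0
      _ = p := one_mul p
  have p21 : p ^ 2 ≤ p := by
    calc p ^ 2 = p * p := by ring
      _ ≤ 1 * p := mul_le_mul_of_nonneg_right p1 p0
      _ = p := one_mul p
  have c0 : 0 ≤ C0 ^ 2 := sq_nonneg _
  have m1 := mul_le_mul_of_nonneg_left hpb c0
  have m2 := mul_le_mul_of_nonneg_left (x2.trans p41) c0
  have m3 := mul_le_mul_of_nonneg_left x0 c0
  have m4 := mul_le_mul_of_nonneg_left (x1.trans p21) c0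
  have e1 : 2 * κ = 2 / (τ2 * l ^ 2) := by
    rw [hκd]
    ring
  rw [e1]
  linarith

/-- the mean square of `M1.M2 / n - Q2` by the rank number of the coarser level -/
theorem ex_dd_le {Ω : Type*} [MeasurableSpace Ω] {av : (Ω → ℝ) → (Co n LB LF → ℝ) → ℝ}
    (hw : Wt (g1 (Co n LB LF)) w) (hA : H615.Av av) {S : Finset (Fin n)} {σ : Fin n → Ω → ℝ}
    (hσ : ∀ j, H615.Bd (σ j)) (hn : 0 < n) {K1 K2 : Finset (Co n LB LF)} (hK : K2 ⊆ K1) {C0 : ℝ}
    (hC : ∀ j z, |av (σ j) z| ≤ C0) :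
    ex (g1 _) w (fun z => (qi w (fun j => av (σ j)) K1 K2 S z -
      qq w (fun j => av (σ j)) K2 S z) ^ 2) ≤
      C0 ^ 2 * (√(ex (g1 _) w (H792.rk (g1 _) K2 w av S σ)) / n) := by
  have hn' : (0 : ℝ) < n := Nat.cast_pos.2 hn
  have hσ' : ∀ j ∈ S, H615.Bd (σ j) := fun j _ => hσ j
  have bI := H792.bm_inn (K := K2) (K' := K1) hw hA hσ'
  have bq := H792.bm_q2 (K := K2) hw hA hσ'
  have brk := H792.bm_rk (K := K2) hw hA hσ'
  have h1 : ex (g1 _) w (fun z => (H792.inn (g1 _) K2 K1 w av S σ z -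
      H792.q2 (g1 _) K2 w av S σ z) ^ 2) ≤
      n * C0 ^ 2 * √(ex (g1 _) w (H792.rk (g1 _) K2 w av S σ)) := by
    rw [← H646.ex_cx' hw (K := K2) (H487.BM.sq' (bI.sub bq))]
    refine (H487.ex_mono hw (hw.bm_cx K2 (H487.BM.sq' (bI.sub bq)))
      ((BM.const (n * C0 ^ 2)).mul (H487.BM.sqrt brk)) fun z => ?_).trans ?_
    · refine (H792.q12_var hw hA hσ' hK z).trans (mul_le_mul_of_nonneg_right ?_
        (Real.sqrt_nonneg _))
      have h2 : ∀ j ∈ S, H792.mv (g1 _) K2 w av σ j z ^ 2 ≤ C0 ^ 2 := fun j _ => by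
        rw [← sq_abs]
        exact pow_le_pow_left₀ (abs_nonneg _) (hw.abs_cx_le K2 (hA.bm (hσ j)) (hC j) z) 2
      have h3 : (S.card : ℝ) ≤ n := by
        have := Finset.card_le_univ S
        rw [Fintype.card_fin] at this
        exact_mod_cast this
      refine (Finset.sum_le_card_nsmul _ _ _ h2).trans ?_
      rw [nsmul_eq_mul]
      exact mul_le_mul_of_nonneg_right h3 (sq_nonneg _)
    · rw [ex_const_mul (μ := g1 _) (w := w)]
      exact mul_le_mul_of_nonneg_left (ex_sqrt_le hw brk fun z => H792.rk_nonneg z)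
        (by positivity)
  have e1 : (fun z => (qi w (fun j => av (σ j)) K1 K2 S z -
      qq w (fun j => av (σ j)) K2 S z) ^ 2) = fun z => (1 / (n : ℝ) ^ 2) *
      (H792.inn (g1 _) K2 K1 w av S σ z - H792.q2 (g1 _) K2 w av S σ z) ^ 2 := by
    funext z
    have : H792.inn (g1 _) K2 K1 w av S σ z = ∑ j ∈ S, cx (g1 _) K1 w (av (σ j)) z *
        cx (g1 _) K2 w (av (σ j)) z := by
      unfold H792.inn
      exact Finset.sum_congr rfl fun j _ => mul_comm _ _
    rw [this]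
    show ((∑ j ∈ S, cx (g1 _) K1 w (av (σ j)) z * cx (g1 _) K2 w (av (σ j)) z) / n -
      H792.q2 (g1 _) K2 w av S σ z / n) ^ 2 = _
    field_simp
  rw [e1, ex_const_mul (μ := g1 _) (w := w)]
  refine (mul_le_mul_of_nonneg_left h1 (by positivity)).trans (le_of_eq ?_)
  field_simp

end Vale.Agent.P146.H266.Brx
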