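import Vale.Agent.P146.H205.E2

/-!
# P146: the left side of the tested row equation, for any symmetric weight and family

`K = Kset S BL FL`, `K' = Kset (insert i0 S) BL FL`, `w` any weight and `F` any family indexed by
the sites with the four facts `PS w F` (weight, permutation invariance, bounded measurable,
equivariant). `M_j = cx K F_j`, `N = cx K' F_i0`, `Q = |M|^2 / n`.
-/

open MeasureTheory ProbabilityTheory

namespace Vale.Agent.P146.H266.EG

open Vale.Agent.P157.Lv hiding Dep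
open Vale.Agent.P146.H196 Vale.Agent.P146.H646 Vale.Agent.P146.H475 Vale.Agent.P146.H347
  Vale.Agent.P146.H487 Vale.Agent.P146.H325

set_option linter.unusedSectionVars false

variable {n : ℕ} {LB LF : Type} [Fintype LB] [DecidableEq LB] [Fintype LF] [DecidableEq LF]

/-- the standing facts: `w` is a weight, invariant under the permutations of the sites, `F` is a
bounded measurable equivariant family -/
structure PS (w : (Co n LB LF → ℝ) → ℝ) (F : Fin n → (Co n LB LF → ℝ) → ℝ) : Prop where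
  wt : Wt (g1 (Co n LB LF)) w
  inv : InvP w
  bm : ∀ j, BM (F j)
  eq : Eq1 F

/-- `|M| ^ 2 / n` -/
noncomputable abbrev qq (w : (Co n LB LF → ℝ) → ℝ) (F : Fin n → (Co n LB LF → ℝ) → ℝ)
    (K : Finset (Co n LB LF)) (S : Finset (Fin n)) (z : Co n LB LF → ℝ) : ℝ :=
  H615.m2 S (fun j => cx (g1 _) K w (F j)) z / n

/-- increment of `ex |M| ^ 2` when `K` is replaced by `K'` -/
noncomputable abbrev incM (w : (Co n LB LF → ℝ) → ℝ) (F : Fin n → (Co n LB LF → ℝ) → ℝ)
    (K K' : Finset (Co n LB LF)) (S : Finset (Fin n)) : ℝ :=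
  ∑ j ∈ S, (ex (g1 _) w (fun z => cx (g1 _) K' w (F j) z ^ 2) -
    ex (g1 _) w (fun z => cx (g1 _) K w (F j) z ^ 2))

/-- increment of the mean square of one conditional mean when `K` is replaced by `K'` -/
noncomputable abbrev incK (w Θ : (Co n LB LF → ℝ) → ℝ) (K K' : Finset (Co n LB LF)) : ℝ :=
  ex (g1 _) w (fun z => cx (g1 _) K' w Θ z ^ 2) - ex (g1 _) w (fun z => cx (g1 _) K w Θ z ^ 2)

/-- `ex N ^ p`, `N = cx K' F` -/
noncomputable abbrev exN (w Ψ : (Co n LB LF → ℝ) → ℝ) (K' : Finset (Co n LB LF)) (p : ℕ) : ℝ :=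
  ex (g1 _) w (fun z => cx (g1 _) K' w Ψ z ^ p)

variable {w : (Co n LB LF → ℝ) → ℝ} {F : Fin n → (Co n LB LF → ℝ) → ℝ}

/-- a permutation of the sites which preserves `S` is a symmetry respecting `Kset S BL FL` -/
lemma sy_inv (h : InvP w) (π : Equiv.Perm (Fin n)) {S : Finset (Fin n)} (BL : Finset LB)
    (FL : Finset LF) (hπ : ∀ i, π i ∈ S ↔ i ∈ S) :
    Sy (g1 (Co n LB LF)) w (Kset S BL FL) (acP (LB := LB) (LF := LF) π) where
  mp := mp_ac (cP LB LF π) (fun _ => one_mul 1)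
  wt z := h π z
  gl z z' := ac_glue (cP LB LF π) (fun _ => 1) (cP_memK π hπ) z z'

lemma mem_swap {S : Finset (Fin n)} {i0 j : Fin n} (hj : j ∈ S) (a : Fin n) :
    Equiv.swap i0 j a ∈ insert i0 S ↔ a ∈ insert i0 S :=
  swap_mem (iff_of_true (Finset.mem_insert_self _ _) (Finset.mem_insert_of_mem hj)) a

/-- **E2, any finite family of statistics.** -/
theorem e2x {A : Type*} [Fintype A] (hp : PS w F) {S : Finset (Fin n)} (hS : S.Nonempty)
    {i0 : Fin n} (BL : Finset LB) (FL : Finset LF)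
    {X X' : A → (Co n LB LF → ℝ) → ℝ} (hX : ∀ a, BM (X a)) (hX' : ∀ a, BM (X' a))
    (hdX : ∀ a, H646.Dep (Kset S BL FL) (X a))
    (hsX : ∀ a, ∀ j ∈ S, ∀ z, X' a (acP (Equiv.swap i0 j) z) = X' a z)
    {G : (A → ℝ) → ℝ} (hG : Measurable G) {P0 : ℝ} {L : A → ℝ}
    (hP : ∀ v, |G v| ≤ P0) (hL0 : ∀ a, 0 ≤ L a)
    (hL : ∀ v v', |G v - G v'| ≤ ∑ a, L a * |v a - v' a|) :
    |ex (g1 _) w (fun z => G (fun a => X a z) *
          cx (g1 _) (Kset (insert i0 S) BL FL) w (F i0) z ^ 2) -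
      n / S.card * ex (g1 _) w
        (fun z => G (fun a => X a z) * qq w F (Kset S BL FL) S z)| ≤
    P0 * incM w F (Kset S BL FL) (Kset (insert i0 S) BL FL) S / S.card +
      2 * ((∑ a, L a * √(ex (g1 _) w (fun z => (X' a z - X a z) ^ 2))) *
        √(exN w (F i0) (Kset (insert i0 S) BL FL) 4)) := by
  set K : Finset (Co n LB LF) := Kset S BL FL with hK
  set K' : Finset (Co n LB LF) := Kset (insert i0 S) BL FL with hK'
  have hw : Wt (g1 (Co n LB LF)) w := hp.wt
  have hFb : ∀ j, BM (F j) := hp.bm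
  have hKK : K ⊆ K' :=
    Kset_mono (Finset.subset_insert i0 S) (Finset.Subset.refl _) (Finset.Subset.refl _)
  have hSc : (0 : ℝ) < S.card := by exact_mod_cast hS.card_pos
  have hn' : (n : ℝ) ≠ 0 := by
    have h1 := Finset.card_le_univ S
    rw [Fintype.card_fin] at h1
    have h2 : (S.card : ℝ) ≤ n := by exact_mod_cast h1
    exact (lt_of_lt_of_le hSc h2).ne'
  have main := regk_lip (A := A) hw hKK hS (F := F) (fun j _ => hFb j) (hFb i0)
    (X := X) (X' := X') hX hX' hdX (G := G) hG (C := P0) (fun v => hP _)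
    (L := L) hL0 hL
    (fun j hj => ⟨acP (Equiv.swap i0 j), sy_inv hp.inv (Equiv.swap i0 j) BL FL (mem_swap hj),
      fun z => by
        have h1 := hp.eq (Equiv.swap i0 j) i0 z
        rw [Equiv.swap_apply_left] at h1
        exact h1,
      fun a z => hsX a j hj z⟩)
  -- the average over `S`
  have bG : BM (fun z => G (fun a => X a z)) :=
    ⟨hG.comp (measurable_pi_lambda _ fun a => (hX a).meas), P0, fun z => hP _⟩
  have eS : (∑ j ∈ S, ex (g1 _) w (fun z => G (fun a => X a z) *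
      cx (g1 _) K w (F j) z ^ 2)) / S.card =
      n / S.card * ex (g1 _) w (fun z => G (fun a => X a z) *
        (H615.m2 S (fun j => cx (g1 _) K w (F j)) z / n)) := by
    have bq : ∀ j ∈ S, BM (fun z => G (fun a => X a z) * cx (g1 _) K w (F j) z ^ 2) :=
      fun j _ => bG.mul (BM.sq' (hw.bm_cx K (hFb j)))
    rw [← ex_sum hw S bq, ← ex_const_mul (μ := g1 _) (w := w) ((n : ℝ) / S.card),
      div_eq_inv_mul, ← ex_const_mul (μ := g1 _) (w := w)]
    congr 1
    funext z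
    rw [← Finset.mul_sum]
    unfold H615.m2
    field_simp
  rw [eS] at main
  exact main

/-! ### the norm as a statistic -/

/-- the norm at a level is a statistic of any finer level with the same `S` -/
lemma dep_nq {S : Finset (Fin n)} {BL1 BL2 : Finset LB} {FL1 FL2 : Finset LF}
    (hB : BL2 ⊆ BL1) (hF : FL2 ⊆ FL1) :
    H646.Dep (Kset S BL1 FL1) (fun z => √(qq w F (Kset S BL2 FL2) S z)) := by
  have h1 : H646.Dep (Kset S BL2 FL2) (fun z => ∑ j ∈ S,
      cx (g1 _) (Kset S BL2 FL2) w (F j) z ^ 2) :=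
    H615.Dep.sum S fun j _ => H615.Dep.sq (dep_cx _)
  have h2 : H646.Dep (Kset S BL1 FL1) (fun z => ∑ j ∈ S,
      cx (g1 _) (Kset S BL2 FL2) w (F j) z ^ 2) :=
    H646.Dep.mono (Kset_mono (Finset.Subset.refl _) hB hF) h1
  exact H615.Dep.comp (fun y => √(y / n)) h2

lemma nq_eq (w : (Co n LB LF → ℝ) → ℝ) (F : Fin n → (Co n LB LF → ℝ) → ℝ)
    (K : Finset (Co n LB LF)) (T : Finset (Fin n)) (z : Co n LB LF → ℝ) :
    √(qq w F K T z) = nrm (g1 _) K w T F z / √n := by
  rw [Real.sqrt_div' _ (Nat.cast_nonneg n)]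
  rfl

/-- the square of the step of `√Q` is at most `(incM + ex N ^ 2) / n` -/
theorem step_nq (hp : PS w F) (hn : 0 < n) {S : Finset (Fin n)} {i0 : Fin n} (hi : i0 ∉ S)
    (BL : Finset LB) (FL : Finset LF) :
    √(ex (g1 _) w (fun z => (√(qq w F (Kset (insert i0 S) BL FL) (insert i0 S) z) -
        √(qq w F (Kset S BL FL) S z)) ^ 2)) ≤
      √(incM w F (Kset S BL FL) (Kset (insert i0 S) BL FL) S +
        exN w (F i0) (Kset (insert i0 S) BL FL) 2) / √n := by
  have hw : Wt (g1 (Co n LB LF)) w := hp.wt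
  have hKK : Kset (LB := LB) (LF := LF) S BL FL ⊆ Kset (insert i0 S) BL FL :=
    Kset_mono (Finset.subset_insert i0 S) (Finset.Subset.refl _) (Finset.Subset.refl _)
  have hn' : (0 : ℝ) < n := Nat.cast_pos.2 hn
  have hst := nrm_step (ι := Fin n) hw hKK hi (F := F) (fun j _ => hp.bm j)
  have e2 : (fun z => (√(qq w F (Kset (insert i0 S) BL FL) (insert i0 S) z) -
        √(qq w F (Kset S BL FL) S z)) ^ 2) =
      fun z => (1 / (n : ℝ)) * (nrm (g1 _) (Kset (insert i0 S) BL FL) w (insert i0 S) F z -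
        nrm (g1 _) (Kset S BL FL) w S F z) ^ 2 := by
    funext z
    rw [nq_eq, nq_eq, ← sub_div, div_pow, Real.sq_sqrt hn'.le]
    ring
  have e3 := ex_const_mul (μ := g1 (Co n LB LF)) (w := w)
    (Ψ := fun z => (nrm (g1 _) (Kset (insert i0 S) BL FL) w (insert i0 S) F z -
        nrm (g1 _) (Kset S BL FL) w S F z) ^ 2) (1 / (n : ℝ))
  rw [e2, e3, ← Real.sqrt_div' _ hn'.le]
  refine Real.sqrt_le_sqrt ?_
  have h5 := mul_le_mul_of_nonneg_left hst (one_div_nonneg.2 hn'.le)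
  refine h5.trans (le_of_eq ?_)
  rw [one_div, ← div_eq_inv_mul]

/-- the norm of the larger block is symmetric -/
lemma sym_nq (hp : PS w F) {S : Finset (Fin n)} {i0 j : Fin n} (hj : j ∈ S) (BL : Finset LB)
    (FL : Finset LF) (z : Co n LB LF → ℝ) :
    √(qq w F (Kset (insert i0 S) BL FL) (insert i0 S) (acP (Equiv.swap i0 j) z)) =
      √(qq w F (Kset (insert i0 S) BL FL) (insert i0 S) z) := by
  have h1 := nrm_sy hp.wt (sy_inv hp.inv (Equiv.swap i0 j) BL FL (mem_swap hj))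
    (F := F) (fun j _ => hp.bm j) (σ := Equiv.swap i0 j) (mem_swap hj)
    (fun i _ z => hp.eq (Equiv.swap i0 j) i z) z
  rw [nq_eq, nq_eq, h1]

lemma bm_nq (hp : PS w F) (S : Finset (Fin n)) (K : Finset (Co n LB LF)) :
    BM (fun z => √(qq w F K S z)) := by
  have h1 : BM (fun z => qq w F K S z) := by
    have h2 : BM (fun z => (n : ℝ)⁻¹ * ∑ j ∈ S, cx (g1 _) K w (F j) z ^ 2) :=
      (BM.const _).mul (BM.sum S fun j _ => H487.BM.sq' (hp.wt.bm_cx K (hp.bm j)))
    have e : ∀ z, qq w F K S z = (n : ℝ)⁻¹ * ∑ j ∈ S, cx (g1 _) K w (F j) z ^ 2 := by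
      intro z
      unfold qq H615.m2
      rw [div_eq_inv_mul]
    refine ⟨?_, ?_⟩
    · rw [funext e]
      exact h2.meas
    · obtain ⟨C, hC⟩ := h2.bd
      exact ⟨C, fun z => by rw [e]; exact hC z⟩
  exact H487.BM.sqrt h1

/-- **E2, two norms**: the weight is a function of `√Q` at the level `(BL, FL)` of the equation and
of `√Q` at a coarser level `(BL2, FL2)`. -/
theorem e2n (hp : PS w F) (hn : 0 < n) {S : Finset (Fin n)} (hS : S.Nonempty) {i0 : Fin n}
    (hi : i0 ∉ S) {BL BL2 : Finset LB} {FL FL2 : Finset LF} (hB : BL2 ⊆ BL) (hF : FL2 ⊆ FL)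
    {G : (Fin 2 → ℝ) → ℝ} (hG : Measurable G) {P0 : ℝ} {L : Fin 2 → ℝ}
    (hP : ∀ v, |G v| ≤ P0) (hL0 : ∀ i, 0 ≤ L i)
    (hL : ∀ v v', |G v - G v'| ≤ ∑ i, L i * |v i - v' i|) :
    |ex (g1 _) w (fun z => G ![√(qq w F (Kset S BL FL) S z), √(qq w F (Kset S BL2 FL2) S z)] *
          cx (g1 _) (Kset (insert i0 S) BL FL) w (F i0) z ^ 2) -
      n / S.card * ex (g1 _) w
        (fun z => G ![√(qq w F (Kset S BL FL) S z), √(qq w F (Kset S BL2 FL2) S z)] *
          qq w F (Kset S BL FL) S z)| ≤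
    P0 * incM w F (Kset S BL FL) (Kset (insert i0 S) BL FL) S / S.card +
      2 * ((L 0 / √n * √(incM w F (Kset S BL FL) (Kset (insert i0 S) BL FL) S +
          exN w (F i0) (Kset (insert i0 S) BL FL) 2) +
        L 1 / √n * √(incM w F (Kset S BL2 FL2) (Kset (insert i0 S) BL2 FL2) S +
          exN w (F i0) (Kset (insert i0 S) BL2 FL2) 2)) *
        √(exN w (F i0) (Kset (insert i0 S) BL FL) 4)) := by
  set X : Fin 2 → (Co n LB LF → ℝ) → ℝ := fun a z =>
    ![√(qq w F (Kset S BL FL) S z), √(qq w F (Kset S BL2 FL2) S z)] a with hX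
  set X' : Fin 2 → (Co n LB LF → ℝ) → ℝ := fun a z =>
    ![√(qq w F (Kset (insert i0 S) BL FL) (insert i0 S) z),
      √(qq w F (Kset (insert i0 S) BL2 FL2) (insert i0 S) z)] a with hX'
  have bX : ∀ a, BM (X a) := by
    intro a
    fin_cases a
    · exact bm_nq hp S _
    · exact bm_nq hp S _
  have bX' : ∀ a, BM (X' a) := by
    intro a
    fin_cases a
    · exact bm_nq hp _ _
    · exact bm_nq hp _ _
  have dX : ∀ a, H646.Dep (Kset S BL FL) (X a) := by
    intro a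
    fin_cases a
    · exact dep_nq (Finset.Subset.refl _) (Finset.Subset.refl _)
    · exact dep_nq hB hF
  have sX : ∀ a, ∀ j ∈ S, ∀ z, X' a (acP (Equiv.swap i0 j) z) = X' a z := by
    intro a j hj z
    fin_cases a
    · exact sym_nq hp hj BL FL z
    · exact sym_nq hp hj BL2 FL2 z
  have h := e2x hp hS (i0 := i0) BL FL bX bX' dX sX hG hP hL0 hL
  have eX : ∀ z, (fun a => X a z) = ![√(qq w F (Kset S BL FL) S z),
      √(qq w F (Kset S BL2 FL2) S z)] := fun z => rfl
  simp only [eX] at h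
  refine h.trans ?_
  rw [Fin.sum_univ_two]
  have t0 := mul_le_mul_of_nonneg_left (step_nq hp hn hi BL FL) (hL0 0)
  have t1 := mul_le_mul_of_nonneg_left (step_nq hp hn hi BL2 FL2) (hL0 1)
  refine add_le_add le_rfl (mul_le_mul_of_nonneg_left
    (mul_le_mul_of_nonneg_right ?_ (Real.sqrt_nonneg _)) (by norm_num : (0 : ℝ) ≤ 2))
  refine (add_le_add t0 t1).trans (le_of_eq ?_)
  ring

/-- **E2, one norm**, Lipschitz in `r = √Q` -/
theorem e2r (hp : PS w F) (hn : 0 < n) {S : Finset (Fin n)} (hS : S.Nonempty) {i0 : Fin n}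
    (hi : i0 ∉ S) (BL : Finset LB) (FL : Finset LF)
    {G : ℝ → ℝ} (hG : Measurable G) {P0 L : ℝ}
    (hP : ∀ v, |G v| ≤ P0) (hL0 : 0 ≤ L)
    (hL : ∀ r r', 0 ≤ r → 0 ≤ r' → |G r - G r'| ≤ L * |r - r'|) :
    |ex (g1 _) w (fun z => G (√(qq w F (Kset S BL FL) S z)) *
          cx (g1 _) (Kset (insert i0 S) BL FL) w (F i0) z ^ 2) -
      n / S.card * ex (g1 _) w
        (fun z => G (√(qq w F (Kset S BL FL) S z)) * qq w F (Kset S BL FL) S z)| ≤
    P0 * incM w F (Kset S BL FL) (Kset (insert i0 S) BL FL) S / S.card +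
      2 * (L / √n * √(incM w F (Kset S BL FL) (Kset (insert i0 S) BL FL) S +
          exN w (F i0) (Kset (insert i0 S) BL FL) 2) *
        √(exN w (F i0) (Kset (insert i0 S) BL FL) 4)) := by
  have mm : Measurable (fun v : Unit → ℝ => G (max (v ()) 0)) :=
    hG.comp ((measurable_pi_apply ()).max measurable_const)
  have h := e2x (A := Unit) hp hS (i0 := i0) BL FL
    (X := fun _ z => √(qq w F (Kset S BL FL) S z))
    (X' := fun _ z => √(qq w F (Kset (insert i0 S) BL FL) (insert i0 S) z))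
    (fun _ => bm_nq hp S _) (fun _ => bm_nq hp _ _)
    (fun _ => dep_nq (Finset.Subset.refl _) (Finset.Subset.refl _))
    (fun _ j hj z => sym_nq hp hj BL FL z)
    (G := fun v => G (max (v ()) 0)) mm (P0 := P0) (L := fun _ => L) (fun v => hP _)
    (fun _ => hL0) (fun v v' => by
      rw [Fintype.sum_unique]
      refine (hL _ _ (le_max_right _ _) (le_max_right _ _)).trans
        (mul_le_mul_of_nonneg_left ?_ hL0)
      refine (abs_max_sub_max_le_max _ _ _ _).trans ?_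
      rw [sub_self, abs_zero]
      exact max_le le_rfl (abs_nonneg _))
  have eX : ∀ z, max (√(qq w F (Kset S BL FL) S z)) 0 =
      √(qq w F (Kset S BL FL) S z) := fun z => max_eq_left (Real.sqrt_nonneg _)
  simp only [eX] at h
  refine h.trans ?_
  rw [Fintype.sum_unique]
  have s0 := mul_le_mul_of_nonneg_left (step_nq hp hn hi BL FL) hL0
  refine add_le_add le_rfl (mul_le_mul_of_nonneg_left
    (mul_le_mul_of_nonneg_right ?_ (Real.sqrt_nonneg _)) (by norm_num : (0 : ℝ) ≤ 2))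
  refine s0.trans (le_of_eq ?_)
  ring

/-- `Q ≤ C ^ 2` if `|F_j| ≤ C` -/
lemma qq_le (hp : PS w F) {C : ℝ} (hC : ∀ j z, |F j z| ≤ C) (K : Finset (Co n LB LF))
    (S : Finset (Fin n)) (z : Co n LB LF → ℝ) : qq w F K S z ≤ C ^ 2 := by
  have h1 : ∀ j ∈ S, cx (g1 _) K w (F j) z ^ 2 ≤ C ^ 2 := fun j _ => by
    rw [← sq_abs]
    exact pow_le_pow_left₀ (abs_nonneg _) (hp.wt.abs_cx_le K (hp.bm j) (hC j) z) 2
  have h2 : H615.m2 S (fun j => cx (g1 _) K w (F j)) z ≤ S.card * C ^ 2 := by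
    unfold H615.m2
    refine (Finset.sum_le_card_nsmul _ _ _ h1).trans ?_
    rw [nsmul_eq_mul]
  have h3 : (S.card : ℝ) ≤ n := by
    have := Finset.card_le_univ S
    rw [Fintype.card_fin] at this
    exact_mod_cast this
  unfold qq
  rcases Nat.eq_zero_or_pos n with h0 | h0
  · subst h0
    simp [sq_nonneg]
  · rw [div_le_iff₀ (by exact_mod_cast h0)]
    refine h2.trans ?_
    rw [mul_comm]
    exact mul_le_mul_of_nonneg_left h3 (sq_nonneg _)

/-- **E2, one norm**, Lipschitz in `Q`, `|F_j| ≤ C` -/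
theorem e2 (hp : PS w F) {C : ℝ} (hC : ∀ j z, |F j z| ≤ C) (hn : 0 < n) {S : Finset (Fin n)}
    (hS : S.Nonempty) {i0 : Fin n} (hi : i0 ∉ S) (BL : Finset LB) (FL : Finset LF)
    {G : ℝ → ℝ} (hG : Measurable G) {P0 L0 : ℝ}
    (hP : ∀ v, |G v| ≤ P0) (hL0 : 0 ≤ L0)
    (hL : ∀ r r', |G r - G r'| ≤ L0 * |r - r'|) :
    |ex (g1 _) w (fun z => G (qq w F (Kset S BL FL) S z) *
          cx (g1 _) (Kset (insert i0 S) BL FL) w (F i0) z ^ 2) -
      n / S.card * ex (g1 _) w
        (fun z => G (qq w F (Kset S BL FL) S z) * qq w F (Kset S BL FL) S z)| ≤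
    P0 * incM w F (Kset S BL FL) (Kset (insert i0 S) BL FL) S / S.card +
      2 * (2 * L0 * C / √n * √(incM w F (Kset S BL FL) (Kset (insert i0 S) BL FL) S +
          exN w (F i0) (Kset (insert i0 S) BL FL) 2) *
        √(exN w (F i0) (Kset (insert i0 S) BL FL) 4)) := by
  have hC0 : 0 ≤ C := (abs_nonneg _).trans (hC i0 0)
  have q0 : ∀ z, 0 ≤ qq w F (Kset S BL FL) S z := fun z =>
    div_nonneg (Finset.sum_nonneg fun _ _ => sq_nonneg _) (Nat.cast_nonneg n)
  have h := e2r hp hn hS hi BL FL (G := fun r => G (min r C ^ 2))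
    (hG.comp ((measurable_id.min measurable_const).pow_const 2)) (P0 := P0) (L := 2 * L0 * C)
    (fun v => hP _) (by positivity) (fun r r' hr hr' => by
      refine (hL _ _).trans ?_
      have e1 : min r C ^ 2 - min r' C ^ 2 = (min r C + min r' C) * (min r C - min r' C) := by
        ring
      have e2 : 0 ≤ min r C + min r' C := add_nonneg (le_min hr hC0) (le_min hr' hC0)
      have e3 : |min r C - min r' C| ≤ |r - r'| := by
        refine (abs_min_sub_min_le_max _ _ _ _).trans ?_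
        rw [sub_self, abs_zero]
        exact max_le le_rfl (abs_nonneg _)
      have e4 : min r C + min r' C ≤ 2 * C := by
        linarith [min_le_right r C, min_le_right r' C]
      rw [e1, abs_mul, abs_of_nonneg e2]
      have e5 := mul_le_mul e4 e3 (abs_nonneg _) (by positivity)
      have e6 := mul_le_mul_of_nonneg_left e5 hL0
      refine e6.trans (le_of_eq ?_)
      ring)
  have eX : ∀ z, min (√(qq w F (Kset S BL FL) S z)) C ^ 2 = qq w F (Kset S BL FL) S z := by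
    intro z
    rw [min_eq_left, Real.sq_sqrt (q0 z)]
    rw [Real.sqrt_le_left hC0]
    exact qq_le hp hC _ _ z
  simp only [eX] at h
  exact h

/-! ### a conditional mean attached to a hidden site as a second statistic -/

/-- the tower property -/
theorem kap_tower (hw : Wt (g1 _) w) {Θ : (Co n LB LF → ℝ) → ℝ} (hΘb : BM Θ)
    {K K' : Finset (Co n LB LF)} (hK : K ⊆ K') (z : Co n LB LF → ℝ) :
    cx (g1 _) K w (cx (g1 _) K' w Θ) z = cx (g1 _) K w Θ z :=
  cx_cx hw hK hΘb z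

theorem incK_nonneg (hw : Wt (g1 _) w) {Θ : (Co n LB LF → ℝ) → ℝ} (hΘb : BM Θ)
    {K K' : Finset (Co n LB LF)} (hK : K ⊆ K') : 0 ≤ incK w Θ K K' := by
  unfold incK
  rw [← ex_sub_sq hw hK hΘb]
  exact ex_nonneg hw (H487.BM.sq' ((hw.bm_cx K' hΘb).sub (hw.bm_cx K hΘb))) fun z => sq_nonneg _

/-- the sum of the increments of `ex kap ^ 2` along a chain is at most the bound of `Θ ^ 2` -/
theorem sum_incK_le (hw : Wt (g1 _) w) {Θ : (Co n LB LF → ℝ) → ℝ} (hΘb : BM Θ) {C : ℝ}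
    (hC : ∀ z, |Θ z| ≤ C) (K : ℕ → Finset (Co n LB LF)) (N : ℕ) :
    ∑ l ∈ Finset.range N, incK w Θ (K l) (K (l + 1)) ≤ C ^ 2 := by
  unfold incK
  rw [Finset.sum_range_sub (fun l => ex (g1 _) w (fun z => cx (g1 _) (K l) w Θ z ^ 2)) N]
  have h1 : ex (g1 _) w (fun z => cx (g1 _) (K N) w Θ z ^ 2) ≤ C ^ 2 := by
    have h2 := ex_mono hw (H487.BM.sq' (hw.bm_cx (K N) hΘb)) (BM.const (C ^ 2)) (fun z => by
      rw [← sq_abs]
      exact pow_le_pow_left₀ (abs_nonneg _) (hw.abs_cx_le (K N) hΘb hC z) 2)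
    rwa [ex_const hw] at h2
  have h3 : 0 ≤ ex (g1 _) w (fun z => cx (g1 _) (K 0) w Θ z ^ 2) :=
    ex_nonneg hw (H487.BM.sq' (hw.bm_cx (K 0) hΘb)) fun z => sq_nonneg _
  linarith

/-- **E2 with two statistics**: the weight is a function of `√Q` and of `kap = cx K (Θ i1)`, `i1` a
hidden site. -/
theorem e2v (hp : PS w F) (hn : 0 < n) {S : Finset (Fin n)} (hS : S.Nonempty) {i0 i1 : Fin n}
    (hi : i0 ∉ S) (hi1 : i1 ∉ insert i0 S) (BL : Finset LB) (FL : Finset LF)
    {Θ : Fin n → (Co n LB LF → ℝ) → ℝ} (hΘb : ∀ i, BM (Θ i)) (hΘ : Eq1 Θ)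
    {G : (Fin 2 → ℝ) → ℝ} (hG : Measurable G) {P0 : ℝ} {L : Fin 2 → ℝ}
    (hP : ∀ v, |G v| ≤ P0) (hL0 : ∀ i, 0 ≤ L i)
    (hL : ∀ v v', |G v - G v'| ≤ ∑ i, L i * |v i - v' i|) :
    |ex (g1 _) w (fun z => G ![√(qq w F (Kset S BL FL) S z), cx (g1 _) (Kset S BL FL) w (Θ i1) z] *
          cx (g1 _) (Kset (insert i0 S) BL FL) w (F i0) z ^ 2) -
      n / S.card * ex (g1 _) w
        (fun z => G ![√(qq w F (Kset S BL FL) S z), cx (g1 _) (Kset S BL FL) w (Θ i1) z] *
          qq w F (Kset S BL FL) S z)| ≤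
    P0 * incM w F (Kset S BL FL) (Kset (insert i0 S) BL FL) S / S.card +
      2 * ((L 0 / √n * √(incM w F (Kset S BL FL) (Kset (insert i0 S) BL FL) S +
          exN w (F i0) (Kset (insert i0 S) BL FL) 2) +
        L 1 * √(incK w (Θ i1) (Kset S BL FL) (Kset (insert i0 S) BL FL))) *
        √(exN w (F i0) (Kset (insert i0 S) BL FL) 4)) := by
  have hi1S : i1 ∉ S := fun h => hi1 (Finset.mem_insert_of_mem h)
  have hi10 : i1 ≠ i0 := fun h => hi1 (h ▸ Finset.mem_insert_self _ _)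
  have hw := hp.wt
  set X : Fin 2 → (Co n LB LF → ℝ) → ℝ := fun a z =>
    ![√(qq w F (Kset S BL FL) S z), cx (g1 _) (Kset S BL FL) w (Θ i1) z] a with hX
  set X' : Fin 2 → (Co n LB LF → ℝ) → ℝ := fun a z =>
    ![√(qq w F (Kset (insert i0 S) BL FL) (insert i0 S) z),
      cx (g1 _) (Kset (insert i0 S) BL FL) w (Θ i1) z] a with hX'
  have bX : ∀ a, BM (X a) := by
    intro a
    fin_cases a
    · exact bm_nq hp S _
    · exact hw.bm_cx _ (hΘb i1)
  have bX' : ∀ a, BM (X' a) := by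
    intro a
    fin_cases a
    · exact bm_nq hp _ _
    · exact hw.bm_cx _ (hΘb i1)
  have dX : ∀ a, H646.Dep (Kset S BL FL) (X a) := by
    intro a
    fin_cases a
    · exact dep_nq (Finset.Subset.refl _) (Finset.Subset.refl _)
    · exact dep_cx _
  have sX : ∀ a, ∀ j ∈ S, ∀ z, X' a (acP (Equiv.swap i0 j) z) = X' a z := by
    intro a j hj z
    fin_cases a
    · exact sym_nq hp hj BL FL z
    · have h1 := Sy.cx hw (sy_inv hp.inv (Equiv.swap i0 j) BL FL (mem_swap hj))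
        (hΘb i1) (g := Θ i1) (fun z => by
          rw [hΘ, Equiv.swap_apply_of_ne_of_ne hi10 (fun h => hi1S (h ▸ hj))]) z
      exact h1.symm
  have h := e2x hp hS (i0 := i0) BL FL bX bX' dX sX hG hP hL0 hL
  have eX : ∀ z, (fun a => X a z) = ![√(qq w F (Kset S BL FL) S z),
      cx (g1 _) (Kset S BL FL) w (Θ i1) z] := fun z => rfl
  simp only [eX] at h
  refine h.trans ?_
  rw [Fin.sum_univ_two]
  have t0 := mul_le_mul_of_nonneg_left (step_nq hp hn hi BL FL) (hL0 0)
  have hKK : Kset (LB := LB) (LF := LF) S BL FL ⊆ Kset (insert i0 S) BL FL :=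
    Kset_mono (Finset.subset_insert i0 S) (Finset.Subset.refl _) (Finset.Subset.refl _)
  have t1 : ex (g1 _) w (fun z => (X' 1 z - X 1 z) ^ 2) =
      incK w (Θ i1) (Kset S BL FL) (Kset (insert i0 S) BL FL) := ex_sub_sq hw hKK (hΘb i1)
  rw [t1]
  refine add_le_add le_rfl (mul_le_mul_of_nonneg_left
    (mul_le_mul_of_nonneg_right ?_ (Real.sqrt_nonneg _)) (by norm_num : (0 : ℝ) ≤ 2))
  refine (add_le_add t0 le_rfl).trans (le_of_eq ?_)
  ring

end Vale.Agent.P146.H266.EG
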