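import Vale.Agent.P146.H266.EG
import Vale.Agent.P146.H347.ModU

/-!
# P146: `PS` (the standing facts of `EG`) for the ensemble `U` and for the single amplitude

`psU` : weight `Z ^ x` of `muU ν n`, `SU b cB cF a`; family `F_j = ⟨r s_j⟩`, `r : Th → ℝ` any bounded
measurable root amplitude. With it all the theorems `EG.e2x`, `EG.e2`, `EG.e2n`, `EG.e2r`, `EG.e2v`
hold in the ensemble `U`.
-/

open MeasureTheory ProbabilityTheory

namespace Vale.Agent.P146.H266.EU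

open Vale.Agent.P157.Lv hiding Dep
open Vale.Agent.P146.H196 Vale.Agent.P146.H646 Vale.Agent.P146.H475 Vale.Agent.P146.H347
  Vale.Agent.P146.H487 Vale.Agent.P146.H325 Vale.Agent.P146.H281.U Vale.Agent.P146.H347.U
  Vale.Agent.P146.H266.EG

set_option linter.unusedSectionVars false

section U

variable {Th : Type} [MeasurableSpace Th] {n : ℕ} {LB LF : Type} [Fintype LB] [DecidableEq LB]
  [Fintype LF] [DecidableEq LF]

/-- the weight `Z ^ x` of the ensemble `U` -/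
noncomputable abbrev WU (ν : Measure Th) (n : ℕ) (b : ℝ) (cB : LB → ℝ) (cF : LF → ℝ)
    (a : LF → Th → ℝ) (x : ℝ) : (Co n LB LF → ℝ) → ℝ :=
  Zxm (muU ν n) 1 (SU b cB cF a) x

/-- `⟨r s_j⟩` -/
noncomputable def FU (ν : Measure Th) (b : ℝ) (cB : LB → ℝ) (cF : LF → ℝ)
    (a : LF → Th → ℝ) (r : Th → ℝ) (j : Fin n) : (Co n LB LF → ℝ) → ℝ :=
  avm (muU ν n) 1 (SU b cB cF a) (fun w => r w.1 * sp w.2 j)

variable {ν : Measure Th} (b : ℝ) (cB : LB → ℝ) (cF : LF → ℝ) {a : LF → Th → ℝ} {η : ℝ}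
  {r : Th → ℝ} {C : ℝ}

lemma bm_FU (hν : IsFiniteMeasure ν) (h0 : ν ≠ 0) (hA : AmU a η) (hr : Measurable r)
    (hC : ∀ θ, |r θ| ≤ C) (j : Fin n) :
    BM (FU ν b cB cF a r j : (Co n LB LF → ℝ) → ℝ) :=
  bmU b cB cF hν h0 hA (bm_fun_sp hr hC j)

lemma abs_FU (hν : IsFiniteMeasure ν) (h0 : ν ≠ 0) (hA : AmU a η) (hr : Measurable r)
    (hC : ∀ θ, |r θ| ≤ C) (j : Fin n) (z : Co n LB LF → ℝ) :
    |FU ν b cB cF a r j z| ≤ C := by
  refine (gmU b cB cF η hν h0 hA).abs_av_le 1 (bm_fun_sp hr hC j).1 (fun w => ?_) z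
  rw [abs_mul, abs_one_sp, mul_one]
  exact hC w.1

/-- **the standing facts of `EG` in the ensemble `U`** -/
theorem psU (hν : IsFiniteMeasure ν) (h0 : ν ≠ 0) (hA : AmU a η) (hr : Measurable r)
    (hC : ∀ θ, |r θ| ≤ C) (x : ℝ) :
    PS (WU (LB := LB) ν n b cB cF a x) (FU ν b cB cF a r) where
  wt := wtU b cB cF hν h0 hA x
  inv := invP_ZU b cB cF a hν 1 x
  bm j := bm_FU b cB cF hν h0 hA hr hC j
  eq := eq1_avU b cB cF a hν 1 fun _ _ _ => rfl

end U

section A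

open Vale.Agent.P146.H205

variable {n : ℕ} {LB LF : Type} [Fintype LB] [DecidableEq LB] [Fintype LF] [DecidableEq LF]
variable (b : ℝ) (cB : LB → ℝ) (cF : LF → ℝ) (s η : ℝ)

/-- the standing facts of `EG` for the single amplitude -/
theorem psA {lam : ℝ} (hl : 0 < lam) (hη : 0 ≤ η) (c x : ℝ) :
    PS (Wx (LB := LB) (LF := LF) n b cB cF s η lam c x) (Fa b cB cF s η lam c) where
  wt := wtA b cB cF s hl hη c x
  inv := invP_Z b cB cF s η hl c 1 x
  bm j := bm_Fa b cB cF s η hl hη c j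
  eq := eq1_sp b cB cF s η hl c 1 (al η)

end A

end Vale.Agent.P146.H266.EU
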