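import Vale.Agent.P146.H762.Skew
import Vale.Agent.P146.Bd5.B2
import Vale.Agent.P146.Bd3.B6

set_option linter.all false

/-!
# P146: the finite-size correction of the mean against the variance

For every `β > 1` there is `c > 0` with `c (Var F_n)^(5/4) ≤ n^(1/4) (n p - E F_n)` for all
`n ≥ 1`, `p` the limit of `E F_n / n`. So a lower bound of the variance is a lower bound of the
distance of the mean from its limit: `Var F_n ≥ n^(1/3 - ε)` gives `n p - E F_n ≥ n^(1/6 - ε')`.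
-/

open MeasureTheory ProbabilityTheory Set Filter Topology

namespace Vale.Agent.P146.H266.ML

open Vale.Agent.P146 Vale.Agent.P146.H605

/-- **The mean against the variance.** -/
theorem mean_low {β : ℝ} (hβ : 1 ≤ β) : ∃ c : ℝ, 0 < c ∧ ∀ n : ℕ, 1 ≤ n →
    c * Var[freeEnergy n β; disorder n] ^ (5 / 4 : ℝ) ≤
      (n : ℝ) ^ (1 / 4 : ℝ) * (n * Sx.pv β - ∫ g, freeEnergy n β g ∂(disorder n)) := by
  obtain ⟨C₁, hC₁, hup, -, -⟩ := Sx.rt_moment hβ
  obtain ⟨C₂, hC₂, hvar⟩ := Sx.rt_var hβ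
  obtain ⟨C, hC⟩ : ∃ C, C = max C₁ C₂ := ⟨_, rfl⟩
  have h1C : C₁ ≤ C := by rw [hC]; exact le_max_left _ _
  have h2C : C₂ ≤ C := by rw [hC]; exact le_max_right _ _
  have hC0 : 0 < C := by linarith
  refine ⟨1 / 4 * (4 * C) ^ (-(1 / 4) : ℝ), by positivity, fun n hn => ?_⟩
  have hn1 : (1 : ℝ) ≤ n := by exact_mod_cast hn
  have hn0 : (0 : ℝ) < n := by linarith
  obtain ⟨V, hV⟩ : ∃ V, V = Var[freeEnergy n β; disorder n] := ⟨_, rfl⟩
  obtain ⟨m, hm⟩ : ∃ m, m = ∫ g, freeEnergy n β g ∂(disorder n) := ⟨_, rfl⟩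
  rw [← hV, ← hm]
  have hV0 : 0 ≤ V := by rw [hV]; exact variance_nonneg _ _
  have hVn : V ≤ C * n := by
    have h1 := hvar n hn
    rw [← hV] at h1
    have h2 : (n : ℝ) ^ (8 / 9 : ℝ) ≤ (n : ℝ) ^ (1 : ℝ) :=
      Real.rpow_le_rpow_of_exponent_le hn1 (by norm_num)
    rw [Real.rpow_one] at h2
    calc V ≤ C₂ * (n : ℝ) ^ (8 / 9 : ℝ) := h1
      _ ≤ C * n := by gcongr
  -- for every `x` in `(0, 1]`
  have key : ∀ x : ℝ, 0 < x → x ≤ 1 → x * V / 2 ≤ n * Sx.pv β - m + C * n * x ^ 5 := by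
    intro x hx hx1
    have h1 := H762.lap_right n β hx.le
    rw [← hV, ← hm] at h1
    have h2 := hup n hn x hx hx1
    have hint := Sx.integrable_exp n β x
    have hpos : 0 < ∫ g, Real.exp (x * freeEnergy n β g) ∂(disorder n) :=
      mgf_pos (μ := disorder n) (X := freeEnergy n β) hint
    have hcen : ∫ g, Real.exp (x * (freeEnergy n β g - m)) ∂(disorder n) =
        Real.exp (-(x * m)) * ∫ g, Real.exp (x * freeEnergy n β g) ∂(disorder n) := by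
      rw [← integral_const_mul]
      congr 1
      funext g
      rw [← Real.exp_add]
      congr 1
      ring
    rw [hcen] at h1
    have h3 := Real.log_le_log (Real.exp_pos _) h1
    rw [Real.log_exp, Real.log_mul (Real.exp_pos _).ne' hpos.ne', Real.log_exp] at h3
    have h4 : x * (x * V / 2) ≤ x * (n * Sx.pv β - m + C * n * x ^ 5) := by
      have h5 : C₁ * n * x ^ 6 ≤ C * n * x ^ 6 := by gcongr
      calc x * (x * V / 2) = x ^ 2 / 2 * V := by ring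
        _ ≤ -(x * m) + (x * (n * Sx.pv β) + C₁ * n * x ^ 6) := h3.trans (by linarith)
        _ ≤ -(x * m) + (x * (n * Sx.pv β) + C * n * x ^ 6) := by linarith
        _ = x * (n * Sx.pv β - m + C * n * x ^ 5) := by ring
    exact le_of_mul_le_mul_left h4 hx
  rcases hV0.eq_or_lt with h0 | h0
  · -- no variance
    rw [← h0, Real.zero_rpow (by norm_num), mul_zero]
    refine mul_nonneg (by positivity) ?_
    by_contra hneg
    push Not at hneg
    obtain ⟨d, hd⟩ : ∃ d, d = -(n * Sx.pv β - m) := ⟨_, rfl⟩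
    have hd0 : 0 < d := by linarith
    obtain ⟨x, hx⟩ : ∃ x, x = min 1 (d / (2 * (C * n))) := ⟨_, rfl⟩
    have hx0 : 0 < x := by rw [hx]; exact lt_min one_pos (by positivity)
    have hx1 : x ≤ 1 := by rw [hx]; exact min_le_left _ _
    have hx2 : x ≤ d / (2 * (C * n)) := by rw [hx]; exact min_le_right _ _
    have h1 := key x hx0 hx1
    rw [← h0, mul_zero, zero_div] at h1
    have h2 : x ^ 5 ≤ x := by
      calc x ^ 5 ≤ x ^ 1 := pow_le_pow_of_le_one hx0.le hx1 (by norm_num)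
        _ = x := pow_one x
    have h3 : C * n * x ≤ d / 2 := by
      rw [le_div_iff₀ (by positivity)] at hx2
      linarith
    have h4 : C * n * x ^ 5 ≤ C * n * x := by gcongr
    linarith
  · obtain ⟨x, hx⟩ : ∃ x, x = (V / (4 * C * n)) ^ (1 / 4 : ℝ) := ⟨_, rfl⟩
    have hq0 : 0 < V / (4 * C * n) := by positivity
    have hq1 : V / (4 * C * n) ≤ 1 := by
      rw [div_le_one (by positivity)]
      have : 0 ≤ C * n := by positivity
      linarith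
    have hx0 : 0 < x := by rw [hx]; positivity
    have hx1 : x ≤ 1 := by rw [hx]; exact Real.rpow_le_one hq0.le hq1 (by norm_num)
    have hx4 : x ^ 4 = V / (4 * C * n) := by
      rw [hx, ← Real.rpow_natCast, ← Real.rpow_mul hq0.le]
      norm_num
    have h1 := key x hx0 hx1
    have h2 : C * n * x ^ 5 = x * V / 4 := by
      rw [show x ^ 5 = x ^ 4 * x by ring, hx4]
      field_simp
    have h3 : x * V / 4 ≤ n * Sx.pv β - m := by linarith
    have h4 : (n : ℝ) ^ (1 / 4 : ℝ) * (x * V / 4) =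
        1 / 4 * (4 * C) ^ (-(1 / 4) : ℝ) * V ^ (5 / 4 : ℝ) := by
      have e1 : x = V ^ (1 / 4 : ℝ) * ((4 * C) ^ (-(1 / 4) : ℝ) * (n : ℝ) ^ (-(1 / 4) : ℝ)) := by
        rw [hx, Real.div_rpow h0.le (by positivity), Real.mul_rpow (by positivity) hn0.le,
          Real.rpow_neg (by positivity), Real.rpow_neg hn0.le, div_eq_mul_inv, mul_inv]
      have e2 : V ^ (5 / 4 : ℝ) = V ^ (1 / 4 : ℝ) * V := by
        rw [show (5 / 4 : ℝ) = 1 / 4 + 1 by norm_num, Real.rpow_add h0, Real.rpow_one]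
      have e3 : (n : ℝ) ^ (1 / 4 : ℝ) * (n : ℝ) ^ (-(1 / 4) : ℝ) = 1 := by
        rw [← Real.rpow_add hn0, add_neg_cancel, Real.rpow_zero]
      rw [e1, e2]
      calc (n : ℝ) ^ (1 / 4 : ℝ) *
          (V ^ (1 / 4 : ℝ) * ((4 * C) ^ (-(1 / 4) : ℝ) * (n : ℝ) ^ (-(1 / 4) : ℝ)) * V / 4)
          = ((n : ℝ) ^ (1 / 4 : ℝ) * (n : ℝ) ^ (-(1 / 4) : ℝ)) *
            (1 / 4 * (4 * C) ^ (-(1 / 4) : ℝ) * (V ^ (1 / 4 : ℝ) * V)) := by ring
        _ = _ := by rw [e3, one_mul]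
    rw [← h4]
    exact mul_le_mul_of_nonneg_left h3 (by positivity)

/-- **The order of the mean from the order of the variance.** -/
theorem mean_of_var {β q : ℝ} (hβ : 1 ≤ β)
    (hV : ∀ ε : ℝ, 0 < ε → ∀ᶠ n : ℕ in atTop,
      (n : ℝ) ^ (2 * q - ε) ≤ Var[freeEnergy n β; disorder n]) :
    ∀ ε : ℝ, 0 < ε → ∀ᶠ n : ℕ in atTop,
      (n : ℝ) ^ (5 / 2 * q - 1 / 4 - ε) ≤
        n * Sx.pv β - ∫ g, freeEnergy n β g ∂(disorder n) := by
  obtain ⟨c, hc, hL⟩ := mean_low hβ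
  intro ε hε
  have ev1 : ∀ᶠ n : ℕ in atTop, 1 / c ≤ (n : ℝ) ^ (ε / 2) :=
    ((tendsto_rpow_atTop (by positivity)).comp
      (tendsto_natCast_atTop_atTop (R := ℝ))).eventually_ge_atTop _
  filter_upwards [hV (2 * ε / 5) (by positivity), ev1, eventually_ge_atTop 1] with n h1 h2 hn
  have hn1 : (1 : ℝ) ≤ n := by exact_mod_cast hn
  have hn0 : (0 : ℝ) < n := by linarith
  have h3 := hL n hn
  obtain ⟨V, hVd⟩ : ∃ V, V = Var[freeEnergy n β; disorder n] := ⟨_, rfl⟩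
  obtain ⟨M, hM⟩ : ∃ M, M = n * Sx.pv β - ∫ g, freeEnergy n β g ∂(disorder n) := ⟨_, rfl⟩
  rw [← hVd] at h1 h3
  rw [← hM] at h3 ⊢
  have h4 : ((n : ℝ) ^ (2 * q - 2 * ε / 5)) ^ (5 / 4 : ℝ) ≤ V ^ (5 / 4 : ℝ) :=
    Real.rpow_le_rpow (by positivity) h1 (by norm_num)
  rw [← Real.rpow_mul hn0.le] at h4
  have h5 : 1 ≤ c * (n : ℝ) ^ (ε / 2) := by
    rw [div_le_iff₀ hc] at h2
    linarith
  have h6 : (n : ℝ) ^ (1 / 4 : ℝ) * (n : ℝ) ^ (5 / 2 * q - 1 / 4 - ε) ≤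
      (n : ℝ) ^ (1 / 4 : ℝ) * M := by
    calc (n : ℝ) ^ (1 / 4 : ℝ) * (n : ℝ) ^ (5 / 2 * q - 1 / 4 - ε)
        = (n : ℝ) ^ (5 / 2 * q - ε) := by
          rw [← Real.rpow_add hn0]; congr 1; ring
      _ = 1 * (n : ℝ) ^ (5 / 2 * q - ε) := (one_mul _).symm
      _ ≤ (c * (n : ℝ) ^ (ε / 2)) * (n : ℝ) ^ (5 / 2 * q - ε) := by gcongr
      _ = c * (n : ℝ) ^ ((2 * q - 2 * ε / 5) * (5 / 4)) := by
          rw [mul_assoc, ← Real.rpow_add hn0]; congr 2; ring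
      _ ≤ c * V ^ (5 / 4 : ℝ) := by gcongr
      _ ≤ _ := h3
  exact le_of_mul_le_mul_left h6 (by positivity)

/-- **The distance of the mean from its limit**: at least `n^(1/6 - ε)`. -/
theorem mean_sixth {β : ℝ} (hβ : 1 ≤ β)
    (hV : ∀ ε : ℝ, 0 < ε → ∀ᶠ n : ℕ in atTop,
      (n : ℝ) ^ (1 / 3 - ε) ≤ Var[freeEnergy n β; disorder n]) :
    ∀ ε : ℝ, 0 < ε → ∀ᶠ n : ℕ in atTop,
      (n : ℝ) ^ (1 / 6 - ε) ≤ n * Sx.pv β - ∫ g, freeEnergy n β g ∂(disorder n) := by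
  intro ε hε
  have h := mean_of_var (q := 1 / 6) hβ (by
    intro e he
    have := hV e he
    rw [show (2 * (1 / 6) - e : ℝ) = 1 / 3 - e by ring]
    exact this) ε hε
  rw [show (5 / 2 * (1 / 6) - 1 / 4 - ε : ℝ) = 1 / 6 - ε by ring] at h
  exact h

/-- **The distance of the mean from its limit**, with the limit named. -/
theorem mean_pack {β : ℝ} (hβ : 1 < β)
    (hV : ∀ ε : ℝ, 0 < ε → ∀ᶠ n : ℕ in atTop,
      (n : ℝ) ^ (1 / 3 - ε) ≤ Var[freeEnergy n β; disorder n]) :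
    ∃ p : ℝ, Tendsto (fun n : ℕ => (∫ g, freeEnergy n β g ∂(disorder n)) / n) atTop (𝓝 p) ∧
      ∀ ε : ℝ, 0 < ε → ∀ᶠ n : ℕ in atTop,
        ∫ g, freeEnergy n β g ∂(disorder n) ≤ n * p - (n : ℝ) ^ (1 / 6 - ε) := by
  obtain ⟨-, -, -, -, -, -, -, -, -, -, hlim, -⟩ := Ld.two_sided hβ (Lb.l1 hβ)
  exact ⟨Sx.pv β, hlim, fun ε hε => (mean_sixth hβ.le hV ε hε).mono fun n hn => by linarith⟩

end Vale.Agent.P146.H266.ML
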