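import Vale.Agent.P146.H205.N4M
import Vale.Agent.P146.H266.EU

/-!
# P146: the fourth moment of the hidden row magnetisation in the ensemble `U`

`N = cx K' w ⟨r s_i0⟩`, `K' = Kset (insert i0 S) BL FL`, the levels of `FL` may be modulated.
-/

open MeasureTheory ProbabilityTheory

namespace Vale.Agent.P146.H266.N4U

open Vale.Agent.P157.Lv hiding Dep
open Vale.Agent.P146.H196 Vale.Agent.P146.H646 Vale.Agent.P146.H475 Vale.Agent.P146.H347
  Vale.Agent.P146.H487 Vale.Agent.P146.H325 Vale.Agent.P146.H281.U Vale.Agent.P146.H347.U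
  Vale.Agent.P146.H266.EG Vale.Agent.P146.H266.EU

set_option linter.unusedSectionVars false

variable {Th : Type} [MeasurableSpace Th] {n : ℕ} {LB LF : Type} [Fintype LB] [DecidableEq LB]
  [Fintype LF] [DecidableEq LF]

/-- the squares of the two point functions of the visible sites -/
noncomputable def q2 (ν : Measure Th) (n : ℕ) (b : ℝ) (cB : LB → ℝ) (cF : LF → ℝ)
    (a : LF → Th → ℝ) (S : Finset (Fin n)) (K : Finset (Co n LB LF))
    (w : (Co n LB LF → ℝ) → ℝ) (z : Co n LB LF → ℝ) : ℝ :=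
  ∑ j ∈ S, ∑ l ∈ S, cx (g1 _) K w
    (avm (muU ν n) 1 (SU b cB cF a) (fun ω => sp ω.2 j * sp ω.2 l)) z ^ 2

variable {ν : Measure Th} (b : ℝ) (cB : LB → ℝ) (cF : LF → ℝ) {a : LF → Th → ℝ} {η : ℝ}

lemma q2_nonneg (S : Finset (Fin n)) (K : Finset (Co n LB LF)) (w : (Co n LB LF → ℝ) → ℝ)
    (z : Co n LB LF → ℝ) : 0 ≤ q2 ν n b cB cF a S K w z :=
  Finset.sum_nonneg fun _ _ => Finset.sum_nonneg fun _ _ => sq_nonneg _

lemma bm_q2 (hν : IsFiniteMeasure ν) (h0 : ν ≠ 0) (hA : AmU a η) (S : Finset (Fin n))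
    (K : Finset (Co n LB LF)) {w : (Co n LB LF → ℝ) → ℝ} (hw : Wt (g1 _) w) :
    BM (q2 ν n b cB cF a S K w) :=
  BM.sum _ fun j _ => BM.sum _ fun l _ =>
    BM.sq' (hw.bm_cx K (bmU b cB cF hν h0 hA ((bm_spU j).mul (bm_spU l))))

/-- a sum over the row splits into the bonds and the fields -/
lemma sum_split {i : Fin n} {S : Finset (Fin n)} {BL : Finset LB} {FL : Finset LF}
    (f : Co n LB LF → ℝ) :
    ∑ e ∈ Rw i S BL FL, f e = ∑ e ∈ Rw i S BL ∅, f e + ∑ l ∈ FL, f (fd LB i l) := by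
  rw [sum_Rw, sum_Rw, Finset.sum_empty, add_zero]

/-- the bonds of the row -/
theorem r2_bonds {S : Finset (Fin n)} {i0 : Fin n} (hi : i0 ∉ S) (BL : Finset LB)
    (K : Finset (Co n LB LF)) (w : (Co n LB LF → ℝ) → ℝ) (z : Co n LB LF → ℝ) :
    H205.r2 (muU ν n) 1 (SU b cB cF a) K (Rw i0 S BL ∅) w z =
      (b ^ 2 / n * ∑ l ∈ BL, cB l ^ 2) ^ 2 * q2 ν n b cB cF a S K w z := by
  set C : (Th × Xs n → ℝ) → ℝ := fun g =>
    cx (g1 _) K w (avm (muU ν n) 1 (SU b cB cF a) g) z with hC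
  have Cmul : ∀ (a : ℝ) (g : Th × Xs n → ℝ), C (fun ω => a * g ω) = a * C g := fun a g =>
    H205.cx_av_cmul _ _ K w a g z
  have hs : ∀ ω : Th × Xs n, sp ω.2 i0 * sp ω.2 i0 = 1 := fun ω => sp_mul_self ω.2 i0
  set τ := b ^ 2 / n * ∑ l ∈ BL, cB l ^ 2 with hτ
  have hbn := div_sqrt_sq b n
  have hbb : ∀ p ∈ row i0, ∀ q ∈ row i0, ∀ l l', C (fun ω => SU b cB cF a (bd LF p l) ω *
      SU b cB cF a (bd LF q l') ω) ^ 2 =
      (b ^ 2 / n * cB l ^ 2) * (b ^ 2 / n * cB l' ^ 2) *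
        C (fun ω => sp ω.2 (oth i0 p) * sp ω.2 (oth i0 q)) ^ 2 := by
    intro p hp q hq l l'
    have e : (fun ω : Th × Xs n => SU b cB cF a (bd LF p l) ω *
        SU b cB cF a (bd LF q l') ω) =
        fun ω => (b ^ 2 / n * (cB l * cB l')) * (sp ω.2 (oth i0 p) * sp ω.2 (oth i0 q)) := by
      funext ω
      rw [SU_row b cB cF a hp, SU_row b cB cF a hq, ← hbn]
      linear_combination (b / √n * (b / √n)) * (cB l * cB l') *
        (sp ω.2 (oth i0 p) * sp ω.2 (oth i0 q)) * hs ω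
    rw [e, Cmul]
    ring
  have ib : ∀ p ∈ row i0, ∀ l, ∑ f ∈ Rw i0 S BL ∅, C (fun ω => SU b cB cF a (bd LF p l) ω *
      SU b cB cF a f ω) ^ 2 = (b ^ 2 / n * cB l ^ 2) *
      (τ * ∑ j ∈ S, C (fun ω => sp ω.2 (oth i0 p) * sp ω.2 j) ^ 2) := by
    intro p hp l
    rw [sum_Rw' hi _ (fun j l' => (b ^ 2 / n * cB l ^ 2) * (b ^ 2 / n * cB l' ^ 2) *
      C (fun ω => sp ω.2 (oth i0 p) * sp ω.2 j) ^ 2) (fun q hq _ l' _ => hbb p hp q hq l l'),
      Finset.sum_empty, add_zero, hτ, Finset.mul_sum, Finset.mul_sum]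
    refine Finset.sum_congr rfl fun j _ => ?_
    rw [Finset.mul_sum, Finset.sum_mul, Finset.mul_sum]
    exact Finset.sum_congr rfl fun l' _ => by ring
  have e0 : H205.r2 (muU ν n) 1 (SU b cB cF a) K (Rw i0 S BL ∅) w z =
      ∑ e ∈ Rw i0 S BL ∅, ∑ f ∈ Rw i0 S BL ∅,
        C (fun ω => SU b cB cF a e ω * SU b cB cF a f ω) ^ 2 := rfl
  have e1 : q2 ν n b cB cF a S K w z =
      ∑ j ∈ S, ∑ l ∈ S, C (fun ω => sp ω.2 j * sp ω.2 l) ^ 2 := rfl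
  rw [e0, e1]
  clear_value C
  rw [sum_Rw' hi _ (fun j l => (b ^ 2 / n * cB l ^ 2) *
      (τ * ∑ j' ∈ S, C (fun ω => sp ω.2 j * sp ω.2 j') ^ 2))
    (fun p hp _ l _ => ib p hp l), Finset.sum_empty, add_zero]
  have f1 : ∑ j ∈ S, ∑ l ∈ BL, (b ^ 2 / n * cB l ^ 2) *
      (τ * ∑ j' ∈ S, C (fun ω => sp ω.2 j * sp ω.2 j') ^ 2) =
      τ * ∑ j ∈ S, (τ * ∑ j' ∈ S, C (fun ω => sp ω.2 j * sp ω.2 j') ^ 2) := by
    rw [Finset.mul_sum]
    refine Finset.sum_congr rfl fun j _ => ?_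
    rw [← Finset.sum_mul]
    congr 1
    rw [hτ, Finset.mul_sum]
  rw [f1, ← Finset.mul_sum]
  ring

/-- **the two point functions of the row of a hidden site**, levels possibly modulated -/
theorem r2_le (hν : IsFiniteMeasure ν) (h0 : ν ≠ 0) (hA : AmU a η) (S : Finset (Fin n))
    (i0 : Fin n) (BL : Finset LB) (FL : Finset LF) (K : Finset (Co n LB LF))
    {w : (Co n LB LF → ℝ) → ℝ} (hw : Wt (g1 _) w) (z : Co n LB LF → ℝ) :
    H205.r2 (muU ν n) 1 (SU b cB cF a) K (Rw i0 S BL FL) w z ≤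
      (√(H205.r2 (muU ν n) 1 (SU b cB cF a) K (Rw i0 S BL ∅) w z) +
        (1 + η) ^ 2 * ∑ l ∈ FL, cF l ^ 2) ^ 2 := by
  have hG := gmU (n := n) (LB := LB) b cB cF η hν h0 hA
  set c : Co n LB LF → Co n LB LF → ℝ := fun e f =>
    cx (g1 _) K w (avm (muU ν n) 1 (SU b cB cF a)
      (fun ω => SU b cB cF a e ω * SU b cB cF a f ω)) z with hc
  have hsym : ∀ e f, c e f = c f e := by
    intro e f
    simp only [hc]
    congr 2
    funext ω
    exact mul_comm _ _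
  set R0 : Finset (Co n LB LF) := Rw i0 S BL ∅ with hR0
  set rB := H205.r2 (muU ν n) 1 (SU b cB cF a) K R0 w z with hrB
  have hrB0 : 0 ≤ rB := H205.r2_nonneg _ _ _ _ _ _ _
  have eB : rB = ∑ e ∈ R0, ∑ f ∈ R0, c e f ^ 2 := rfl
  have e0 : H205.r2 (muU ν n) 1 (SU b cB cF a) K (Rw i0 S BL FL) w z =
      ∑ e ∈ Rw i0 S BL FL, ∑ f ∈ Rw i0 S BL FL, c e f ^ 2 := rfl
  -- the field energies are bounded
  have hfd : ∀ l (ω : Th × Xs n), |SU b cB cF a (fd LB i0 l) ω| ≤ |cF l| * (1 + η) := by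
    intro l ω
    rw [SU_fd, abs_mul, abs_mul, abs_one_sp, mul_one]
    exact mul_le_mul_of_nonneg_left (hA.abs l ω.1) (abs_nonneg _)
  have hη := hA.nn
  have h1 : ∀ l, ∑ e ∈ R0, c (fd LB i0 l) e ^ 2 ≤ cF l ^ 2 * (1 + η) ^ 2 * √rB := by
    intro l
    have h2 := H205.sum_hS hG hw 1 (hG.bS (fd LB i0 l)) (hfd l) K R0 z
    refine h2.trans (le_of_eq ?_)
    rw [mul_pow, sq_abs]
  have h2 : ∀ l l', c (fd LB i0 l) (fd LB i0 l') ^ 2 ≤
      (cF l ^ 2 * (1 + η) ^ 2) * (cF l' ^ 2 * (1 + η) ^ 2) := by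
    intro l l'
    have h3 : |c (fd LB i0 l) (fd LB i0 l')| ≤ |cF l| * (1 + η) * (|cF l'| * (1 + η)) := by
      refine hw.abs_cx_le K (H347.bm hG 1 ((hG.bS (fd LB i0 l)).mul (hG.bS (fd LB i0 l'))))
        (fun y => ?_) z
      refine hG.abs_av_le 1 ((hG.bS (fd LB i0 l)).mul (hG.bS (fd LB i0 l'))).1 (fun ω => ?_) y
      rw [abs_mul]
      exact mul_le_mul (hfd l ω) (hfd l' ω) (abs_nonneg _) (by positivity)
    have h4 := pow_le_pow_left₀ (abs_nonneg _) h3 2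
    rw [sq_abs] at h4
    refine h4.trans (le_of_eq ?_)
    rw [mul_pow, mul_pow, mul_pow, sq_abs, sq_abs]
  rw [e0]
  have e1 : ∀ e, ∑ f ∈ Rw i0 S BL FL, c e f ^ 2 =
      ∑ f ∈ R0, c e f ^ 2 + ∑ l ∈ FL, c e (fd LB i0 l) ^ 2 := fun e =>
    sum_split (fun f => c e f ^ 2)
  rw [sum_split (fun e => ∑ f ∈ Rw i0 S BL FL, c e f ^ 2)]
  simp only [e1]
  rw [Finset.sum_add_distrib, Finset.sum_add_distrib, ← eB]
  set v := ∑ l ∈ FL, cF l ^ 2 with hv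
  have k1 : ∑ e ∈ R0, ∑ l ∈ FL, c e (fd LB i0 l) ^ 2 ≤ v * (1 + η) ^ 2 * √rB := by
    rw [Finset.sum_comm, hv, Finset.sum_mul, Finset.sum_mul]
    refine Finset.sum_le_sum fun l _ => ?_
    refine le_trans (le_of_eq (Finset.sum_congr rfl fun e _ => ?_)) (h1 l)
    rw [hsym]
  have k2 : ∑ l ∈ FL, ∑ f ∈ R0, c (fd LB i0 l) f ^ 2 ≤ v * (1 + η) ^ 2 * √rB := by
    rw [hv, Finset.sum_mul, Finset.sum_mul]
    exact Finset.sum_le_sum fun l _ => h1 l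
  have k3 : ∑ l ∈ FL, ∑ l' ∈ FL, c (fd LB i0 l) (fd LB i0 l') ^ 2 ≤
      (v * (1 + η) ^ 2) * (v * (1 + η) ^ 2) := by
    rw [hv, Finset.sum_mul, Finset.sum_mul_sum]
    exact Finset.sum_le_sum fun l _ => Finset.sum_le_sum fun l' _ => h2 l l'
  have k4 : √rB * √rB = rB := Real.mul_self_sqrt hrB0
  have k5 : (√rB + (1 + η) ^ 2 * v) ^ 2 = rB + 2 * (v * (1 + η) ^ 2 * √rB) +
      (v * (1 + η) ^ 2) * (v * (1 + η) ^ 2) := by
    linear_combination k4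
  rw [k5]
  linarith

/-- the same with the two point functions of the visible sites -/
theorem r2_le' (hν : IsFiniteMeasure ν) (h0 : ν ≠ 0) (hA : AmU a η) {S : Finset (Fin n)}
    {i0 : Fin n} (hi : i0 ∉ S) (BL : Finset LB) (FL : Finset LF) (K : Finset (Co n LB LF))
    {w : (Co n LB LF → ℝ) → ℝ} (hw : Wt (g1 _) w) (z : Co n LB LF → ℝ) :
    H205.r2 (muU ν n) 1 (SU b cB cF a) K (Rw i0 S BL FL) w z ≤
      2 * (b ^ 2 / n * ∑ l ∈ BL, cB l ^ 2) ^ 2 * q2 ν n b cB cF a S K w z +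
        2 * (1 + η) ^ 4 * (∑ l ∈ FL, cF l ^ 2) ^ 2 := by
  have h1 := r2_le b cB cF hν h0 hA S i0 BL FL K hw z
  have h2 := r2_bonds (ν := ν) (a := a) b cB cF hi BL K w z
  set rB := H205.r2 (muU ν n) 1 (SU b cB cF a) K (Rw i0 S BL ∅) w z with hrB
  have hrB0 : 0 ≤ rB := H205.r2_nonneg _ _ _ _ _ _ _
  have k4 : √rB ^ 2 = rB := Real.sq_sqrt hrB0
  refine h1.trans ?_
  nlinarith [sq_nonneg (√rB - (1 + η) ^ 2 * ∑ l ∈ FL, cF l ^ 2)]

variable {r : Th → ℝ} {C x : ℝ}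

/-- **N4 in the ensemble `U`**: the fourth moment of the magnetisation of the next site. -/
theorem n4U (hν : IsFiniteMeasure ν) (h0 : ν ≠ 0) (hA : AmU a η) (hr : Measurable r)
    (hC : ∀ θ, |r θ| ≤ C) {S : Finset (Fin n)} {i0 : Fin n}
    (hi : i0 ∉ S) (BL : Finset LB) (FL : Finset LF) (hx0 : 0 ≤ x) (hx1 : x ≤ 1)
    (hx : x ^ 2 * (b ^ 2 * ∑ l ∈ BL, cB l ^ 2 + (1 + η) ^ 2 * ∑ l ∈ FL, cF l ^ 2) ≤ 1 / 4) :
    exN (WU ν n b cB cF a x) (FU ν b cB cF a r i0) (Kset (insert i0 S) BL FL) 4 ≤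
      10368 * C ^ 4 *
        (2 * (b ^ 2 / n * ∑ l ∈ BL, cB l ^ 2) ^ 2 * ex (g1 _) (WU ν n b cB cF a x)
            (q2 ν n b cB cF a S (Kset (insert i0 S) BL FL) (WU ν n b cB cF a x)) +
          2 * (1 + η) ^ 4 * (∑ l ∈ FL, cF l ^ 2) ^ 2) := by
  have hG := gmU (n := n) (LB := LB) b cB cF η hν h0 hA
  have hw : Wt (g1 (Co n LB LF)) (WU ν n b cB cF a x) := wtU b cB cF hν h0 hA x
  have hKK : Kset S BL FL ⊆ Kset (LB := LB) (LF := LF) (insert i0 S) BL FL :=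
    Kset_mono (Finset.subset_insert i0 S) (Finset.Subset.refl _) (Finset.Subset.refl _)
  have hR : Kset (LB := LB) (LF := LF) (insert i0 S) BL FL \ Kset S BL FL = Rw i0 S BL FL :=
    (Rw_eq hi).symm
  set v := ∑ l ∈ FL, cF l ^ 2 with hv
  set T := ∑ l ∈ BL, cB l ^ 2 with hT
  have hv0 : 0 ≤ v := Finset.sum_nonneg fun _ _ => sq_nonneg _
  have hT0 : 0 ≤ T := Finset.sum_nonneg fun _ _ => sq_nonneg _
  have hη := hA.nn
  set L : ℝ := √(b ^ 2 * T + (1 + η) ^ 2 * v) with hL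
  have hL2 : L ^ 2 = b ^ 2 * T + (1 + η) ^ 2 * v := Real.sq_sqrt (by positivity)
  have hLs : ∀ ω : Th × Xs n, ∑ e ∈ Kset (LB := LB) (LF := LF) (insert i0 S) BL FL \
      Kset S BL FL, SU b cB cF a e ω ^ 2 ≤ L ^ 2 := by
    intro ω
    rw [hR, hL2]
    exact sum_Rw_SUsq_le b cB cF hA hi BL FL ω
  have hxL : x * L ≤ 1 / 2 := by
    have h1 : (x * L) ^ 2 ≤ (1 / 2) ^ 2 := by
      rw [mul_pow, hL2]
      linarith
    exact le_of_sq_le_sq h1 (by norm_num)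
  have main := H205.n4 (K := Kset S BL FL) (K' := Kset (insert i0 S) BL FL)
    (h := fun w : Th × Xs n => r w.1 * sp w.2 i0) (C0 := C) (x := x) (L := L) hG hKK
    (bm_fun_sp hr hC i0)
    (fun w => by
      rw [abs_mul, abs_one_sp, mul_one]
      exact hC w.1) hx0 hx1
    (fun z => by
      have hIG : InvG (Zxm (muU ν n) 1 (SU b cB cF a : Co n LB LF → _) x) :=
        invG_ZU b cB cF a hν 1 x
      refine Sg.cx_hid hIG hi BL FL ?_ z
      have h1 := sg_spU (LB := LB) b cB cF a hν 1 (fl i0) r i0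
      rwa [sp_fl_self] at h1)
    (Real.sqrt_nonneg _) hLs hxL
  rw [hR] at main
  refine main.trans ?_
  have bq : BM (q2 ν n b cB cF a S (Kset (LB := LB) (insert i0 S) BL FL)
      (WU ν n b cB cF a x)) := bm_q2 b cB cF hν h0 hA S _ hw
  have h1 := H487.ex_mono hw (H205.bm_r2 hG hw 1 (Kset (insert i0 S) BL FL)
      (Rw i0 S BL FL))
    (((BM.const (2 * (b ^ 2 / n * T) ^ 2)).mul bq).add (BM.const (2 * (1 + η) ^ 4 * v ^ 2)))
    (fun z => r2_le' b cB cF hν h0 hA hi BL FL (Kset (insert i0 S) BL FL) hw z)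
  rw [H487.ex_add hw ((BM.const _).mul bq) (BM.const _), H487.ex_const_mul,
    H487.ex_const hw] at h1
  have hC4 : 0 ≤ 10368 * C ^ 4 := by positivity
  exact mul_le_mul_of_nonneg_left h1 hC4

end Vale.Agent.P146.H266.N4U
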