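import Mathlib

/-!
The deterministic part of the row equation: if `W (b) - W (a) = ∫_a^b (E - 2 x K)` with
`W² ≤ K R`, `R ≤ R 0`, then `Q = ∫ W` satisfies
`x (Q - ē)² ≤ R 0 (W 0 - (Q - ē))`, `ē = ∫ (1 - s) E`, if `ē ≤ Q`.
-/

open MeasureTheory Set intervalIntegral

namespace Vale.Agent.P146.H266

/-- integration by parts -/
lemma int_int {f : ℝ → ℝ} (hf : Continuous f) :
    ∫ s in (0 : ℝ)..1, (∫ r in (0 : ℝ)..s, f r) = ∫ s in (0 : ℝ)..1, (1 - s) * f s := by
  have hc : Continuous fun s : ℝ => ∫ r in (0 : ℝ)..s, f r :=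
    intervalIntegral.continuous_primitive (fun a b => hf.intervalIntegrable a b) 0
  have h1 : ∀ s ∈ Set.uIcc (0 : ℝ) 1, HasDerivAt (fun s => (1 - s) * ∫ r in (0 : ℝ)..s, f r)
      (-1 * (∫ r in (0 : ℝ)..s, f r) + (1 - s) * f s) s := by
    intro s _
    have h2 : HasDerivAt (fun s : ℝ => ∫ r in (0 : ℝ)..s, f r) (f s) s :=
      intervalIntegral.integral_hasDerivAt_right (hf.intervalIntegrable _ _)
        (hf.stronglyMeasurableAtFilter _ _) hf.continuousAt
    have h3 : HasDerivAt (fun s : ℝ => 1 - s) (-1) s := by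
      simpa using (hasDerivAt_id s).const_sub 1
    exact h3.mul h2
  have h4 := intervalIntegral.integral_eq_sub_of_hasDerivAt h1
    (Continuous.intervalIntegrable (by fun_prop) _ _)
  rw [intervalIntegral.integral_add (Continuous.intervalIntegrable (by fun_prop) _ _)
    (Continuous.intervalIntegrable (by fun_prop) _ _)] at h4
  simp only [sub_self, zero_mul, sub_zero, intervalIntegral.integral_same, mul_zero,
    intervalIntegral.integral_const_mul] at h4
  linarith

/-- the mean of a nonincreasing function with a decreasing weight -/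
lemma half_le {v : ℝ → ℝ} (hv : Continuous v) (ha : AntitoneOn v (Set.Icc 0 1)) :
    (∫ s in (0 : ℝ)..1, v s) / 2 ≤ ∫ s in (0 : ℝ)..1, (1 - s) * v s := by
  rw [← int_int hv]
  set I := ∫ s in (0 : ℝ)..1, v s with hI
  have h1 : ∀ s ∈ Set.Icc (0 : ℝ) 1, s * I ≤ ∫ r in (0 : ℝ)..s, v r := by
    intro s hs
    have h2 : s * v s ≤ ∫ r in (0 : ℝ)..s, v r := by
      have h3 := intervalIntegral.integral_mono_on (μ := volume) (f := fun _ => v s) (g := v) hs.1
        (Continuous.intervalIntegrable (by fun_prop) _ _) (hv.intervalIntegrable _ _)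
        fun r hr => ha ⟨hr.1, hr.2.trans hs.2⟩ hs hr.2
      simpa [mul_comm] using h3
    have h4 : ∫ r in s..1, v r ≤ (1 - s) * v s := by
      have h3 := intervalIntegral.integral_mono_on (μ := volume) (f := v) (g := fun _ => v s) hs.2
        (hv.intervalIntegrable _ _) (Continuous.intervalIntegrable (by fun_prop) _ _)
        fun r hr => ha hs ⟨hs.1.trans hr.1, hr.2⟩ hr.1
      simpa [mul_comm] using h3
    have h5 : I = (∫ r in (0 : ℝ)..s, v r) + ∫ r in s..1, v r :=
      (intervalIntegral.integral_add_adjacent_intervals (hv.intervalIntegrable _ _)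
        (hv.intervalIntegrable _ _)).symm
    have h6 : s * I ≤ s * ((∫ r in (0 : ℝ)..s, v r) + (1 - s) * v s) := by
      rw [h5]
      exact mul_le_mul_of_nonneg_left (by linarith) hs.1
    have h7 : (1 - s) * (s * v s) ≤ (1 - s) * ∫ r in (0 : ℝ)..s, v r :=
      mul_le_mul_of_nonneg_left h2 (by linarith [hs.2])
    nlinarith
  have h8 := intervalIntegral.integral_mono_on (μ := volume) (f := fun s => s * I)
    (g := fun s => ∫ r in (0 : ℝ)..s, v r) zero_le_one
    (Continuous.intervalIntegrable (by fun_prop) _ _)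
    (Continuous.intervalIntegrable
      (intervalIntegral.continuous_primitive (fun a b => hv.intervalIntegrable a b) 0) _ _) h1
  have h9 : ∫ s in (0 : ℝ)..1, s * I = I / 2 := by
    rw [intervalIntegral.integral_mul_const, integral_id]
    ring
  linarith

/-- **The row equation, deterministic part.** -/
theorem row_det {W E K R : ℝ → ℝ} {x : ℝ} (hx : 0 ≤ x) (hW : Continuous W) (hE : Continuous E)
    (hK : Continuous K)
    (h1 : ∀ s ∈ Set.Icc (0 : ℝ) 1, W s - W 0 = ∫ r in (0 : ℝ)..s, (E r - 2 * x * K r))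
    (hR : ∀ s ∈ Set.Icc (0 : ℝ) 1, R s ≤ R 0)
    (hW0 : ∀ s ∈ Set.Icc (0 : ℝ) 1, 0 ≤ W s) (hE0 : ∀ s ∈ Set.Icc (0 : ℝ) 1, 0 ≤ E s)
    (hK0 : ∀ s ∈ Set.Icc (0 : ℝ) 1, 0 ≤ K s)
    (hC : ∀ s ∈ Set.Icc (0 : ℝ) 1, W s ^ 2 ≤ K s * R s)
    (hI : ∫ s in (0 : ℝ)..1, (1 - s) * E s ≤ ∫ s in (0 : ℝ)..1, W s) :
    x * ((∫ s in (0 : ℝ)..1, W s) - ∫ s in (0 : ℝ)..1, (1 - s) * E s) ^ 2 ≤
      R 0 * (W 0 - ((∫ s in (0 : ℝ)..1, W s) - ∫ s in (0 : ℝ)..1, (1 - s) * E s)) := by
  set v : ℝ → ℝ := fun s => W 0 - 2 * x * ∫ r in (0 : ℝ)..s, K r with hv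
  have hcK : Continuous fun s : ℝ => ∫ r in (0 : ℝ)..s, K r :=
    intervalIntegral.continuous_primitive (fun a b => hK.intervalIntegrable a b) 0
  have hcE : Continuous fun s : ℝ => ∫ r in (0 : ℝ)..s, E r :=
    intervalIntegral.continuous_primitive (fun a b => hE.intervalIntegrable a b) 0
  have hcv : Continuous v := continuous_const.sub (continuous_const.mul hcK)
  have hWv : ∀ s ∈ Set.Icc (0 : ℝ) 1, W s = v s + ∫ r in (0 : ℝ)..s, E r := by
    intro s hs
    have h2 := h1 s hs
    rw [intervalIntegral.integral_sub (hE.intervalIntegrable _ _)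
      (Continuous.intervalIntegrable (by fun_prop) _ _),
      intervalIntegral.integral_const_mul] at h2
    rw [hv]
    linarith
  have hEi : ∀ s ∈ Set.Icc (0 : ℝ) 1, 0 ≤ ∫ r in (0 : ℝ)..s, E r := fun s hs =>
    intervalIntegral.integral_nonneg hs.1 fun r hr => hE0 r ⟨hr.1, hr.2.trans hs.2⟩
  have hva : AntitoneOn v (Set.Icc 0 1) := by
    intro s hs t ht hst
    have h3 : (∫ r in (0 : ℝ)..t, K r) = (∫ r in (0 : ℝ)..s, K r) + ∫ r in s..t, K r :=
      (intervalIntegral.integral_add_adjacent_intervals (hK.intervalIntegrable _ _)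
        (hK.intervalIntegrable _ _)).symm
    have h4 : 0 ≤ ∫ r in s..t, K r :=
      intervalIntegral.integral_nonneg hst fun r hr => hK0 r ⟨hs.1.trans hr.1, hr.2.trans ht.2⟩
    have h5 := mul_nonneg hx h4
    simp only [hv, h3]
    linarith
  set I := ∫ s in (0 : ℝ)..1, v s with hIdef
  have hQ : (∫ s in (0 : ℝ)..1, W s) - ∫ s in (0 : ℝ)..1, (1 - s) * E s = I := by
    have h6 : ∫ s in (0 : ℝ)..1, W s = ∫ s in (0 : ℝ)..1, (v s + ∫ r in (0 : ℝ)..s, E r) := by
      refine intervalIntegral.integral_congr fun s hs => ?_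
      rw [Set.uIcc_of_le zero_le_one] at hs
      exact hWv s hs
    rw [h6, intervalIntegral.integral_add (hcv.intervalIntegrable _ _)
      (hcE.intervalIntegrable _ _), int_int hE]
    ring
  rw [hQ]
  have hI0 : 0 ≤ I := by rw [← hQ]; linarith
  -- the lower bound of `∫ (1 - s) W²`
  have h7 : I ^ 2 / 2 ≤ ∫ s in (0 : ℝ)..1, (1 - s) * W s ^ 2 := by
    have h8 : ∀ s ∈ Set.Icc (0 : ℝ) 1,
        (1 - s) * (2 * I * v s - I ^ 2) ≤ (1 - s) * W s ^ 2 := by
      intro s hs
      refine mul_le_mul_of_nonneg_left ?_ (by linarith [hs.2])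
      have h9 : v s ≤ W s := by
        have := hWv s hs
        have := hEi s hs
        linarith
      have h10 := hW0 s hs
      have h11 : I * v s ≤ I * W s := mul_le_mul_of_nonneg_left h9 hI0
      nlinarith [sq_nonneg (W s - I)]
    have h12 := intervalIntegral.integral_mono_on (μ := volume) zero_le_one
      (Continuous.intervalIntegrable (by fun_prop) _ _)
      (Continuous.intervalIntegrable (by fun_prop) _ _) h8
    refine le_trans ?_ h12
    have h13 := half_le hcv hva
    have h14 : ∫ s in (0 : ℝ)..1, (1 - s) * (2 * I * v s - I ^ 2) =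
        2 * I * (∫ s in (0 : ℝ)..1, (1 - s) * v s) - I ^ 2 * (1 / 2) := by
      have e1 : (fun s : ℝ => (1 - s) * (2 * I * v s - I ^ 2)) =
          fun s => 2 * I * ((1 - s) * v s) - I ^ 2 * (1 - s) := by funext s; ring
      rw [e1, intervalIntegral.integral_sub (Continuous.intervalIntegrable (by fun_prop) _ _)
        (Continuous.intervalIntegrable (by fun_prop) _ _),
        intervalIntegral.integral_const_mul, intervalIntegral.integral_const_mul]
      congr 2
      rw [intervalIntegral.integral_sub (Continuous.intervalIntegrable (by fun_prop) _ _)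
        (Continuous.intervalIntegrable (by fun_prop) _ _), integral_id]
      simp
      norm_num
    rw [h14]
    have h15 : I * (I / 2) ≤ I * ∫ s in (0 : ℝ)..1, (1 - s) * v s :=
      mul_le_mul_of_nonneg_left h13 hI0
    nlinarith
  -- the equation
  have h16 : ∀ s ∈ Set.Icc (0 : ℝ) 1,
      2 * x * (∫ r in (0 : ℝ)..s, W r ^ 2) ≤ R 0 * (W 0 - v s) := by
    intro s hs
    have h17 : ∫ r in (0 : ℝ)..s, W r ^ 2 ≤ ∫ r in (0 : ℝ)..s, K r * R 0 :=
      intervalIntegral.integral_mono_on hs.1 (Continuous.intervalIntegrable (by fun_prop) _ _)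
        (Continuous.intervalIntegrable (by fun_prop) _ _) fun r hr => by
        have hr' : r ∈ Set.Icc (0 : ℝ) 1 := ⟨hr.1, hr.2.trans hs.2⟩
        exact (hC r hr').trans (mul_le_mul_of_nonneg_left (hR r hr') (hK0 r hr'))
    rw [intervalIntegral.integral_mul_const] at h17
    have h18 : R 0 * (W 0 - v s) = 2 * x * ((∫ r in (0 : ℝ)..s, K r) * R 0) := by
      simp only [hv]; ring
    rw [h18]
    exact mul_le_mul_of_nonneg_left h17 (by linarith)
  have hcW : Continuous fun s : ℝ => ∫ r in (0 : ℝ)..s, W r ^ 2 :=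
    intervalIntegral.continuous_primitive
      (fun a b => Continuous.intervalIntegrable (by fun_prop) a b) 0
  have h19 := intervalIntegral.integral_mono_on (μ := volume) zero_le_one
    (Continuous.intervalIntegrable (by fun_prop) _ _)
    (Continuous.intervalIntegrable (by fun_prop) _ _) h16
  rw [intervalIntegral.integral_const_mul, intervalIntegral.integral_const_mul,
    int_int (f := fun r => W r ^ 2) (by fun_prop), intervalIntegral.integral_sub
    (Continuous.intervalIntegrable (by fun_prop) _ _) (hcv.intervalIntegrable _ _)] at h19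
  have h20 : ∫ _ in (0 : ℝ)..1, W 0 = W 0 := by simp
  rw [h20, ← hIdef] at h19
  have h21 := mul_le_mul_of_nonneg_left h7 hx
  linarith

/-- The lower bound: `W 0 - 2 x ∫ (1 - s) K ≤ Q`. -/
theorem row_low {W E K : ℝ → ℝ} {x : ℝ} (hW : Continuous W) (hE : Continuous E)
    (hK : Continuous K)
    (h1 : ∀ s ∈ Set.Icc (0 : ℝ) 1, W s - W 0 = ∫ r in (0 : ℝ)..s, (E r - 2 * x * K r))
    (hE0 : ∀ s ∈ Set.Icc (0 : ℝ) 1, 0 ≤ E s) :
    W 0 - 2 * x * (∫ s in (0 : ℝ)..1, (1 - s) * K s) ≤ ∫ s in (0 : ℝ)..1, W s := by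
  have hcK : Continuous fun s : ℝ => ∫ r in (0 : ℝ)..s, K r :=
    intervalIntegral.continuous_primitive (fun a b => hK.intervalIntegrable a b) 0
  have h2 : ∀ s ∈ Set.Icc (0 : ℝ) 1, W 0 - 2 * x * (∫ r in (0 : ℝ)..s, K r) ≤ W s := by
    intro s hs
    have h3 := h1 s hs
    rw [intervalIntegral.integral_sub (hE.intervalIntegrable _ _)
      (Continuous.intervalIntegrable (by fun_prop) _ _),
      intervalIntegral.integral_const_mul] at h3
    have h4 : 0 ≤ ∫ r in (0 : ℝ)..s, E r :=
      intervalIntegral.integral_nonneg hs.1 fun r hr => hE0 r ⟨hr.1, hr.2.trans hs.2⟩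
    linarith
  have h5 := intervalIntegral.integral_mono_on (μ := volume) zero_le_one
    (Continuous.intervalIntegrable (by fun_prop) _ _) (hW.intervalIntegrable _ _) h2
  rw [intervalIntegral.integral_sub (Continuous.intervalIntegrable (by fun_prop) _ _)
    (Continuous.intervalIntegrable (by fun_prop) _ _), intervalIntegral.integral_const_mul,
    int_int hK] at h5
  simpa using h5

/-- Poincaré, deterministic part -/
theorem row_poin {W E K : ℝ → ℝ} {x M : ℝ} (hx : 0 ≤ x) (hM : 0 ≤ M) (hW : Continuous W)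
    (hE : Continuous E) (hK : Continuous K)
    (h1 : ∀ s ∈ Set.Icc (0 : ℝ) 1, W s - W 0 = ∫ r in (0 : ℝ)..s, (E r - 2 * x * K r))
    (hE0 : ∀ s ∈ Set.Icc (0 : ℝ) 1, 0 ≤ E s) (hW0 : ∀ s ∈ Set.Icc (0 : ℝ) 1, 0 ≤ W s)
    (hKM : ∀ s ∈ Set.Icc (0 : ℝ) 1, K s ≤ M * W s) {s : ℝ} (hs : s ∈ Set.Icc (0 : ℝ) 1) :
    ∫ r in (0 : ℝ)..s, W r ≤ s * (Real.exp (2 * x * M) * W s) := by
  set V : ℝ → ℝ := fun s => W 0 + ∫ r in (0 : ℝ)..s, (E r - 2 * x * K r) with hV
  have hVW : ∀ s ∈ Set.Icc (0 : ℝ) 1, W s = V s := fun s hs => by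
    have := h1 s hs
    simp only [hV]
    linarith
  have hd : ∀ s, HasDerivAt V (E s - 2 * x * K s) s := fun s => by
    have h2 : HasDerivAt (fun s : ℝ => ∫ r in (0 : ℝ)..s, (E r - 2 * x * K r))
        (E s - 2 * x * K s) s := by
      have hc : Continuous fun r => E r - 2 * x * K r := by fun_prop
      exact intervalIntegral.integral_hasDerivAt_right (hc.intervalIntegrable _ _)
        (hc.stronglyMeasurableAtFilter _ _) hc.continuousAt
    exact h2.const_add _
  set g : ℝ → ℝ := fun s => Real.exp (2 * x * M * s) * V s with hg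
  have hdg : ∀ s, HasDerivAt g (Real.exp (2 * x * M * s) * (2 * x * M * V s +
      (E s - 2 * x * K s))) s := fun s => by
    have h2 : HasDerivAt (fun s : ℝ => Real.exp (2 * x * M * s))
        (Real.exp (2 * x * M * s) * (2 * x * M)) s := by
      have h3 : HasDerivAt (fun s : ℝ => 2 * x * M * s) (2 * x * M) s := by
        simpa using (hasDerivAt_id s).const_mul (2 * x * M)
      exact h3.exp
    refine (h2.mul (hd s)).congr_deriv ?_
    ring
  have hmono : MonotoneOn g (Set.Icc 0 1) := by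
    refine monotoneOn_of_deriv_nonneg (convex_Icc 0 1)
      (fun s _ => (hdg s).continuousAt.continuousWithinAt)
      (fun s _ => (hdg s).differentiableAt.differentiableWithinAt) fun s hs => ?_
    rw [interior_Icc] at hs
    have hs' : s ∈ Set.Icc (0 : ℝ) 1 := ⟨hs.1.le, hs.2.le⟩
    rw [(hdg s).deriv]
    refine mul_nonneg (Real.exp_pos _).le ?_
    have h4 := hKM s hs'
    rw [hVW s hs'] at h4
    have h5 := mul_le_mul_of_nonneg_left h4 (by positivity : 0 ≤ 2 * x)
    have := hE0 s hs'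
    nlinarith
  have h6 : ∀ r ∈ Set.Icc (0 : ℝ) s, W r ≤ Real.exp (2 * x * M) * W s := by
    intro r hr
    have hr' : r ∈ Set.Icc (0 : ℝ) 1 := ⟨hr.1, hr.2.trans hs.2⟩
    have h7 := hmono hr' hs hr.2
    simp only [hg] at h7
    rw [← hVW r hr', ← hVW s hs] at h7
    have h8 : W r ≤ Real.exp (2 * x * M * s) * W s := by
      refine le_trans ?_ h7
      have h9 : 1 ≤ Real.exp (2 * x * M * r) := Real.one_le_exp (by
        have := hr.1
        positivity)
      nlinarith [hW0 r hr']
    refine h8.trans (mul_le_mul_of_nonneg_right (Real.exp_le_exp.2 ?_) (hW0 s hs))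
    have : 0 ≤ 2 * x * M := by positivity
    nlinarith [hs.2]
  have h10 := intervalIntegral.integral_mono_on (μ := volume) hs.1 (hW.intervalIntegrable _ _)
    (Continuous.intervalIntegrable (by fun_prop) _ _) h6
  rw [intervalIntegral.integral_const, sub_zero, smul_eq_mul] at h10
  exact h10

end Vale.Agent.P146.H266
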