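import Vale.Agent.P146.H713.Ftc
import Vale.Agent.P146.H266.RowDet

/-!
The row equation. `ι` is the set of all couplings, `A0` the row which is being revealed with the
share `s`; the other coordinates are frozen (`a = 1, b = c = 0`) or integrated (`a = b = 0, c = 1`),
see `H332.P`. `cm φ s w` is the conditional mean of `φ` under the law with density `exp (x F)`.
-/

open MeasureTheory ProbabilityTheory Filter Topology

namespace Vale.Agent.P146.H266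

open Vale.Agent.P157.Lv Vale.Agent.P146.H425 Vale.Agent.P146.H332

set_option linter.unusedSectionVars false

variable {ι : Type} [Fintype ι] [DecidableEq ι]

/-! ### linearity of the smoothing, for every share -/

section

variable {A0 : Finset ι} {a b c : ι → ℝ}

lemma sf_of_c2 {G : (ι → ℝ) → ℝ} {G1 G2 : ι → (ι → ℝ) → ℝ} (h : H325.C2 G G1 G2)
    (A0 : Finset ι) : SF A0 G G1 G2 :=
  ⟨h.eg, h.cont, fun e _ => h.eg1 e, fun e _ => h.c1 e, fun e _ => h.eg2 e, fun e _ => h.c2 e,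
    h.fd, fun e _ => h.pd e⟩

lemma eg_pt_all {G : (ι → ℝ) → ℝ} (h : EG G) (s : ℝ) (w : ι ⊕ ι → ℝ) :
    EG (fun z => G (pt A0 a b c s w z)) := by
  obtain ⟨C, d, hC, hd, h1⟩ := h.bdd
  set M : ℝ := ∑ e, |if e ∈ A0 then √(1 - s) else c e| with hM
  have hM0 : 0 ≤ M := Finset.sum_nonneg fun _ _ => abs_nonneg _
  refine ⟨h.meas.comp (measurable_pt_right A0 a b c s w), C * Real.exp (d * ‖u A0 a b s w‖),
    d * M, by positivity, by positivity, fun z => (h1 _).trans ?_⟩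
  rw [mul_assoc, ← Real.exp_add]
  gcongr
  have h2 : ‖pt A0 a b c s w z‖ ≤ ‖u A0 a b s w‖ + M * ‖z‖ := by
    refine (pi_norm_le_iff_of_nonneg (by positivity)).2 fun e => ?_
    unfold pt
    refine (norm_add_le _ _).trans (add_le_add (norm_le_pi_norm _ e) ?_)
    rw [norm_mul, Real.norm_eq_abs]
    refine mul_le_mul ?_ (norm_le_pi_norm z e) (norm_nonneg _) hM0
    exact Finset.single_le_sum (f := fun e => |if e ∈ A0 then √(1 - s) else c e|)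
      (fun _ _ => abs_nonneg _) (Finset.mem_univ e)
  calc d * ‖pt A0 a b c s w z‖ ≤ d * (‖u A0 a b s w‖ + M * ‖z‖) := by gcongr
    _ = _ := by ring

lemma P_add {G G' : (ι → ℝ) → ℝ} (h : EG G) (h' : EG G') (s : ℝ) (w : ι ⊕ ι → ℝ) :
    P A0 a b c (fun y => G y + G' y) s w = P A0 a b c G s w + P A0 a b c G' s w :=
  integral_add (eg_pt_all h s w).integrable (eg_pt_all h' s w).integrable

lemma P_const_mul (k : ℝ) (G : (ι → ℝ) → ℝ) (s : ℝ) (w : ι ⊕ ι → ℝ) :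
    P A0 a b c (fun y => k * G y) s w = k * P A0 a b c G s w := integral_const_mul _ _

lemma P_mono {G G' : (ι → ℝ) → ℝ} (h : EG G) (h' : EG G') (hl : ∀ y, G y ≤ G' y) (s : ℝ)
    (w : ι ⊕ ι → ℝ) : P A0 a b c G s w ≤ P A0 a b c G' s w :=
  integral_mono (eg_pt_all h s w).integrable (eg_pt_all h' s w).integrable fun _ => hl _

end

/-! ### the conditional means -/

section defs

variable (A0 : Finset ι) (a b c : ι → ℝ) (x : ℝ) (F : (ι → ℝ) → ℝ) (D : ι → (ι → ℝ) → ℝ)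

/-- the density -/
noncomputable def zp (s : ℝ) (w : ι ⊕ ι → ℝ) : ℝ := P A0 a b c (fun y => Real.exp (x * F y)) s w

/-- its derivatives -/
noncomputable def dzp (j : ι ⊕ ι) (s : ℝ) (w : ι ⊕ ι → ℝ) : ℝ :=
  Sum.elim (fun e => P A0 a b c (fun y => x * (Real.exp (x * F y) * D e y)) s w) (fun _ => 0) j

/-- the conditional mean -/
noncomputable def cm (φ : (ι → ℝ) → ℝ) (s : ℝ) (w : ι ⊕ ι → ℝ) : ℝ :=
  P A0 a b c (fun y => Real.exp (x * F y) * φ y) s w * (zp A0 a b c x F s w)⁻¹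

/-- the derivative of the conditional mean -/
noncomputable def dcm (φ : (ι → ℝ) → ℝ) (φ1 : ι → (ι → ℝ) → ℝ) (e : ι) (s : ℝ)
    (w : ι ⊕ ι → ℝ) : ℝ :=
  cm A0 a b c x F (φ1 e) s w + x * (cm A0 a b c x F (fun y => φ y * D e y) s w -
    cm A0 a b c x F φ s w * cm A0 a b c x F (D e) s w)

/-- the second derivative of the conditional mean -/
noncomputable def ddcm (H : ι → ι → (ι → ℝ) → ℝ) (φ : (ι → ℝ) → ℝ) (φ1 : ι → (ι → ℝ) → ℝ)
    (φ11 : ι → ι → (ι → ℝ) → ℝ) (e j : ι) (s : ℝ) (w : ι ⊕ ι → ℝ) : ℝ :=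
  dcm A0 a b c x F D (φ1 e) (φ11 e) j s w + x * (
    dcm A0 a b c x F D (fun y => φ y * D e y) (fun i y => φ1 i y * D e y + φ y * H e i y) j s w -
    (cm A0 a b c x F φ s w * dcm A0 a b c x F D (D e) (H e) j s w +
      cm A0 a b c x F (D e) s w * dcm A0 a b c x F D φ φ1 j s w))

/-- the mean under the tilted law -/
noncomputable def Ex (f : ℝ → (ι ⊕ ι → ℝ) → ℝ) (s : ℝ) : ℝ :=
  (∫ w, zp A0 a b c x F s w * f s w ∂(gI (ι ⊕ ι))) / ∫ w, zp A0 a b c x F 0 w ∂(gI (ι ⊕ ι))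

end defs

/-- the coordinate -/
def jj : ι ⊕ ι → ι := Sum.elim id id

variable {A0 : Finset ι} {a b c : ι → ℝ} {x : ℝ} {F : (ι → ℝ) → ℝ} {D : ι → (ι → ℝ) → ℝ}
  {B L : ℝ} {φ ψ χ : (ι → ℝ) → ℝ}

lemma sum_jj (A0 : Finset ι) (g : ι → ℝ) :
    ∑ j ∈ A0.map (Function.Embedding.inl : ι ↪ ι ⊕ ι), g (jj j) = ∑ i ∈ A0, g i := by
  rw [Finset.sum_map]
  rfl

section alg

lemma zp_pos (h : C11 F D B L) (s : ℝ) (w : ι ⊕ ι → ℝ) : 0 < zp A0 a b c x F s w :=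
  integral_exp_pos (eg_pt_all (h.eg_exp x) s w).integrable

lemma cm_add (h : C11 F D B L) (hφ : EG φ) (hψ : EG ψ) (s : ℝ) (w : ι ⊕ ι → ℝ) :
    cm A0 a b c x F (fun y => φ y + ψ y) s w = cm A0 a b c x F φ s w + cm A0 a b c x F ψ s w := by
  unfold cm
  rw [← add_mul, ← P_add ((h.eg_exp x).mul hφ) ((h.eg_exp x).mul hψ)]
  simp only [mul_add]

lemma cm_const_mul (k : ℝ) (φ : (ι → ℝ) → ℝ) (s : ℝ) (w : ι ⊕ ι → ℝ) :
    cm A0 a b c x F (fun y => k * φ y) s w = k * cm A0 a b c x F φ s w := by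
  unfold cm
  rw [← mul_assoc, ← P_const_mul]
  congr 2
  funext y
  ring

lemma cm_sub (h : C11 F D B L) (hφ : EG φ) (hψ : EG ψ) (s : ℝ) (w : ι ⊕ ι → ℝ) :
    cm A0 a b c x F (fun y => φ y - ψ y) s w = cm A0 a b c x F φ s w - cm A0 a b c x F ψ s w := by
  have h1 := cm_add (A0 := A0) (a := a) (b := b) (c := c) (x := x) h hφ (hψ.const_mul (-1)) s w
  rw [cm_const_mul] at h1
  have e : (fun y => φ y - ψ y) = fun y => φ y + -1 * ψ y := by funext y; ring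
  rw [e, h1]
  ring

lemma cm_const (h : C11 F D B L) (k : ℝ) (s : ℝ) (w : ι ⊕ ι → ℝ) :
    cm A0 a b c x F (fun _ => k) s w = k := by
  have h1 := (zp_pos (A0 := A0) (a := a) (b := b) (c := c) (x := x) h s w).ne'
  have e : (fun y => Real.exp (x * F y) * k) = fun y => k * Real.exp (x * F y) := by
    funext y; ring
  unfold cm
  rw [e, P_const_mul]
  unfold zp at h1 ⊢
  field_simp

lemma cm_sum {K : Type*} (S : Finset K) (h : C11 F D B L) {φ : K → (ι → ℝ) → ℝ}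
    (hφ : ∀ i ∈ S, EG (φ i)) (s : ℝ) (w : ι ⊕ ι → ℝ) :
    cm A0 a b c x F (fun y => ∑ i ∈ S, φ i y) s w = ∑ i ∈ S, cm A0 a b c x F (φ i) s w := by
  classical
  induction S using Finset.induction_on with
  | empty => simpa using cm_const (A0 := A0) (a := a) (b := b) (c := c) (x := x) h 0 s w
  | insert i S hi ih =>
    simp only [Finset.sum_insert hi]
    rw [cm_add h (hφ i (Finset.mem_insert_self i S))
      (EG.sum S fun i hi => hφ i (Finset.mem_insert_of_mem hi)),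
      ih fun i hi => hφ i (Finset.mem_insert_of_mem hi)]

lemma cm_mono (h : C11 F D B L) (hφ : EG φ) (hψ : EG ψ) (hle : ∀ y, φ y ≤ ψ y) (s : ℝ)
    (w : ι ⊕ ι → ℝ) : cm A0 a b c x F φ s w ≤ cm A0 a b c x F ψ s w :=
  mul_le_mul_of_nonneg_right (P_mono ((h.eg_exp x).mul hφ) ((h.eg_exp x).mul hψ)
    (fun y => mul_le_mul_of_nonneg_left (hle y) (Real.exp_pos _).le) s w)
    (inv_nonneg.2 (zp_pos h s w).le)

lemma cm_nonneg (h : C11 F D B L) (hle : ∀ y, 0 ≤ φ y) (s : ℝ) (w : ι ⊕ ι → ℝ) :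
    0 ≤ cm A0 a b c x F φ s w :=
  mul_nonneg (integral_nonneg fun _ => mul_nonneg (Real.exp_pos _).le (hle _))
    (inv_nonneg.2 (zp_pos h s w).le)

lemma abs_cm_le (h : C11 F D B L) (hφ : EG φ) {C : ℝ} (hle : ∀ y, |φ y| ≤ C) (s : ℝ)
    (w : ι ⊕ ι → ℝ) : |cm A0 a b c x F φ s w| ≤ C := by
  rw [abs_le]
  constructor
  · have := cm_mono (A0 := A0) (a := a) (b := b) (c := c) (x := x) h (EG.const (-C)) hφ
      (fun y => (abs_le.1 (hle y)).1) s w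
    rwa [cm_const h] at this
  · have := cm_mono (A0 := A0) (a := a) (b := b) (c := c) (x := x) h hφ (EG.const C)
      (fun y => (abs_le.1 (hle y)).2) s w
    rwa [cm_const h] at this

/-- Jensen -/
lemma cm_sq_le (h : C11 F D B L) (hφ : EG φ) (s : ℝ) (w : ι ⊕ ι → ℝ) :
    cm A0 a b c x F φ s w ^ 2 ≤ cm A0 a b c x F (fun y => φ y ^ 2) s w := by
  set m := cm A0 a b c x F φ s w with hm
  have h1 := cm_nonneg (A0 := A0) (a := a) (b := b) (c := c) (x := x) h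
    (φ := fun y => (φ y - m) ^ 2) (fun _ => sq_nonneg _) s w
  have e : (fun y => (φ y - m) ^ 2) = fun y => (φ y ^ 2 - 2 * m * φ y) + m ^ 2 := by
    funext y; ring
  rw [e, cm_add h ((hφ.pow 2).sub (hφ.const_mul _)) (EG.const _), cm_sub h (hφ.pow 2)
    (hφ.const_mul _), cm_const_mul, cm_const h, ← hm] at h1
  nlinarith

end alg

/-! ### the calculus -/

section cal

variable {F2 φ1 φ2 ψ1 ψ2 : ι → (ι → ℝ) → ℝ} {H T φ11 φ12 : ι → ι → (ι → ℝ) → ℝ}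

lemma den_zp (h : C11 F D B L) (hx : 0 ≤ x) (hF : H325.C2 F D F2) (A0 : Finset ι)
    (a b c : ι → ℝ) : Den (A0.map Function.Embedding.inl) (zp A0 a b c x F)
      (dzp A0 a b c x F D) := by
  refine ⟨((sf_of_c2 (R1.c2_expF h hF x) A0).kf a b c).congr (fun _ _ => rfl)
    (fun j hj s w => ?_) fun _ _ => rfl, ?_⟩
  · rcases j with e | e <;> rfl
  · have hB := h.B0
    have h2 : ∀ y : ι → ℝ, Real.exp (x * F 0) * Real.exp (-(x * B * ‖y‖)) ≤
        Real.exp (x * F y) := by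
      intro y
      rw [← Real.exp_add]
      refine Real.exp_le_exp.2 ?_
      have h3 := (abs_le.1 (h.lip 0 y)).1
      rw [zero_add] at h3
      have h5 : x * (F 0 - B * ‖y‖) ≤ x * F y := by
        refine mul_le_mul_of_nonneg_left ?_ hx
        linarith
      linarith
    obtain ⟨k', hk', h3⟩ := P_lower (A0 := A0) (h.eg_exp x) (Real.exp_pos _)
      (by positivity : 0 ≤ x * B) h2 a b c
    exact ⟨k', _, hk', h3⟩

/-- **Conditional means are martingales.** -/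
theorem kx_cm (h : C11 F D B L) (hx : 0 ≤ x) (hF : H325.C2 F D F2) (hφ : H325.C2 φ φ1 φ2)
    (A0 : Finset ι) (a b c : ι → ℝ) :
    KX (A0.map Function.Embedding.inl) (zp A0 a b c x F) (dzp A0 a b c x F D)
      (cm A0 a b c x F φ) (fun j => dcm A0 a b c x F D φ φ1 (jj j)) (fun _ _ => 0) := by
  have k := KX.ratio (den_zp h hx hF A0 a b c)
    ((sf_of_c2 ((R1.c2_expF h hF x).mul hφ) A0).kf a b c)
  refine k.congr (fun _ _ => rfl) (fun j hj s w => ?_) fun _ _ => rfl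
  obtain ⟨e, he, rfl⟩ := Finset.mem_map.1 hj
  have hE := h.eg_exp x
  have e1 : P A0 a b c (fun y => x * (Real.exp (x * F y) * D e y) * φ y +
      Real.exp (x * F y) * φ1 e y) s w =
      x * P A0 a b c (fun y => Real.exp (x * F y) * (φ y * D e y)) s w +
        P A0 a b c (fun y => Real.exp (x * F y) * φ1 e y) s w := by
    rw [P_add (((hE.mul (h.eg_D e)).const_mul x).mul hφ.eg) (hE.mul (hφ.eg1 e)),
      ← P_const_mul]
    congr 2
    funext y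
    ring
  have e2 : P A0 a b c (fun y => x * (Real.exp (x * F y) * D e y)) s w =
      x * P A0 a b c (fun y => Real.exp (x * F y) * D e y) s w := P_const_mul _ _ _ _
  show dcm A0 a b c x F D φ φ1 e s w = (P A0 a b c (fun y =>
    x * (Real.exp (x * F y) * D e y) * φ y + Real.exp (x * F y) * φ1 e y) s w -
    P A0 a b c (fun y => Real.exp (x * F y) * φ y) s w * (zp A0 a b c x F s w)⁻¹ *
      P A0 a b c (fun y => x * (Real.exp (x * F y) * D e y)) s w) * (zp A0 a b c x F s w)⁻¹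
  rw [e1, e2]
  unfold dcm cm
  ring

/-- the derivatives of the conditional mean -/
theorem kx_dcm (h : C11 F D B L) (hx : 0 ≤ x) (hF : H325.C2 F D F2)
    (hD : ∀ e, H325.C2 (D e) (H e) (T e)) (hφ : H325.C2 φ φ1 φ2)
    (hφ1 : ∀ e, H325.C2 (φ1 e) (φ11 e) (φ12 e)) (A0 : Finset ι) (a b c : ι → ℝ) (e : ι) :
    KX (A0.map Function.Embedding.inl) (zp A0 a b c x F) (dzp A0 a b c x F D)
      (dcm A0 a b c x F D φ φ1 e) (fun j => ddcm A0 a b c x F D H φ φ1 φ11 e (jj j))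
      (fun s w => -x * ∑ i ∈ A0, dcm A0 a b c x F D φ φ1 i s w *
        dcm A0 a b c x F D (D e) (H e) i s w) := by
  have k1 := kx_cm h hx hF (hφ1 e) A0 a b c
  have k2 := kx_cm h hx hF (hφ.mul (hD e)) A0 a b c
  have k3 := (kx_cm h hx hF hφ A0 a b c).mul (kx_cm h hx hF (hD e) A0 a b c)
  refine (k1.add ((k2.sub k3).const_mul x)).congr (fun s w => rfl) (fun j _ s w => rfl)
    fun s w => ?_
  rw [sum_jj A0 fun i => dcm A0 a b c x F D φ φ1 i s w * dcm A0 a b c x F D (D e) (H e) i s w]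
  ring

section names

variable (A0 a b c x F D)

/-- `∑ (∂_e N)²` -/
noncomputable def Wf (φ : (ι → ℝ) → ℝ) (φ1 : ι → (ι → ℝ) → ℝ) (s : ℝ) (w : ι ⊕ ι → ℝ) : ℝ :=
  ∑ e ∈ A0, dcm A0 a b c x F D φ φ1 e s w ^ 2

/-- `∑ ∑ ∂_e N ∂_i N Hess_{ei}` -/
noncomputable def Kf (H : ι → ι → (ι → ℝ) → ℝ) (φ : (ι → ℝ) → ℝ) (φ1 : ι → (ι → ℝ) → ℝ) (s : ℝ)
    (w : ι ⊕ ι → ℝ) : ℝ :=
  ∑ e ∈ A0, ∑ i ∈ A0, dcm A0 a b c x F D φ φ1 e s w * dcm A0 a b c x F D φ φ1 i s w *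
    dcm A0 a b c x F D (D e) (H e) i s w

/-- `∑ ∑ ∂_e N ∂_i N M_{ei}`, `M` the second moment -/
noncomputable def Kb (H : ι → ι → (ι → ℝ) → ℝ) (φ : (ι → ℝ) → ℝ) (φ1 : ι → (ι → ℝ) → ℝ) (s : ℝ)
    (w : ι ⊕ ι → ℝ) : ℝ :=
  ∑ e ∈ A0, ∑ i ∈ A0, dcm A0 a b c x F D φ φ1 e s w * dcm A0 a b c x F D φ φ1 i s w *
    cm A0 a b c x F (fun y => H e i y + x * (D e y * D i y)) s w

/-- `∑ ∑ (∂_e ∂_j N)²` -/
noncomputable def Ef (H : ι → ι → (ι → ℝ) → ℝ) (φ : (ι → ℝ) → ℝ) (φ1 : ι → (ι → ℝ) → ℝ)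
    (φ11 : ι → ι → (ι → ℝ) → ℝ) (s : ℝ) (w : ι ⊕ ι → ℝ) : ℝ :=
  ∑ e ∈ A0, ∑ j ∈ A0, ddcm A0 a b c x F D H φ φ1 φ11 e j s w ^ 2

/-- the second derivative in the source -/
noncomputable def Gf (φ ψ : (ι → ℝ) → ℝ) (s : ℝ) (w : ι ⊕ ι → ℝ) : ℝ :=
  cm A0 a b c x F ψ s w + x * (cm A0 a b c x F (fun y => φ y * φ y) s w -
    cm A0 a b c x F φ s w ^ 2)

end names

theorem kx_sq (h : C11 F D B L) (hx : 0 ≤ x) (hF : H325.C2 F D F2) (hφ : H325.C2 φ φ1 φ2)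
    (A0 : Finset ι) (a b c : ι → ℝ) : ∃ D',
    KX (A0.map Function.Embedding.inl) (zp A0 a b c x F) (dzp A0 a b c x F D)
      (fun s w => cm A0 a b c x F φ s w ^ 2) D' (Wf A0 a b c x F D φ φ1) := by
  refine ⟨_, (kx_cm h hx hF hφ A0 a b c).sq.congr (fun _ _ => rfl) (fun _ _ _ _ => rfl)
    fun s w => ?_⟩
  rw [sum_jj A0 fun i => dcm A0 a b c x F D φ φ1 i s w ^ 2]
  unfold Wf
  ring

theorem kx_Wf (h : C11 F D B L) (hx : 0 ≤ x) (hF : H325.C2 F D F2)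
    (hD : ∀ e, H325.C2 (D e) (H e) (T e)) (hφ : H325.C2 φ φ1 φ2)
    (hφ1 : ∀ e, H325.C2 (φ1 e) (φ11 e) (φ12 e)) (A0 : Finset ι) (a b c : ι → ℝ) : ∃ D',
    KX (A0.map Function.Embedding.inl) (zp A0 a b c x F) (dzp A0 a b c x F D)
      (Wf A0 a b c x F D φ φ1) D' (fun s w => Ef A0 a b c x F D H φ φ1 φ11 s w -
        2 * x * Kf A0 a b c x F D H φ φ1 s w) := by
  refine ⟨_, (KX.sum A0 fun e _ => (kx_dcm h hx hF hD hφ hφ1 A0 a b c e).sq).congr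
    (fun _ _ => rfl) (fun _ _ _ _ => rfl) fun s w => ?_⟩
  have e1 : ∀ e, ∑ j ∈ A0.map (Function.Embedding.inl : ι ↪ ι ⊕ ι),
      ddcm A0 a b c x F D H φ φ1 φ11 e (jj j) s w ^ 2 =
      ∑ j ∈ A0, ddcm A0 a b c x F D H φ φ1 φ11 e j s w ^ 2 := fun e =>
    sum_jj A0 fun j => ddcm A0 a b c x F D H φ φ1 φ11 e j s w ^ 2
  simp only [e1]
  rw [Finset.sum_add_distrib]
  unfold Ef Kf
  rw [Finset.mul_sum]
  have e2 : ∀ e ∈ A0, 2 * dcm A0 a b c x F D φ φ1 e s w * (-x * ∑ i ∈ A0,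
      dcm A0 a b c x F D φ φ1 i s w * dcm A0 a b c x F D (D e) (H e) i s w) =
      -(2 * x * ∑ i ∈ A0, dcm A0 a b c x F D φ φ1 e s w * dcm A0 a b c x F D φ φ1 i s w *
        dcm A0 a b c x F D (D e) (H e) i s w) := by
    intro e _
    rw [Finset.mul_sum, Finset.mul_sum, Finset.mul_sum, ← Finset.sum_neg_distrib]
    exact Finset.sum_congr rfl fun i _ => by ring
  rw [Finset.sum_congr rfl e2, Finset.sum_neg_distrib]
  ring

theorem kx_Gf (h : C11 F D B L) (hx : 0 ≤ x) (hF : H325.C2 F D F2) (hφ : H325.C2 φ φ1 φ2)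
    (hψ : H325.C2 ψ ψ1 ψ2) (A0 : Finset ι) (a b c : ι → ℝ) : ∃ D',
    KX (A0.map Function.Embedding.inl) (zp A0 a b c x F) (dzp A0 a b c x F D)
      (Gf A0 a b c x F φ ψ) D' (fun s w => -x * Wf A0 a b c x F D φ φ1 s w) := by
  obtain ⟨D', k1⟩ := kx_sq h hx hF hφ A0 a b c
  refine ⟨_, ((kx_cm h hx hF hψ A0 a b c).add
    (((kx_cm h hx hF (hφ.mul hφ) A0 a b c).sub k1).const_mul x)).congr
    (fun _ _ => rfl) (fun _ _ _ _ => rfl) fun s w => ?_⟩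
  ring

/-! ### the tilted means -/

lemma ge_cm (h : C11 F D B L) (hx : 0 ≤ x) (hF : H325.C2 F D F2) (hφ : H325.C2 φ φ1 φ2)
    (A0 : Finset ι) (a b c : ι → ℝ) : GE (cm A0 a b c x F φ) :=
  (kx_cm h hx hF hφ A0 a b c).gf

lemma Z0_pos (h : C11 F D B L) (hx : 0 ≤ x) (hF : H325.C2 F D F2) :
    0 < ∫ w, zp A0 a b c x F 0 w ∂(gI (ι ⊕ ι)) := by
  have h1 : EG (zp A0 a b c x F 0) := (den_zp h hx hF A0 a b c).kf.gf.eg (by simp)
  refine (integral_pos_iff_support_of_nonneg (fun w => (zp_pos h 0 w).le) h1.integrable).2 ?_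
  have h2 : Function.support (zp A0 a b c x F 0) = Set.univ :=
    Set.eq_univ_of_forall fun w => (zp_pos h 0 w).ne'
  rw [h2]
  simp

lemma Ex_eg (h : C11 F D B L) (hx : 0 ≤ x) (hF : H325.C2 F D F2) {f : ℝ → (ι ⊕ ι → ℝ) → ℝ}
    (hf : GE f) {s : ℝ} (hs : s ∈ Set.Icc (0 : ℝ) 1) :
    EG fun w => zp A0 a b c x F s w * f s w :=
  ((den_zp h hx hF A0 a b c).kf.gf.eg hs).mul (hf.eg hs)

lemma Ex_mono (h : C11 F D B L) (hx : 0 ≤ x) (hF : H325.C2 F D F2)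
    {f g : ℝ → (ι ⊕ ι → ℝ) → ℝ} (hf : GE f) (hg : GE g) {s : ℝ} (hs : s ∈ Set.Icc (0 : ℝ) 1)
    (hl : ∀ w, f s w ≤ g s w) : Ex A0 a b c x F f s ≤ Ex A0 a b c x F g s :=
  div_le_div_of_nonneg_right (integral_mono (Ex_eg h hx hF hf hs).integrable
    (Ex_eg h hx hF hg hs).integrable fun w => mul_le_mul_of_nonneg_left (hl w)
      (zp_pos h s w).le) (Z0_pos h hx hF).le

lemma Ex_nonneg (h : C11 F D B L) (hx : 0 ≤ x) (hF : H325.C2 F D F2)
    {f : ℝ → (ι ⊕ ι → ℝ) → ℝ} {s : ℝ} (hl : ∀ w, 0 ≤ f s w) : 0 ≤ Ex A0 a b c x F f s :=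
  div_nonneg (integral_nonneg fun w => mul_nonneg (zp_pos h s w).le (hl w)) (Z0_pos h hx hF).le

lemma Ex_add (h : C11 F D B L) (hx : 0 ≤ x) (hF : H325.C2 F D F2)
    {f g : ℝ → (ι ⊕ ι → ℝ) → ℝ} (hf : GE f) (hg : GE g) {s : ℝ} (hs : s ∈ Set.Icc (0 : ℝ) 1) :
    Ex A0 a b c x F (fun s w => f s w + g s w) s = Ex A0 a b c x F f s + Ex A0 a b c x F g s := by
  unfold Ex
  rw [← add_div, ← integral_add (Ex_eg h hx hF hf hs).integrable
    (Ex_eg h hx hF hg hs).integrable]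
  simp only [mul_add]

lemma Ex_const_mul (k : ℝ) (f : ℝ → (ι ⊕ ι → ℝ) → ℝ) (s : ℝ) :
    Ex A0 a b c x F (fun s w => k * f s w) s = k * Ex A0 a b c x F f s := by
  unfold Ex
  rw [← mul_div_assoc, ← integral_const_mul]
  congr 2
  funext w
  ring

/-- the fundamental theorem of calculus -/
theorem Ex_ftc (h : C11 F D B L) (hx : 0 ≤ x) (hF : H325.C2 F D F2)
    {f L' : ℝ → (ι ⊕ ι → ℝ) → ℝ} {D' : ι ⊕ ι → ℝ → (ι ⊕ ι → ℝ) → ℝ}
    (hf : KX (A0.map Function.Embedding.inl) (zp A0 a b c x F) (dzp A0 a b c x F D) f D' L')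
    {p q : ℝ} (hp : 0 ≤ p) (hpq : p ≤ q) (hq : q ≤ 1) :
    Ex A0 a b c x F f q - Ex A0 a b c x F f p = ∫ s in p..q, Ex A0 a b c x F L' s := by
  have h1 := KX.ftc (den_zp h hx hF A0 a b c) hf hp hpq hq
  unfold Ex
  rw [intervalIntegral.integral_div, h1, sub_div]

lemma Ex_cont (h : C11 F D B L) (hx : 0 ≤ x) (hF : H325.C2 F D F2)
    {f : ℝ → (ι ⊕ ι → ℝ) → ℝ} (hf : GE f) :
    ContinuousOn (Ex A0 a b c x F f) (Set.Icc 0 1) :=
  ((den_zp h hx hF A0 a b c).kf.gf.mul hf).continuousOn.div_const _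

/-- the mass is constant -/
lemma Ex_one (h : C11 F D B L) (hx : 0 ≤ x) (hF : H325.C2 F D F2) {s : ℝ}
    (hs : s ∈ Set.Icc (0 : ℝ) 1) (k : ℝ) : Ex A0 a b c x F (fun _ _ => k) s = k := by
  have h1 := Ex_ftc h hx hF (KX.const (A := A0.map Function.Embedding.inl)
    (Z := zp A0 a b c x F) (DZ := dzp A0 a b c x F D) k) le_rfl hs.1 hs.2
  have h2 : Ex A0 a b c x F (fun _ _ => k) 0 = k := by
    unfold Ex
    rw [integral_mul_const]
    field_simp [(Z0_pos (A0 := A0) (a := a) (b := b) (c := c) h hx hF).ne']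
  have h3 : ∀ s, Ex A0 a b c x F (fun _ _ => (0 : ℝ)) s = 0 := fun s => by
    unfold Ex
    simp
  simp only [h3, intervalIntegral.integral_zero] at h1
  linarith

end cal

end Vale.Agent.P146.H266
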