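import Vale.Agent.P146.H266.RowOde

/-!
The row equation: upper and lower bounds for the increment `q` of `E N²`, `N = cm φ` the conditional
mean of the source derivative `φ`, when the row `A0` is revealed.
-/

open MeasureTheory ProbabilityTheory Filter Topology

namespace Vale.Agent.P146.H266

open Vale.Agent.P157.Lv Vale.Agent.P146.H425 Vale.Agent.P146.H332

set_option linter.unusedSectionVars false

variable {ι : Type} [Fintype ι] [DecidableEq ι] {A0 : Finset ι} {a b c : ι → ℝ} {x : ℝ}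
  {F : (ι → ℝ) → ℝ} {D : ι → (ι → ℝ) → ℝ} {B L : ℝ} {φ ψ χ : (ι → ℝ) → ℝ}
  {F2 φ1 φ2 ψ1 ψ2 : ι → (ι → ℝ) → ℝ} {H T φ11 φ12 : ι → ι → (ι → ℝ) → ℝ}

lemma ge_cm' (h : C11 F D B L) (hx : 0 ≤ x) (hF : H325.C2 F D F2) (hφ : EG φ)
    (hc : Continuous φ) (A0 : Finset ι) (a b c : ι → ℝ) : GE (cm A0 a b c x F φ) := by
  have hE : Continuous fun y => Real.exp (x * F y) :=
    Real.continuous_exp.comp (continuous_const.mul hF.cont)
  exact (ge_P ((h.eg_exp x).mul hφ) (hE.mul hc)).mul (den_zp h hx hF A0 a b c).ge_inv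

lemma ge_dcm (h : C11 F D B L) (hx : 0 ≤ x) (hF : H325.C2 F D F2) (hφ : H325.C2 φ φ1 φ2)
    (A0 : Finset ι) (a b c : ι → ℝ) (e : ι) : GE (dcm A0 a b c x F D φ φ1 e) :=
  (ge_cm' h hx hF (hφ.eg1 e) (hφ.c1 e) A0 a b c).add
    (((ge_cm' h hx hF (hφ.eg.mul (h.eg_D e)) (hφ.cont.mul (hF.c1 e)) A0 a b c).sub
      ((ge_cm' h hx hF hφ.eg hφ.cont A0 a b c).mul
        (ge_cm' h hx hF (h.eg_D e) (hF.c1 e) A0 a b c))).const_mul x)

/-- **The Hessian of the value function with a source is nonnegative.** -/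
theorem psd_cm (h : C11 F D B L) (hx : 0 ≤ x) (hD : ∀ e, H325.C2 (D e) (H e) (T e))
    (hφ : H325.C2 φ φ1 φ2) (hψ : EG ψ)
    (hP : ∀ y (v : ι → ℝ) (k : ℝ), 0 ≤ (∑ e ∈ A0, ∑ i ∈ A0, v e * v i * H e i y) +
      2 * k * (∑ e ∈ A0, v e * φ1 e y) + k ^ 2 * ψ y) (v : ι → ℝ) (k s : ℝ) (w : ι ⊕ ι → ℝ) :
    0 ≤ (∑ e ∈ A0, ∑ i ∈ A0, v e * v i * dcm A0 a b c x F D (D e) (H e) i s w) +
      2 * k * (∑ e ∈ A0, v e * dcm A0 a b c x F D φ φ1 e s w) +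
      k ^ 2 * Gf A0 a b c x F φ ψ s w := by
  have eD : ∀ e, EG (D e) := fun e => h.eg_D e
  have eH : ∀ e i, EG (H e i) := fun e i => (hD e).eg1 i
  -- the convex part
  have h1 := cm_nonneg (A0 := A0) (a := a) (b := b) (c := c) (x := x) h (fun y => hP y v k) s w
  have eHs : EG fun y => ∑ e ∈ A0, ∑ i ∈ A0, v e * v i * H e i y :=
    EG.sum _ fun e _ => EG.sum _ fun i _ => (eH e i).const_mul _
  have eφs : EG fun y => ∑ e ∈ A0, v e * φ1 e y := EG.sum _ fun e _ => (hφ.eg1 e).const_mul _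
  rw [cm_add h (eHs.add (eφs.const_mul (2 * k))) (hψ.const_mul _), cm_add h eHs
    (eφs.const_mul (2 * k)), cm_const_mul, cm_const_mul,
    cm_sum A0 h fun e _ => EG.sum _ fun i _ => (eH e i).const_mul _,
    cm_sum A0 h fun e _ => (hφ.eg1 e).const_mul _] at h1
  have h2 : ∀ e ∈ A0, cm A0 a b c x F (fun y => ∑ i ∈ A0, v e * v i * H e i y) s w =
      ∑ i ∈ A0, v e * v i * cm A0 a b c x F (H e i) s w := by
    intro e _
    rw [cm_sum A0 h fun i _ => (eH e i).const_mul _]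
    exact Finset.sum_congr rfl fun i _ => cm_const_mul _ _ _ _
  rw [Finset.sum_congr rfl h2] at h1
  have h3 : ∀ e ∈ A0, cm A0 a b c x F (fun y => v e * φ1 e y) s w =
      v e * cm A0 a b c x F (φ1 e) s w := fun e _ => cm_const_mul _ _ _ _
  rw [Finset.sum_congr rfl h3] at h1
  -- the variance part
  set p : (ι → ℝ) → ℝ := fun y => (∑ e ∈ A0, v e * D e y) + k * φ y with hp
  have eS : EG fun y => ∑ e ∈ A0, v e * D e y := EG.sum _ fun e _ => (eD e).const_mul _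
  have ep : EG p := eS.add (hφ.eg.const_mul k)
  have h4 := cm_sq_le (A0 := A0) (a := a) (b := b) (c := c) (x := x) h ep s w
  have h5 : cm A0 a b c x F p s w = (∑ e ∈ A0, v e * cm A0 a b c x F (D e) s w) +
      k * cm A0 a b c x F φ s w := by
    rw [hp, cm_add h eS (hφ.eg.const_mul k), cm_const_mul,
      cm_sum A0 h fun e _ => (eD e).const_mul _]
    congr 1
    exact Finset.sum_congr rfl fun e _ => cm_const_mul _ _ _ _
  have e6 : (fun y => p y ^ 2) = fun y => ((∑ e ∈ A0, ∑ i ∈ A0, v e * v i * (D e y * D i y)) +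
      2 * k * (∑ e ∈ A0, v e * (φ y * D e y))) + k ^ 2 * (φ y * φ y) := by
    funext y
    have e7 : (∑ e ∈ A0, v e * D e y) ^ 2 = ∑ e ∈ A0, ∑ i ∈ A0, v e * v i * (D e y * D i y) := by
      rw [pow_two, Finset.sum_mul_sum]
      exact Finset.sum_congr rfl fun e _ => Finset.sum_congr rfl fun i _ => by ring
    have e8 : ∑ e ∈ A0, v e * (φ y * D e y) = φ y * ∑ e ∈ A0, v e * D e y := by
      rw [Finset.mul_sum]
      exact Finset.sum_congr rfl fun e _ => by ring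
    rw [← e7, e8]
    simp only [hp]
    ring
  have eDD : EG fun y => ∑ e ∈ A0, ∑ i ∈ A0, v e * v i * (D e y * D i y) :=
    EG.sum _ fun e _ => EG.sum _ fun i _ => ((eD e).mul (eD i)).const_mul _
  have eφD : EG fun y => ∑ e ∈ A0, v e * (φ y * D e y) :=
    EG.sum _ fun e _ => (hφ.eg.mul (eD e)).const_mul _
  have h6 : cm A0 a b c x F (fun y => p y ^ 2) s w =
      (∑ e ∈ A0, ∑ i ∈ A0, v e * v i * cm A0 a b c x F (fun y => D e y * D i y) s w) +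
      2 * k * (∑ e ∈ A0, v e * cm A0 a b c x F (fun y => φ y * D e y) s w) +
      k ^ 2 * cm A0 a b c x F (fun y => φ y * φ y) s w := by
    rw [e6, cm_add h (eDD.add (eφD.const_mul (2 * k))) ((hφ.eg.mul hφ.eg).const_mul _),
      cm_add h eDD (eφD.const_mul (2 * k)), cm_const_mul, cm_const_mul,
      cm_sum A0 h fun e _ => EG.sum _ fun i _ => ((eD e).mul (eD i)).const_mul _,
      cm_sum A0 h fun e _ => (hφ.eg.mul (eD e)).const_mul _]
    congr 2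
    · refine Finset.sum_congr rfl fun e _ => ?_
      rw [cm_sum A0 h fun i _ => ((eD e).mul (eD i)).const_mul _]
      exact Finset.sum_congr rfl fun i _ => cm_const_mul _ _ _ _
    · congr 1
      exact Finset.sum_congr rfl fun e _ => cm_const_mul _ _ _ _
  rw [h5, h6] at h4
  have h7 : ((∑ e ∈ A0, v e * cm A0 a b c x F (D e) s w) + k * cm A0 a b c x F φ s w) ^ 2 =
      (∑ e ∈ A0, ∑ i ∈ A0, v e * v i * (cm A0 a b c x F (D e) s w * cm A0 a b c x F (D i) s w)) +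
      2 * k * (∑ e ∈ A0, v e * (cm A0 a b c x F φ s w * cm A0 a b c x F (D e) s w)) +
      k ^ 2 * cm A0 a b c x F φ s w ^ 2 := by
    have e7 : (∑ e ∈ A0, v e * cm A0 a b c x F (D e) s w) ^ 2 = ∑ e ∈ A0, ∑ i ∈ A0,
        v e * v i * (cm A0 a b c x F (D e) s w * cm A0 a b c x F (D i) s w) := by
      rw [pow_two, Finset.sum_mul_sum]
      exact Finset.sum_congr rfl fun e _ => Finset.sum_congr rfl fun i _ => by ring
    have e8 : ∑ e ∈ A0, v e * (cm A0 a b c x F φ s w * cm A0 a b c x F (D e) s w) =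
        cm A0 a b c x F φ s w * ∑ e ∈ A0, v e * cm A0 a b c x F (D e) s w := by
      rw [Finset.mul_sum]
      exact Finset.sum_congr rfl fun e _ => by ring
    rw [← e7, e8]
    ring
  rw [h7] at h4
  have h8 := mul_nonneg hx (sub_nonneg.2 h4)
  -- assemble
  have h9 : (∑ e ∈ A0, ∑ i ∈ A0, v e * v i * dcm A0 a b c x F D (D e) (H e) i s w) =
      (∑ e ∈ A0, ∑ i ∈ A0, v e * v i * cm A0 a b c x F (H e i) s w) +
      x * ((∑ e ∈ A0, ∑ i ∈ A0, v e * v i * cm A0 a b c x F (fun y => D e y * D i y) s w) -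
        ∑ e ∈ A0, ∑ i ∈ A0, v e * v i *
          (cm A0 a b c x F (D e) s w * cm A0 a b c x F (D i) s w)) := by
    rw [← Finset.sum_sub_distrib, Finset.mul_sum, ← Finset.sum_add_distrib]
    refine Finset.sum_congr rfl fun e _ => ?_
    rw [← Finset.sum_sub_distrib, Finset.mul_sum, ← Finset.sum_add_distrib]
    refine Finset.sum_congr rfl fun i _ => ?_
    unfold dcm
    ring
  have h10 : (∑ e ∈ A0, v e * dcm A0 a b c x F D φ φ1 e s w) =
      (∑ e ∈ A0, v e * cm A0 a b c x F (φ1 e) s w) +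
      x * ((∑ e ∈ A0, v e * cm A0 a b c x F (fun y => φ y * D e y) s w) -
        ∑ e ∈ A0, v e * (cm A0 a b c x F φ s w * cm A0 a b c x F (D e) s w)) := by
    rw [← Finset.sum_sub_distrib, Finset.mul_sum, ← Finset.sum_add_distrib]
    refine Finset.sum_congr rfl fun e _ => ?_
    unfold dcm
    ring
  rw [h9, h10]
  unfold Gf
  nlinarith [h1, h8]

/-- the upper bound of the Hessian by the second moment -/
theorem Kf_le_Kb (h : C11 F D B L) (hx : 0 ≤ x) (hD : ∀ e, H325.C2 (D e) (H e) (T e)) (s : ℝ)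
    (w : ι ⊕ ι → ℝ) : Kf A0 a b c x F D H φ φ1 s w ≤ Kb A0 a b c x F D H φ φ1 s w := by
  have eD : ∀ e, EG (D e) := fun e => h.eg_D e
  set g : ι → ℝ := fun e => dcm A0 a b c x F D φ φ1 e s w with hg
  have h1 : Kb A0 a b c x F D H φ φ1 s w - Kf A0 a b c x F D H φ φ1 s w =
      x * (∑ e ∈ A0, g e * cm A0 a b c x F (D e) s w) ^ 2 := by
    have e7 : (∑ e ∈ A0, g e * cm A0 a b c x F (D e) s w) ^ 2 = ∑ e ∈ A0, ∑ i ∈ A0,
        g e * g i * (cm A0 a b c x F (D e) s w * cm A0 a b c x F (D i) s w) := by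
      rw [pow_two, Finset.sum_mul_sum]
      exact Finset.sum_congr rfl fun e _ => Finset.sum_congr rfl fun i _ => by ring
    rw [e7]
    unfold Kb Kf
    rw [← Finset.sum_sub_distrib, Finset.mul_sum]
    refine Finset.sum_congr rfl fun e _ => ?_
    rw [← Finset.sum_sub_distrib, Finset.mul_sum]
    refine Finset.sum_congr rfl fun i _ => ?_
    rw [cm_add h ((hD e).eg1 i) (((eD e).mul (eD i)).const_mul x), cm_const_mul]
    simp only [hg]
    rw [show dcm A0 a b c x F D (D e) (H e) i s w = cm A0 a b c x F (H e i) s w +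
      x * (cm A0 a b c x F (fun y => D e y * D i y) s w -
        cm A0 a b c x F (D e) s w * cm A0 a b c x F (D i) s w) from rfl]
    ring
  have h2 : 0 ≤ x * (∑ e ∈ A0, g e * cm A0 a b c x F (D e) s w) ^ 2 :=
    mul_nonneg hx (sq_nonneg _)
  linarith

lemma Wf_nonneg (s : ℝ) (w : ι ⊕ ι → ℝ) : 0 ≤ Wf A0 a b c x F D φ φ1 s w :=
  Finset.sum_nonneg fun _ _ => sq_nonneg _

lemma Ef_nonneg (s : ℝ) (w : ι ⊕ ι → ℝ) : 0 ≤ Ef A0 a b c x F D H φ φ1 φ11 s w :=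
  Finset.sum_nonneg fun _ _ => Finset.sum_nonneg fun _ _ => sq_nonneg _

section ge

variable (h : C11 F D B L) (hx : 0 ≤ x) (hF : H325.C2 F D F2)
  (hD : ∀ e, H325.C2 (D e) (H e) (T e)) (hφ : H325.C2 φ φ1 φ2)
  (hφ1 : ∀ e, H325.C2 (φ1 e) (φ11 e) (φ12 e))
include h hx hF

lemma ge_Nf (hφ : H325.C2 φ φ1 φ2) (A0 : Finset ι) (a b c : ι → ℝ) :
    GE (fun s w => cm A0 a b c x F φ s w ^ 2) :=
  (ge_cm' h hx hF hφ.eg hφ.cont A0 a b c).pow 2

lemma ge_Wf (hφ : H325.C2 φ φ1 φ2) (A0 : Finset ι) (a b c : ι → ℝ) :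
    GE (Wf A0 a b c x F D φ φ1) :=
  GE.sum A0 fun e _ => (ge_dcm h hx hF hφ A0 a b c e).pow 2

include hD in
lemma ge_Kf (hφ : H325.C2 φ φ1 φ2) (A0 : Finset ι) (a b c : ι → ℝ) :
    GE (Kf A0 a b c x F D H φ φ1) :=
  GE.sum A0 fun e _ => GE.sum A0 fun i _ => ((ge_dcm h hx hF hφ A0 a b c e).mul
    (ge_dcm h hx hF hφ A0 a b c i)).mul (ge_dcm h hx hF (hD e) A0 a b c i)

include hD in
lemma ge_Kb (hφ : H325.C2 φ φ1 φ2) (A0 : Finset ι) (a b c : ι → ℝ) :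
    GE (Kb A0 a b c x F D H φ φ1) :=
  GE.sum A0 fun e _ => GE.sum A0 fun i _ => ((ge_dcm h hx hF hφ A0 a b c e).mul
    (ge_dcm h hx hF hφ A0 a b c i)).mul (ge_cm' h hx hF
      (((hD e).eg1 i).add (((h.eg_D e).mul (h.eg_D i)).const_mul x))
      (((hD e).c1 i).add (continuous_const.mul ((hF.c1 e).mul (hF.c1 i)))) A0 a b c)

lemma ge_Gf (hφ : H325.C2 φ φ1 φ2) (hψ : H325.C2 ψ ψ1 ψ2) (A0 : Finset ι) (a b c : ι → ℝ) :
    GE (Gf A0 a b c x F φ ψ) :=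
  (ge_cm' h hx hF hψ.eg hψ.cont A0 a b c).add (((ge_cm' h hx hF (hφ.eg.mul hφ.eg)
    (hφ.cont.mul hφ.cont) A0 a b c).sub ((ge_cm' h hx hF hφ.eg hφ.cont A0 a b c).pow 2)).const_mul x)

include hD in
lemma ge_Ef (hφ : H325.C2 φ φ1 φ2) (hφ1 : ∀ e, H325.C2 (φ1 e) (φ11 e) (φ12 e))
    (A0 : Finset ι) (a b c : ι → ℝ) : GE (Ef A0 a b c x F D H φ φ1 φ11) := by
  refine GE.sum A0 fun e _ => GE.sum A0 fun j hj => GE.pow ?_ 2
  exact (kx_dcm h hx hF hD hφ hφ1 A0 a b c e).gD (Sum.inl j)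
    (Finset.mem_map.2 ⟨j, hj, rfl⟩)

end ge

/-! ### weights -/

/-- The weights: nonnegative functions of the frozen coordinates. -/
structure Wg (A0 : Finset ι) (Y : (ι ⊕ ι → ℝ) → ℝ) : Prop where
  eg : EG Y
  ind : ∀ e ∈ A0, ∀ y t, Y (Function.update y (Sum.inl e) t) = Y y
  nn : ∀ y, 0 ≤ Y y

lemma Wg.one (A0 : Finset ι) : Wg A0 (fun _ => 1) :=
  ⟨EG.const 1, fun _ _ _ _ => rfl, fun _ => zero_le_one⟩

variable {Y : (ι ⊕ ι → ℝ) → ℝ}

lemma Wg.ge (hY : Wg A0 Y) {f : ℝ → (ι ⊕ ι → ℝ) → ℝ} (hf : GE f) :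
    GE (fun s w => Y w * f s w) := (GE.of_eg hY.eg).mul hf

lemma Wg.kx (hY : Wg A0 Y) {Z f L' : ℝ → (ι ⊕ ι → ℝ) → ℝ}
    {DZ D' : ι ⊕ ι → ℝ → (ι ⊕ ι → ℝ) → ℝ}
    (hf : KX (A0.map Function.Embedding.inl) Z DZ f D' L') :
    ∃ D'', KX (A0.map Function.Embedding.inl) Z DZ (fun s w => Y w * f s w) D''
      (fun s w => Y w * L' s w) := by
  have kY : KX (A0.map Function.Embedding.inl) Z DZ (fun _ w => Y w) (fun _ _ _ => 0)
      (fun _ _ => 0) := KX.weight hY.eg fun e he y t => by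
    obtain ⟨i, hi, rfl⟩ := Finset.mem_map.1 he
    exact hY.ind i hi y t
  refine ⟨_, (kY.mul hf).congr (fun _ _ => rfl) (fun _ _ _ _ => rfl) fun s w => ?_⟩
  simp

/-- the weighted mean under the tilted law -/
noncomputable def Ew (A0 : Finset ι) (a b c : ι → ℝ) (x : ℝ) (F : (ι → ℝ) → ℝ)
    (Y : (ι ⊕ ι → ℝ) → ℝ) (f : ℝ → (ι ⊕ ι → ℝ) → ℝ) (s : ℝ) : ℝ :=
  Ex A0 a b c x F (fun s w => Y w * f s w) s

lemma Ew_one (f : ℝ → (ι ⊕ ι → ℝ) → ℝ) (s : ℝ) :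
    Ew A0 a b c x F (fun _ => 1) f s = Ex A0 a b c x F f s := by
  unfold Ew
  simp only [one_mul]

lemma Ew_mono (hY : Wg A0 Y) (h : C11 F D B L) (hx : 0 ≤ x) (hF : H325.C2 F D F2)
    {f g : ℝ → (ι ⊕ ι → ℝ) → ℝ} (hf : GE f) (hg : GE g) {s : ℝ} (hs : s ∈ Set.Icc (0 : ℝ) 1)
    (hl : ∀ w, f s w ≤ g s w) : Ew A0 a b c x F Y f s ≤ Ew A0 a b c x F Y g s :=
  Ex_mono h hx hF (hY.ge hf) (hY.ge hg) hs fun w => mul_le_mul_of_nonneg_left (hl w) (hY.nn w)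

lemma Ew_nonneg (hY : Wg A0 Y) (h : C11 F D B L) (hx : 0 ≤ x) (hF : H325.C2 F D F2)
    {f : ℝ → (ι ⊕ ι → ℝ) → ℝ} {s : ℝ} (hl : ∀ w, 0 ≤ f s w) : 0 ≤ Ew A0 a b c x F Y f s :=
  Ex_nonneg h hx hF fun w => mul_nonneg (hY.nn w) (hl w)

lemma Ew_add (hY : Wg A0 Y) (h : C11 F D B L) (hx : 0 ≤ x) (hF : H325.C2 F D F2)
    {f g : ℝ → (ι ⊕ ι → ℝ) → ℝ} (hf : GE f) (hg : GE g) {s : ℝ} (hs : s ∈ Set.Icc (0 : ℝ) 1) :
    Ew A0 a b c x F Y (fun s w => f s w + g s w) s =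
      Ew A0 a b c x F Y f s + Ew A0 a b c x F Y g s := by
  unfold Ew
  rw [← Ex_add h hx hF (hY.ge hf) (hY.ge hg) hs]
  simp only [mul_add]

lemma Ew_const_mul (k : ℝ) (f : ℝ → (ι ⊕ ι → ℝ) → ℝ) (s : ℝ) :
    Ew A0 a b c x F Y (fun s w => k * f s w) s = k * Ew A0 a b c x F Y f s := by
  unfold Ew
  rw [← Ex_const_mul]
  congr 1
  funext s w
  ring

lemma Ew_ftc (hY : Wg A0 Y) (h : C11 F D B L) (hx : 0 ≤ x) (hF : H325.C2 F D F2)
    {f L' : ℝ → (ι ⊕ ι → ℝ) → ℝ} {D' : ι ⊕ ι → ℝ → (ι ⊕ ι → ℝ) → ℝ}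
    (hf : KX (A0.map Function.Embedding.inl) (zp A0 a b c x F) (dzp A0 a b c x F D) f D' L')
    {p q : ℝ} (hp : 0 ≤ p) (hpq : p ≤ q) (hq : q ≤ 1) :
    Ew A0 a b c x F Y f q - Ew A0 a b c x F Y f p = ∫ s in p..q, Ew A0 a b c x F Y L' s := by
  obtain ⟨D'', k⟩ := hY.kx hf
  exact Ex_ftc h hx hF k hp hpq hq

lemma Ew_cont (hY : Wg A0 Y) (h : C11 F D B L) (hx : 0 ≤ x) (hF : H325.C2 F D F2)
    {f : ℝ → (ι ⊕ ι → ℝ) → ℝ} (hf : GE f) :
    ContinuousOn (Ew A0 a b c x F Y f) (Set.Icc 0 1) := Ex_cont h hx hF (hY.ge hf)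

/-! ### the four relations -/

/-- (1) -/
theorem rel1 (hY : Wg A0 Y) (h : C11 F D B L) (hx : 0 ≤ x) (hF : H325.C2 F D F2) (hφ : H325.C2 φ φ1 φ2) :
    Ew A0 a b c x F Y (fun s w => cm A0 a b c x F φ s w ^ 2) 1 -
      Ew A0 a b c x F Y (fun s w => cm A0 a b c x F φ s w ^ 2) 0 =
      ∫ s in (0 : ℝ)..1, Ew A0 a b c x F Y (Wf A0 a b c x F D φ φ1) s := by
  obtain ⟨D', k⟩ := kx_sq h hx hF hφ A0 a b c
  exact Ew_ftc hY h hx hF k le_rfl zero_le_one le_rfl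

/-- (2) -/
theorem rel2 (hY : Wg A0 Y) (h : C11 F D B L) (hx : 0 ≤ x) (hF : H325.C2 F D F2)
    (hD : ∀ e, H325.C2 (D e) (H e) (T e)) (hφ : H325.C2 φ φ1 φ2)
    (hφ1 : ∀ e, H325.C2 (φ1 e) (φ11 e) (φ12 e)) {p q : ℝ} (hp : 0 ≤ p) (hpq : p ≤ q)
    (hq : q ≤ 1) :
    Ew A0 a b c x F Y (Wf A0 a b c x F D φ φ1) q - Ew A0 a b c x F Y (Wf A0 a b c x F D φ φ1) p =
      ∫ s in p..q, (Ew A0 a b c x F Y (Ef A0 a b c x F D H φ φ1 φ11) s -
        2 * x * Ew A0 a b c x F Y (Kf A0 a b c x F D H φ φ1) s) := by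
  obtain ⟨D', k⟩ := kx_Wf h hx hF hD hφ hφ1 A0 a b c
  rw [Ew_ftc hY h hx hF k hp hpq hq]
  refine intervalIntegral.integral_congr fun s hs => ?_
  rw [Set.uIcc_of_le hpq] at hs
  have hs' : s ∈ Set.Icc (0 : ℝ) 1 := ⟨hp.trans hs.1, hs.2.trans hq⟩
  have h1 := Ew_add (A0 := A0) (a := a) (b := b) (c := c) hY h hx hF
    (ge_Ef h hx hF hD hφ hφ1 A0 a b c) ((ge_Kf h hx hF hD hφ A0 a b c).const_mul (-(2 * x))) hs'
  rw [Ew_const_mul] at h1
  have e : (fun s w => Ef A0 a b c x F D H φ φ1 φ11 s w - 2 * x * Kf A0 a b c x F D H φ φ1 s w) =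
      fun s w => Ef A0 a b c x F D H φ φ1 φ11 s w +
        -(2 * x) * Kf A0 a b c x F D H φ φ1 s w := by
    funext s w; ring
  show Ew A0 a b c x F Y (fun s w => Ef A0 a b c x F D H φ φ1 φ11 s w -
    2 * x * Kf A0 a b c x F D H φ φ1 s w) s = _
  rw [e, h1]
  ring

/-- (3) -/
theorem rel3 (hY : Wg A0 Y) (h : C11 F D B L) (hx : 0 ≤ x) (hF : H325.C2 F D F2) (hφ : H325.C2 φ φ1 φ2)
    (hψ : H325.C2 ψ ψ1 ψ2) {p q : ℝ} (hp : 0 ≤ p) (hpq : p ≤ q) (hq : q ≤ 1) :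
    Ew A0 a b c x F Y (Gf A0 a b c x F φ ψ) q - Ew A0 a b c x F Y (Gf A0 a b c x F φ ψ) p =
      ∫ s in p..q, -x * Ew A0 a b c x F Y (Wf A0 a b c x F D φ φ1) s := by
  obtain ⟨D', k⟩ := kx_Gf h hx hF hφ hψ A0 a b c
  rw [Ew_ftc hY h hx hF k hp hpq hq]
  refine intervalIntegral.integral_congr fun s _ => ?_
  exact Ew_const_mul (-x) (Wf A0 a b c x F D φ φ1) s

/-- (4) -/
theorem rel4 (hY : Wg A0 Y) (h : C11 F D B L) (hx : 0 ≤ x) (hF : H325.C2 F D F2)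
    (hD : ∀ e, H325.C2 (D e) (H e) (T e)) (hφ : H325.C2 φ φ1 φ2) (hψ : H325.C2 ψ ψ1 ψ2)
    (hP : ∀ y (v : ι → ℝ) (k : ℝ), 0 ≤ (∑ e ∈ A0, ∑ i ∈ A0, v e * v i * H e i y) +
      2 * k * (∑ e ∈ A0, v e * φ1 e y) + k ^ 2 * ψ y) {s : ℝ} (hs : s ∈ Set.Icc (0 : ℝ) 1) :
    Ew A0 a b c x F Y (Wf A0 a b c x F D φ φ1) s ^ 2 ≤
      Ew A0 a b c x F Y (Kf A0 a b c x F D H φ φ1) s * Ew A0 a b c x F Y (Gf A0 a b c x F φ ψ) s := by
  have h1 : ∀ r : ℝ, 0 ≤ Ew A0 a b c x F Y (Kf A0 a b c x F D H φ φ1) s * (r * r) +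
      (-2 * Ew A0 a b c x F Y (Wf A0 a b c x F D φ φ1) s) * r +
        Ew A0 a b c x F Y (Gf A0 a b c x F φ ψ) s := by
    intro r
    have h2 : 0 ≤ Ew A0 a b c x F Y (fun s w => (r * r) * Kf A0 a b c x F D H φ φ1 s w +
        (-(2 * r)) * Wf A0 a b c x F D φ φ1 s w + Gf A0 a b c x F φ ψ s w) s := by
      refine Ew_nonneg hY h hx hF fun w => ?_
      have h3 := psd_cm (A0 := A0) (a := a) (b := b) (c := c) h hx hD hφ hψ.eg hP
        (fun e => r * dcm A0 a b c x F D φ φ1 e s w) (-1) s w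
      have e1 : (∑ e ∈ A0, ∑ i ∈ A0, r * dcm A0 a b c x F D φ φ1 e s w *
          (r * dcm A0 a b c x F D φ φ1 i s w) * dcm A0 a b c x F D (D e) (H e) i s w) =
          r * r * Kf A0 a b c x F D H φ φ1 s w := by
        unfold Kf
        rw [Finset.mul_sum]
        refine Finset.sum_congr rfl fun e _ => ?_
        rw [Finset.mul_sum]
        exact Finset.sum_congr rfl fun i _ => by ring
      have e2 : (∑ e ∈ A0, r * dcm A0 a b c x F D φ φ1 e s w *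
          dcm A0 a b c x F D φ φ1 e s w) = r * Wf A0 a b c x F D φ φ1 s w := by
        unfold Wf
        rw [Finset.mul_sum]
        exact Finset.sum_congr rfl fun e _ => by ring
      rw [e1, e2] at h3
      linarith
    have gK := ge_Kf h hx hF hD hφ A0 a b c
    have gW := ge_Wf h hx hF hφ A0 a b c
    have gG := ge_Gf h hx hF hφ hψ A0 a b c
    rw [Ew_add hY h hx hF ((gK.const_mul _).add (gW.const_mul _)) gG hs,
      Ew_add hY h hx hF (gK.const_mul _) (gW.const_mul _) hs, Ew_const_mul, Ew_const_mul] at h2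
    linarith
  have h3 := discrim_le_zero h1
  unfold discrim at h3
  linarith

/-! ### the row equation -/

/-- a continuous extension -/
lemma ext_cont {f : ℝ → ℝ} (hf : ContinuousOn f (Set.Icc 0 1)) :
    ∃ g : ℝ → ℝ, Continuous g ∧ ∀ s ∈ Set.Icc (0 : ℝ) 1, g s = f s :=
  ⟨Set.IccExtend zero_le_one (Set.restrict (Set.Icc (0 : ℝ) 1) f),
    (continuousOn_iff_continuous_restrict.1 hf).Icc_extend', fun s hs => by
      rw [Set.IccExtend_of_mem _ _ hs]; rfl⟩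

lemma int_ext {f g : ℝ → ℝ} (h : ∀ s ∈ Set.Icc (0 : ℝ) 1, g s = f s) {p q : ℝ} (hp : 0 ≤ p)
    (hpq : p ≤ q) (hq : q ≤ 1) : ∫ s in p..q, g s = ∫ s in p..q, f s := by
  refine intervalIntegral.integral_congr fun s hs => ?_
  rw [Set.uIcc_of_le hpq] at hs
  exact h s ⟨hp.trans hs.1, hs.2.trans hq⟩

/-- **(U)** the upper bound for the increment `q` of `E N²` -/
theorem row_U (hY : Wg A0 Y) (h : C11 F D B L) (hx : 0 ≤ x) (hF : H325.C2 F D F2)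
    (hD : ∀ e, H325.C2 (D e) (H e) (T e)) (hφ : H325.C2 φ φ1 φ2)
    (hφ1 : ∀ e, H325.C2 (φ1 e) (φ11 e) (φ12 e)) (hψ : H325.C2 ψ ψ1 ψ2)
    (hP : ∀ y (v : ι → ℝ) (k : ℝ), 0 ≤ (∑ e ∈ A0, ∑ i ∈ A0, v e * v i * H e i y) +
      2 * k * (∑ e ∈ A0, v e * φ1 e y) + k ^ 2 * ψ y) {q eb : ℝ}
    (hq : q = Ew A0 a b c x F Y (fun s w => cm A0 a b c x F φ s w ^ 2) 1 -
      Ew A0 a b c x F Y (fun s w => cm A0 a b c x F φ s w ^ 2) 0)
    (heb : ∫ s in (0 : ℝ)..1, (1 - s) * Ew A0 a b c x F Y (Ef A0 a b c x F D H φ φ1 φ11) s ≤ eb)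
    (hle : eb ≤ q) :
    x * (q - eb) ^ 2 ≤ Ew A0 a b c x F Y (Gf A0 a b c x F φ ψ) 0 *
      (Ew A0 a b c x F Y (Wf A0 a b c x F D φ φ1) 0 - (q - eb)) := by
  have gE := ge_Ef h hx hF hD hφ hφ1 A0 a b c
  have gK := ge_Kf h hx hF hD hφ A0 a b c
  have gW := ge_Wf h hx hF hφ A0 a b c
  have cE := Ew_cont (A0 := A0) (a := a) (b := b) (c := c) hY h hx hF gE
  have cK := Ew_cont (A0 := A0) (a := a) (b := b) (c := c) hY h hx hF gK
  have cW := Ew_cont (A0 := A0) (a := a) (b := b) (c := c) hY h hx hF gW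
  obtain ⟨E', hE', eE⟩ := ext_cont cE
  obtain ⟨K', hK', eK⟩ := ext_cont cK
  obtain ⟨W', hW', eW⟩ := ext_cont cW
  have h0 : (0 : ℝ) ∈ Set.Icc (0 : ℝ) 1 := by simp
  have hW0 : ∀ s ∈ Set.Icc (0 : ℝ) 1, 0 ≤ W' s := fun s hs => by
    rw [eW s hs]
    exact Ew_nonneg hY h hx hF fun w => Wf_nonneg s w
  have hE0 : ∀ s ∈ Set.Icc (0 : ℝ) 1, 0 ≤ E' s := fun s hs => by
    rw [eE s hs]
    exact Ew_nonneg hY h hx hF fun w => Ef_nonneg s w
  have hK0 : ∀ s ∈ Set.Icc (0 : ℝ) 1, 0 ≤ K' s := fun s hs => by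
    rw [eK s hs]
    refine Ew_nonneg hY h hx hF fun w => ?_
    have h3 := psd_cm (A0 := A0) (a := a) (b := b) (c := c) h hx hD hφ hψ.eg hP
      (fun e => dcm A0 a b c x F D φ φ1 e s w) 0 s w
    simpa [Kf] using h3
  have hG : ∀ s ∈ Set.Icc (0 : ℝ) 1, Ew A0 a b c x F Y (Gf A0 a b c x F φ ψ) s ≤
      Ew A0 a b c x F Y (Gf A0 a b c x F φ ψ) 0 := by
    intro s hs
    have h1 := rel3 (A0 := A0) (a := a) (b := b) (c := c) hY h hx hF hφ hψ le_rfl hs.1 hs.2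
    have h2 : 0 ≤ ∫ r in (0 : ℝ)..s, x * Ew A0 a b c x F Y (Wf A0 a b c x F D φ φ1) r :=
      intervalIntegral.integral_nonneg hs.1 fun r _ =>
        mul_nonneg hx (Ew_nonneg hY h hx hF fun w => Wf_nonneg r w)
    have h3 : ∫ r in (0 : ℝ)..s, -x * Ew A0 a b c x F Y (Wf A0 a b c x F D φ φ1) r =
        -∫ r in (0 : ℝ)..s, x * Ew A0 a b c x F Y (Wf A0 a b c x F D φ φ1) r := by
      rw [← intervalIntegral.integral_neg]
      congr 1
      funext r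
      ring
    rw [h3] at h1
    linarith
  have hq1 : q = ∫ s in (0 : ℝ)..1, W' s := by
    rw [hq, rel1 hY h hx hF hφ, int_ext eW le_rfl zero_le_one le_rfl]
  have he1 : ∫ s in (0 : ℝ)..1, (1 - s) * E' s =
      ∫ s in (0 : ℝ)..1, (1 - s) * Ew A0 a b c x F Y (Ef A0 a b c x F D H φ φ1 φ11) s :=
    int_ext (g := fun s => (1 - s) * E' s) (fun s hs => by rw [eE s hs]) le_rfl zero_le_one le_rfl
  have key := row_det (W := W') (E := E') (K := K')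
    (R := Ew A0 a b c x F Y (Gf A0 a b c x F φ ψ)) hx hW' hE' hK' (fun s hs => by
      rw [eW s hs, eW 0 h0, rel2 hY h hx hF hD hφ hφ1 le_rfl hs.1 hs.2]
      exact (int_ext (g := fun r => E' r - 2 * x * K' r)
        (fun r hr => by rw [eE r hr, eK r hr]) le_rfl hs.1 hs.2).symm) hG hW0 hE0 hK0
    (fun s hs => by
      rw [eW s hs, eK s hs]
      exact rel4 hY h hx hF hD hφ hψ hP hs) (by
      rw [← hq1, he1]
      exact heb.trans hle)
  rw [← hq1, he1, eW 0 h0] at key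
  set e0 := ∫ s in (0 : ℝ)..1, (1 - s) * Ew A0 a b c x F Y (Ef A0 a b c x F D H φ φ1 φ11) s
  have hG0 : 0 ≤ Ew A0 a b c x F Y (Gf A0 a b c x F φ ψ) 0 := by
    refine Ew_nonneg hY h hx hF fun w => ?_
    have h3 := psd_cm (A0 := A0) (a := a) (b := b) (c := c) h hx hD hφ hψ.eg hP
      (fun _ => 0) 1 0 w
    simpa using h3
  have h4 : (q - eb) ^ 2 ≤ (q - e0) ^ 2 := by
    have : 0 ≤ q - eb := by linarith
    have : q - eb ≤ q - e0 := by linarith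
    exact pow_le_pow_left₀ (by assumption) this 2
  have h5 := mul_le_mul_of_nonneg_left h4 hx
  have h6 : Ew A0 a b c x F Y (Gf A0 a b c x F φ ψ) 0 * (q - eb) ≤
      Ew A0 a b c x F Y (Gf A0 a b c x F φ ψ) 0 * (q - e0) :=
    mul_le_mul_of_nonneg_left (by linarith) hG0
  linarith

/-- **(L')** the lower bound, with the second moment matrix -/
theorem row_L (hY : Wg A0 Y) (h : C11 F D B L) (hx : 0 ≤ x) (hF : H325.C2 F D F2)
    (hD : ∀ e, H325.C2 (D e) (H e) (T e)) (hφ : H325.C2 φ φ1 φ2)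
    (hφ1 : ∀ e, H325.C2 (φ1 e) (φ11 e) (φ12 e)) :
    Ew A0 a b c x F Y (Wf A0 a b c x F D φ φ1) 0 - 2 * x * (∫ s in (0 : ℝ)..1,
      (1 - s) * Ew A0 a b c x F Y (Kb A0 a b c x F D H φ φ1) s) ≤
    Ew A0 a b c x F Y (fun s w => cm A0 a b c x F φ s w ^ 2) 1 -
      Ew A0 a b c x F Y (fun s w => cm A0 a b c x F φ s w ^ 2) 0 := by
  have gE := ge_Ef h hx hF hD hφ hφ1 A0 a b c
  have gK := ge_Kf h hx hF hD hφ A0 a b c
  have gB := ge_Kb h hx hF hD hφ A0 a b c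
  have gW := ge_Wf h hx hF hφ A0 a b c
  have cE := Ew_cont (A0 := A0) (a := a) (b := b) (c := c) hY h hx hF gE
  have cK := Ew_cont (A0 := A0) (a := a) (b := b) (c := c) hY h hx hF gK
  have cB := Ew_cont (A0 := A0) (a := a) (b := b) (c := c) hY h hx hF gB
  have cW := Ew_cont (A0 := A0) (a := a) (b := b) (c := c) hY h hx hF gW
  obtain ⟨E', hE', eE⟩ := ext_cont cE
  obtain ⟨K', hK', eK⟩ := ext_cont cK
  obtain ⟨B', hB', eB⟩ := ext_cont cB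
  obtain ⟨W', hW', eW⟩ := ext_cont cW
  have h0 : (0 : ℝ) ∈ Set.Icc (0 : ℝ) 1 := by simp
  have key := row_low (W := W') (E := E') (K := K') (x := x) hW' hE' hK' (fun s hs => by
      rw [eW s hs, eW 0 h0, rel2 hY h hx hF hD hφ hφ1 le_rfl hs.1 hs.2]
      exact (int_ext (g := fun r => E' r - 2 * x * K' r)
        (fun r hr => by rw [eE r hr, eK r hr]) le_rfl hs.1 hs.2).symm) fun s hs => by
      rw [eE s hs]
      exact Ew_nonneg hY h hx hF fun w => Ef_nonneg s w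
  rw [int_ext eW le_rfl zero_le_one le_rfl, eW 0 h0] at key
  rw [rel1 hY h hx hF hφ]
  refine le_trans ?_ key
  have h1 : ∫ s in (0 : ℝ)..1, (1 - s) * K' s ≤ ∫ s in (0 : ℝ)..1, (1 - s) * B' s :=
    intervalIntegral.integral_mono_on (μ := volume) zero_le_one
      (Continuous.intervalIntegrable (by fun_prop) _ _)
      (Continuous.intervalIntegrable (by fun_prop) _ _) fun s hs => by
      refine mul_le_mul_of_nonneg_left ?_ (by linarith [hs.2])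
      rw [eK s hs, eB s hs]
      exact Ew_mono hY h hx hF gK gB hs fun w => Kf_le_Kb h hx hD s w
  have h2 : ∫ s in (0 : ℝ)..1, (1 - s) * B' s = ∫ s in (0 : ℝ)..1,
      (1 - s) * Ew A0 a b c x F Y (Kb A0 a b c x F D H φ φ1) s :=
    int_ext (g := fun s => (1 - s) * B' s) (fun s hs => by rw [eB s hs]) le_rfl zero_le_one le_rfl
  have h3 : x * (∫ s in (0 : ℝ)..1, (1 - s) * K' s) ≤ x * ∫ s in (0 : ℝ)..1, (1 - s) *
      Ew A0 a b c x F Y (Kb A0 a b c x F D H φ φ1) s := by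
    rw [← h2]
    exact mul_le_mul_of_nonneg_left h1 hx
  linarith

lemma Kb_le (h : C11 F D B L) (hx : 0 ≤ x) (hD : ∀ e, H325.C2 (D e) (H e) (T e)) {M : ℝ}
    (hM : ∀ y (v : ι → ℝ), ∑ e ∈ A0, ∑ i ∈ A0, v e * v i * (H e i y + x * (D e y * D i y)) ≤
      M * ∑ e ∈ A0, v e ^ 2) (s : ℝ) (w : ι ⊕ ι → ℝ) :
    Kb A0 a b c x F D H φ φ1 s w ≤ M * Wf A0 a b c x F D φ φ1 s w := by
  have eD : ∀ e, EG (D e) := fun e => h.eg_D e
  set g : ι → ℝ := fun e => dcm A0 a b c x F D φ φ1 e s w with hg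
  have e0 : ∀ e i, EG fun y => g e * g i * (H e i y + x * (D e y * D i y)) := fun e i =>
    (((hD e).eg1 i).add (((eD e).mul (eD i)).const_mul x)).const_mul _
  have h1 : Kb A0 a b c x F D H φ φ1 s w = cm A0 a b c x F (fun y =>
      ∑ e ∈ A0, ∑ i ∈ A0, g e * g i * (H e i y + x * (D e y * D i y))) s w := by
    rw [cm_sum A0 h fun e _ => EG.sum _ fun i _ => e0 e i]
    unfold Kb
    refine Finset.sum_congr rfl fun e _ => ?_
    rw [cm_sum A0 h fun i _ => e0 e i]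
    exact Finset.sum_congr rfl fun i _ => (cm_const_mul _ _ _ _).symm
  rw [h1]
  refine (cm_mono h (EG.sum _ fun e _ => EG.sum _ fun i _ => e0 e i)
    (EG.const (M * ∑ e ∈ A0, g e ^ 2)) (fun y => hM y g) s w).trans (le_of_eq ?_)
  rw [cm_const h]
  rfl

/-- **Poincaré inequality under the tilted law of the row.** -/
theorem row_poincare (hY : Wg A0 Y) (h : C11 F D B L) (hx : 0 ≤ x) (hF : H325.C2 F D F2)
    (hD : ∀ e, H325.C2 (D e) (H e) (T e)) (hφ : H325.C2 φ φ1 φ2)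
    (hφ1 : ∀ e, H325.C2 (φ1 e) (φ11 e) (φ12 e)) {M : ℝ} (hM0 : 0 ≤ M)
    (hM : ∀ y (v : ι → ℝ), ∑ e ∈ A0, ∑ i ∈ A0, v e * v i * (H e i y + x * (D e y * D i y)) ≤
      M * ∑ e ∈ A0, v e ^ 2) {s : ℝ} (hs : s ∈ Set.Icc (0 : ℝ) 1) :
    Ew A0 a b c x F Y (fun s w => cm A0 a b c x F φ s w ^ 2) s -
      Ew A0 a b c x F Y (fun s w => cm A0 a b c x F φ s w ^ 2) 0 ≤
      s * (Real.exp (2 * x * M) * Ew A0 a b c x F Y (Wf A0 a b c x F D φ φ1) s) := by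
  have gE := ge_Ef h hx hF hD hφ hφ1 A0 a b c
  have gK := ge_Kf h hx hF hD hφ A0 a b c
  have gW := ge_Wf h hx hF hφ A0 a b c
  have cE := Ew_cont (A0 := A0) (a := a) (b := b) (c := c) hY h hx hF gE
  have cK := Ew_cont (A0 := A0) (a := a) (b := b) (c := c) hY h hx hF gK
  have cW := Ew_cont (A0 := A0) (a := a) (b := b) (c := c) hY h hx hF gW
  obtain ⟨E', hE', eE⟩ := ext_cont cE
  obtain ⟨K', hK', eK⟩ := ext_cont cK
  obtain ⟨W', hW', eW⟩ := ext_cont cW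
  have h0 : (0 : ℝ) ∈ Set.Icc (0 : ℝ) 1 := by simp
  have key := row_poin (W := W') (E := E') (K := K') (x := x) hx hM0 hW' hE' hK'
    (fun s hs => by
      rw [eW s hs, eW 0 h0, rel2 hY h hx hF hD hφ hφ1 le_rfl hs.1 hs.2]
      exact (int_ext (g := fun r => E' r - 2 * x * K' r)
        (fun r hr => by rw [eE r hr, eK r hr]) le_rfl hs.1 hs.2).symm)
    (fun s hs => by
      rw [eE s hs]
      exact Ew_nonneg hY h hx hF fun w => Ef_nonneg s w)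
    (fun s hs => by
      rw [eW s hs]
      exact Ew_nonneg hY h hx hF fun w => Wf_nonneg s w)
    (fun s hs => by
      rw [eW s hs, eK s hs, ← Ew_const_mul]
      exact Ew_mono hY h hx hF gK (gW.const_mul M) hs fun w =>
        (Kf_le_Kb h hx hD s w).trans (Kb_le h hx hD hM s w)) hs
  rw [int_ext eW le_rfl hs.1 hs.2, eW s hs] at key
  obtain ⟨D', k⟩ := kx_sq h hx hF hφ A0 a b c
  rw [Ew_ftc hY h hx hF k le_rfl hs.1 hs.2]
  exact key

end Vale.Agent.P146.H266
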